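import Vale.Agent.P260.H283.Three
import Mathlib.Topology.Baire.CompleteMetrizable

/-!
# Maps with finite fibres: trivially covered open sets
-/

open Metric Set Topology Filter
open Vale.Agent.P239.M Vale.Agent.P239.M.Fill

namespace Vale.Agent.P260.H283

variable {n : ℕ} {M N : Type*} [MetricSpace M] [CompactSpace M] [MetricSpace N]

open Classical in
/-- the sheet `U` has degree one at `z` -/
def D1 (f : M → N) (β' : (Fin n → ℝ) → N) (c : ℕ → Ch (ZMod 2) M) (𝒰 : Ultrafilter ℕ)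
    (U : Set M) (z : N) : Prop :=
  ∀ᶠ k in 𝒰, dg β' (pf f ((c k).filter (In U))) z = 1

/-- there are `j` disjoint sheets of degree one at `z` -/
def Sh (f : M → N) (β' : (Fin n → ℝ) → N) (c : ℕ → Ch (ZMod 2) M) (𝒰 : Ultrafilter ℕ)
    (j : ℕ) (z : N) : Prop :=
  ∃ (U : Fin j → Set M) (r : ℝ), 0 < r ∧ (∀ i, IsCompact (U i)) ∧
    (∀ i i', i ≠ i' → Disjoint (U i) (U i')) ∧ (∀ i, IsOpen (U i ∩ f ⁻¹' ball z r)) ∧
    ∀ i, D1 f β' c 𝒰 (U i) z

theorem iso_shrink {f : M → N} (hf : Continuous f) {U : Set M} {z : N} {r : ℝ}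
    (h : IsOpen (U ∩ f ⁻¹' ball z r)) {z' : N} {s : ℝ} (hs : ball z' s ⊆ ball z r) :
    IsOpen (U ∩ f ⁻¹' ball z' s) := by
  have : U ∩ f ⁻¹' ball z' s = (U ∩ f ⁻¹' ball z r) ∩ f ⁻¹' ball z' s := by
    ext x
    constructor
    · rintro ⟨a, b⟩; exact ⟨⟨a, hs b⟩, b⟩
    · rintro ⟨⟨a, -⟩, b⟩; exact ⟨a, b⟩
  rw [this]
  exact h.inter (isOpen_ball.preimage hf)

open Classical in
/-- Additivity of the degree of sheets. -/
theorem sheet_add {f : M → N} (hf : Continuous f) {β' : (Fin n → ℝ) → N}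
    (hβ' : IsOpenEmbedding β') {U P R : Set M} (hP : IsCompact P) (hR : IsCompact R)
    (hPR : Disjoint P R) (hPU : P ⊆ U) (hRU : R ⊆ U) {z : N} (hz : z ∈ β' '' Q n 7) {t : ℝ}
    (ht : 0 < t) (hcov : ∀ x ∈ U, dist (f x) z < t → x ∈ P ∪ R) :
    ∃ κ > 0, ∀ c : Ch (ZMod 2) M, Sup (fun l => l.length = n + 1 ∧ Sm κ l) c →
      dg β' (pf f (c.filter (In U))) z = dg β' (pf f (c.filter (In P))) z +
        dg β' (pf f (c.filter (In R))) z := by
  obtain ⟨κ₁, hκ₁, h1⟩ := filter_union (n := n) hP hR hPR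
  obtain ⟨k2, hk2, hfar⟩ := dg_far hβ' ht
  obtain ⟨κ₂, hκ₂, h2⟩ := small_map hf hk2
  refine ⟨min κ₁ κ₂, lt_min hκ₁ hκ₂, fun c hs => ?_⟩
  have e1 : (c.filter (In U)).filter (In (P ∪ R)) = c.filter (In (P ∪ R)) := by
    ext l
    by_cases h : In (P ∪ R) l
    · have h' : In U l := fun x hx => by
        rcases h x hx with h' | h'
        · exact hPU h'
        · exact hRU h'
      rw [Finsupp.filter_apply_pos _ _ h, Finsupp.filter_apply_pos _ _ h',
        Finsupp.filter_apply_pos _ _ h]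
    · rw [Finsupp.filter_apply_neg _ _ h, Finsupp.filter_apply_neg _ _ h]
  have e2 : dg β' (pf f ((c.filter (In U)).filter (fun l => ¬ In (P ∪ R) l))) z = 0 := by
    refine (hfar _ z hz (Sup.pf f ?_)).1
    intro l hl
    rw [Finsupp.support_filter, Finset.mem_filter, Finsupp.support_filter,
      Finset.mem_filter] at hl
    obtain ⟨⟨hl1, hl2⟩, hl3⟩ := hl
    refine ⟨h2 l (sm_mono (min_le_right _ _) (hs l hl1).2), ?_⟩
    unfold In at hl3
    push Not at hl3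
    obtain ⟨w, hw, hwn⟩ := hl3
    refine ⟨f w, List.mem_map_of_mem hw, ?_⟩
    by_contra hlt
    rw [not_le] at hlt
    exact hwn (hcov w (hl2 w hw) (by rw [dist_comm]; exact hlt))
  have e3 := Finsupp.filter_add_filter_not (c.filter (In U)) (In (P ∪ R))
  rw [← e3, map_add, inv_dg_add, e2, add_zero, e1,
    h1 c (Sup.mono (fun l hl => ⟨hl.1, sm_mono (min_le_left _ _) hl.2⟩) hs), map_add, inv_dg_add]

variable [CompactSpace N]

section Fam

variable {f : M → N} {β' : (Fin n → ℝ) → N} {c : ℕ → Ch (ZMod 2) M} {𝒰 : Ultrafilter ℕ}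

theorem D1.onto (hn : 0 < n) (hf : Continuous f) (hβ' : IsOpenEmbedding β')
    (hc0 : ∀ k, bd (c k) = 0)
    (hsU : ∀ κ > 0, ∀ᶠ k in 𝒰, Sup (fun l => l.length = n + 1 ∧ Sm κ l) (c k))
    {U : Set M} (hU : IsCompact U) {z : N} (hz : z ∈ β' '' Q n 2) {ρ : ℝ} (hρ : 0 < ρ)
    (hiso : IsOpen (U ∩ f ⁻¹' ball z ρ)) (hD : D1 f β' c 𝒰 U z) :
    ∃ r > 0, ball z r ⊆ f '' U :=
  sheet_onto hn hf hU hρ hiso hβ' hz (by
    intro κ hκ
    obtain ⟨k, hk1, hk2⟩ := (hD.and (hsU κ hκ)).exists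
    exact ⟨c k, hc0 k, hk2, hk1⟩)

theorem D1.near (hn : 0 < n) (hf : Continuous f) (hβ' : IsOpenEmbedding β')
    (hc0 : ∀ k, bd (c k) = 0)
    (hsU : ∀ κ > 0, ∀ᶠ k in 𝒰, Sup (fun l => l.length = n + 1 ∧ Sm κ l) (c k))
    {U : Set M} (hU : IsCompact U) {z : N} (hz : z ∈ β' '' Q n 2) {ρ : ℝ} (hρ : 0 < ρ)
    (hiso : IsOpen (U ∩ f ⁻¹' ball z ρ)) (hD : D1 f β' c 𝒰 U z) :
    ∃ r > 0, ∀ z' ∈ ball z r, D1 f β' c 𝒰 U z' := by
  obtain ⟨r, hr, κ, hκ, h⟩ := sheet_const hn hf hU hρ hiso hβ' hz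
  refine ⟨r, hr, fun z' hz' => ?_⟩
  unfold D1 at hD ⊢
  filter_upwards [hD, hsU κ hκ] with k hk hs
  rw [h (c k) (hc0 k) hs z' hz', hk]

theorem Sh.card {j : ℕ} (hn : 0 < n) (hf : Continuous f) (hβ' : IsOpenEmbedding β')
    (hc0 : ∀ k, bd (c k) = 0)
    (hsU : ∀ κ > 0, ∀ᶠ k in 𝒰, Sup (fun l => l.length = n + 1 ∧ Sm κ l) (c k))
    {z : N} (hz : z ∈ β' '' Q n 2) (h : Sh f β' c 𝒰 j z) (hfin : (f ⁻¹' {z}).Finite) :
    j ≤ (f ⁻¹' {z}).ncard := by
  obtain ⟨U, r, hr, hUc, hUd, hUo, hUD⟩ := h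
  have h1 : ∀ i, ∃ x ∈ U i, f x = z := fun i => by
    obtain ⟨s, hs, h2⟩ := D1.onto hn hf hβ' hc0 hsU (hUc i) hz hr (hUo i) (hUD i)
    exact h2 (mem_ball_self hs)
  choose φ hφU hφ using h1
  have hinj : Function.Injective φ := by
    intro i i' h
    by_contra hne
    exact (disjoint_left.1 (hUd i i' hne)) (hφU i) (h ▸ hφU i')
  have h2 : (range φ).ncard = j := by
    rw [← Set.image_univ, Set.ncard_image_of_injective _ hinj, Set.ncard_univ, Nat.card_fin]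
  rw [← h2]
  refine Set.ncard_le_ncard ?_ hfin
  rintro _ ⟨i, rfl⟩
  exact hφ i

/-- Adding a sheet. -/
theorem Sh.extend {m : ℕ} {U : Fin m → Set M} (hUc : ∀ i, IsCompact (U i))
    (hUd : ∀ i i', i ≠ i' → Disjoint (U i) (U i')) {z : N} {r : ℝ} (hr : 0 < r)
    (hUo : ∀ i, IsOpen (U i ∩ f ⁻¹' ball z r)) (hUD : ∀ i, D1 f β' c 𝒰 (U i) z) {S : Set M}
    (hS : IsCompact S) (hSo : IsOpen (S ∩ f ⁻¹' ball z r)) (hSD : D1 f β' c 𝒰 S z)
    (hSU : ∀ i, Disjoint S (U i)) : Sh f β' c 𝒰 (m + 1) z := by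
  refine ⟨Fin.cons S U, r, hr, ?_, ?_, ?_, ?_⟩
  · intro i
    refine Fin.cases ?_ (fun i => ?_) i
    · simpa using hS
    · simpa using hUc i
  · intro i i'
    refine Fin.cases ?_ (fun i => ?_) i
    · refine Fin.cases ?_ (fun i' => ?_) i'
      · intro h; exact absurd rfl h
      · intro _
        simpa using hSU i'
    · refine Fin.cases ?_ (fun i' => ?_) i'
      · intro _
        simpa using (hSU i).symm
      · intro h
        simpa using hUd i i' (fun h' => h (by rw [h']))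
  · intro i
    refine Fin.cases ?_ (fun i => ?_) i
    · simpa using hSo
    · simpa using hUo i
  · intro i
    refine Fin.cases ?_ (fun i => ?_) i
    · simpa using hSD
    · simpa using hUD i

open Classical in
/-- The sum of the degrees of finitely many disjoint sheets. -/
theorem sheet_sum {f : M → N} {m : ℕ} {U : Fin m → Set M} (hUc : ∀ i, IsCompact (U i))
    (hUd : ∀ i i', i ≠ i' → Disjoint (U i) (U i')) (s : Finset (Fin m)) (z : N) :
    ∃ κ > 0, ∀ c : Ch (ZMod 2) M, Sup (fun l => l.length = n + 1 ∧ Sm κ l) c →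
      dg β' (pf f (c.filter (In (⋃ i ∈ s, U i)))) z =
        ∑ i ∈ s, dg β' (pf f (c.filter (In (U i)))) z := by
  induction s using Finset.induction_on with
  | empty =>
    refine ⟨1, one_pos, fun c hs => ?_⟩
    have h0 : c.filter (In (⋃ i ∈ (∅ : Finset (Fin m)), U i)) = 0 := by
      rw [← Finsupp.support_eq_empty, Finset.eq_empty_iff_forall_notMem]
      intro l hl
      rw [Finsupp.support_filter, Finset.mem_filter] at hl
      have hne : l ≠ [] := by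
        intro h
        have := (hs l hl.1).1
        rw [h] at this
        simp at this
      obtain ⟨w, hw⟩ := List.exists_mem_of_ne_nil l hne
      simpa using hl.2 w hw
    rw [h0, map_zero, Finset.sum_empty]
    unfold dg
    exact map_zero _
  | insert i s hi ih =>
    obtain ⟨κ₁, hκ₁, h1⟩ := ih
    have hsc : IsCompact (⋃ i ∈ s, U i) := s.isCompact_biUnion fun i _ => hUc i
    have hd : Disjoint (U i) (⋃ i ∈ s, U i) := by
      rw [disjoint_iUnion₂_right]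
      intro j hj
      exact hUd i j (fun h => hi (h ▸ hj))
    obtain ⟨κ₂, hκ₂, h2⟩ := filter_union (n := n) (hUc i) hsc hd
    refine ⟨min κ₁ κ₂, lt_min hκ₁ hκ₂, fun c hs => ?_⟩
    rw [Finset.set_biUnion_insert, h2 c (Sup.mono (fun l hl =>
      ⟨hl.1, sm_mono (min_le_right _ _) hl.2⟩) hs), map_add, inv_dg_add, Finset.sum_insert hi,
      h1 c (Sup.mono (fun l hl => ⟨hl.1, sm_mono (min_le_left _ _) hl.2⟩) hs)]

end Fam

end Vale.Agent.P260.H283
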