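import Vale.Agent.P260.H283.Cover

/-!
# Trivially covered open sets, continued
-/

open Metric Set Topology Filter
open Vale.Agent.P239.M Vale.Agent.P239.M.Fill

namespace Vale.Agent.P260.H283

variable {n : ℕ} {M N : Type*} [MetricSpace M] [CompactSpace M]
  [ChartedSpace (EuclideanSpace ℝ (Fin n)) M] [MetricSpace N] [CompactSpace N]

section Core

variable {f : M → N} {β' : (Fin n → ℝ) → N} {c : ℕ → Ch (ZMod 2) M} {𝒰 : Ultrafilter ℕ}

/-- New sheets of degree one. -/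
theorem nv (hn : 0 < n) (hf : Continuous f) (hβ' : IsOpenEmbedding β') (hc0 : ∀ k, bd (c k) = 0)
    (hcs : ∀ κ > 0, ∀ᶠ k in atTop, Sup (fun l => l.length = n + 1 ∧ Sm κ l) (c k))
    (hc1 : ∀ (x₀ : M) (β : (Fin n → ℝ) → M), IsOpenEmbedding β → β 0 = x₀ →
      ∀ᶠ k in atTop, dg β (c k) x₀ = 1) (h𝒰 : (𝒰 : Filter ℕ) ≤ atTop) {V : Set N}
    (hV1 : V ⊆ β' '' Q n 1) (hVl : ∀ z ∈ V, IsTotallyDisconnected (f ⁻¹' {z})) {W : Set M}
    (hW : IsOpen W) (hWV : W ⊆ f ⁻¹' V) {x₀ : M} (hx₀ : x₀ ∈ W) :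
    ∃ (S : Set M) (y : N) (ρ : ℝ), IsCompact S ∧ S ⊆ W ∧ y ∈ β' '' Q n 2 ∧ 0 < ρ ∧
      IsOpen (S ∩ f ⁻¹' ball y ρ) ∧ D1 f β' c 𝒰 S y ∧ y ∈ f '' S := by
  obtain ⟨S, y, ρ, h1, h2, h3, h4, h5, h6⟩ := nonvanish hn hf hβ' hW (fun z t ht _ b hb => by
    obtain ⟨hbW, hbz⟩ := ht hb
    have hbz' : f b = z := hbz
    have hz : z ∈ V := hbz' ▸ hWV hbW
    exact hVl z hz t (ht.trans inter_subset_right) ‹_› hb) hx₀ (fun x hx => hV1 (hWV hx)) c hc0
    hcs (hc1 x₀) 𝒰 h𝒰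
  have h7 : D1 f β' c 𝒰 S y := h6
  obtain ⟨r, hr, hon⟩ := D1.onto hn hf hβ' hc0 (fun κ hκ => (hcs κ hκ).filter_mono h𝒰) h1 h3 h4 h5
    h7
  exact ⟨S, y, ρ, h1, h2, h3, h4, h5, h7, hon (mem_ball_self hr)⟩

/-- Injectivity of the sheets of a maximal family. -/
theorem inj_aux (hn : 0 < n) (hf : Continuous f) (hβ' : IsOpenEmbedding β')
    (hc0 : ∀ k, bd (c k) = 0)
    (hcs : ∀ κ > 0, ∀ᶠ k in atTop, Sup (fun l => l.length = n + 1 ∧ Sm κ l) (c k))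
    (hc1 : ∀ (x₀ : M) (β : (Fin n → ℝ) → M), IsOpenEmbedding β → β 0 = x₀ →
      ∀ᶠ k in atTop, dg β (c k) x₀ = 1) (h𝒰 : (𝒰 : Filter ℕ) ≤ atTop) {V : Set N}
    (hV1 : V ⊆ β' '' Q n 1) (hVl : ∀ z ∈ V, IsTotallyDisconnected (f ⁻¹' {z})) {m : ℕ}
    (hmax : ∀ z ∈ V, ¬ Sh f β' c 𝒰 (m + 1) z) {U : Fin m → Set M} (hUc : ∀ i, IsCompact (U i))
    (hUd : ∀ i i', i ≠ i' → Disjoint (U i) (U i')) {z₀ : N} {r s : ℝ}
    (hUo : ∀ i, IsOpen (U i ∩ f ⁻¹' ball z₀ r)) (hsr : s ≤ r) (hsV : ball z₀ s ⊆ V)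
    (hUD : ∀ i, ∀ z ∈ ball z₀ s, D1 f β' c 𝒰 (U i) z) (i : Fin m) {P R : Set M}
    (hP : IsCompact P) (hPU : P ⊆ U i) (hRU : R ⊆ U i)
    (hPR : Disjoint P R) {z' : N} {t : ℝ} (ht : 0 < t) (hts : ball z' t ⊆ ball z₀ s)
    (hPo : IsOpen (P ∩ f ⁻¹' ball z' t)) (hRo : IsOpen (R ∩ f ⁻¹' ball z' t))
    (hPD : D1 f β' c 𝒰 P z') {q : M} (hq : q ∈ R) (hqz : f q = z') : False := by
  classical
  have hsU : ∀ κ > 0, ∀ᶠ k in 𝒰, Sup (fun l => l.length = n + 1 ∧ Sm κ l) (c k) :=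
    fun κ hκ => (hcs κ hκ).filter_mono h𝒰
  have hz'V : z' ∈ V := hsV (hts (mem_ball_self ht))
  obtain ⟨rP, hrP, hnear⟩ := D1.near hn hf hβ' hc0 hsU hP
    (q_mono (by norm_num) β' (hV1 hz'V)) ht hPo hPD
  set t' := min t rP with ht'
  have ht'0 : 0 < t' := lt_min ht hrP
  have htt : ball z' t' ⊆ ball z' t := ball_subset_ball (min_le_left _ _)
  obtain ⟨S, y₁, ρ₁, hS, hSW, hy₁, hρ₁, hSo, hSD, hy₁S⟩ := nv hn hf hβ' hc0 hcs hc1 h𝒰 hV1 hVl
    (iso_shrink hf hRo htt) (fun x hx => hsV (hts (htt hx.2))) (x₀ := q) ⟨hq, by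
      show f q ∈ ball z' t'
      rw [hqz]; exact mem_ball_self ht'0⟩
  have hy₁b : y₁ ∈ ball z' t' := by
    obtain ⟨x, hx, rfl⟩ := hy₁S
    exact (hSW hx).2
  have hSR : S ⊆ R := hSW.trans inter_subset_left
  set r' := min ρ₁ (t' - dist y₁ z') with hr'
  have hr'0 : 0 < r' := lt_min hρ₁ (by have := mem_ball.1 hy₁b; linarith)
  have hb1 : ball y₁ r' ⊆ ball z' t' := by
    intro w hw
    have h1 := (mem_ball.1 hw).trans_le (min_le_right _ _)
    have h2 := dist_triangle w y₁ z'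
    rw [mem_ball]
    linarith
  have hb2 : ball y₁ r' ⊆ ball z₀ r := (hb1.trans (htt.trans hts)).trans (ball_subset_ball hsr)
  have hup : ∀ j, Function.update U i P j ⊆ U j := by
    intro j
    by_cases h : j = i
    · subst h; rw [Function.update_self]; exact hPU
    · rw [Function.update_of_ne h]
  refine hmax y₁ (hsV (hts (htt hy₁b))) (Sh.extend (U := Function.update U i P) ?_ ?_ hr'0 ?_ ?_ hS
    (iso_shrink hf hSo (ball_subset_ball (min_le_left _ _))) hSD ?_)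
  · intro j
    by_cases h : j = i
    · subst h; rw [Function.update_self]; exact hP
    · rw [Function.update_of_ne h]; exact hUc j
  · intro j j' hne
    exact (hUd j j' hne).mono (hup j) (hup j')
  · intro j
    by_cases h : j = i
    · subst h; rw [Function.update_self]
      exact iso_shrink hf hPo (hb1.trans htt)
    · rw [Function.update_of_ne h]; exact iso_shrink hf (hUo j) hb2
  · intro j
    by_cases h : j = i
    · subst h; rw [Function.update_self]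
      exact hnear y₁ (ball_subset_ball (min_le_right _ _) hy₁b)
    · rw [Function.update_of_ne h]
      exact hUD j y₁ (hts (htt hy₁b))
  · intro j
    by_cases h : j = i
    · subst h; rw [Function.update_self]
      exact (hPR.mono_right hSR).symm
    · rw [Function.update_of_ne h]
      exact (hUd i j (fun h' => h h'.symm)).mono_left (hSR.trans hRU)

/-- A maximal family of sheets of degree one trivializes the map over a ball. -/
theorem cover_core (hn : 0 < n) (hf : Continuous f) (hβ' : IsOpenEmbedding β')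
    (hc0 : ∀ k, bd (c k) = 0)
    (hcs : ∀ κ > 0, ∀ᶠ k in atTop, Sup (fun l => l.length = n + 1 ∧ Sm κ l) (c k))
    (hc1 : ∀ (x₀ : M) (β : (Fin n → ℝ) → M), IsOpenEmbedding β → β 0 = x₀ →
      ∀ᶠ k in atTop, dg β (c k) x₀ = 1) (h𝒰 : (𝒰 : Filter ℕ) ≤ atTop) {V : Set N}
    (hVo : IsOpen V) (hV1 : V ⊆ β' '' Q n 1)
    (hVl : ∀ z ∈ V, IsTotallyDisconnected (f ⁻¹' {z})) {m : ℕ}
    (hmax : ∀ z ∈ V, ¬ Sh f β' c 𝒰 (m + 1) z) {z₀ : N} (hz₀ : z₀ ∈ V)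
    (hSh : Sh f β' c 𝒰 m z₀) :
    ∃ s > 0, ball z₀ s ⊆ V ∧ ∃ U : Fin m → Set M, (∀ i, IsCompact (U i)) ∧
      (∀ i i', i ≠ i' → Disjoint (U i) (U i')) ∧ (∀ i, IsOpen (U i ∩ f ⁻¹' ball z₀ s)) ∧
      (∀ i, D1 f β' c 𝒰 (U i) z₀) ∧ (∀ i, ball z₀ s ⊆ f '' U i) ∧
      (∀ i, InjOn f (U i ∩ f ⁻¹' ball z₀ s)) ∧ f ⁻¹' ball z₀ s ⊆ ⋃ i, U i := by
  classical
  have hsU : ∀ κ > 0, ∀ᶠ k in 𝒰, Sup (fun l => l.length = n + 1 ∧ Sm κ l) (c k) :=
    fun κ hκ => (hcs κ hκ).filter_mono h𝒰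
  obtain ⟨U, r, hr, hUc, hUd, hUo, hUD⟩ := hSh
  have hz2 : ∀ z ∈ V, z ∈ β' '' Q n 2 := fun z hz => q_mono (by norm_num) β' (hV1 hz)
  choose r1 hr1 hnear using fun i => D1.near hn hf hβ' hc0 hsU (hUc i) (hz2 z₀ hz₀) hr (hUo i)
    (hUD i)
  choose r2 hr2 hon using fun i => D1.onto hn hf hβ' hc0 hsU (hUc i) (hz2 z₀ hz₀) hr (hUo i)
    (hUD i)
  obtain ⟨r3, hr3, hr3s⟩ := Metric.mem_nhds_iff.1 (hVo.mem_nhds hz₀)
  obtain ⟨k1, hk1, hk1'⟩ := fund_min r1 hr1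
  obtain ⟨k2, hk2, hk2'⟩ := fund_min r2 hr2
  obtain ⟨s, hs, hs1, hs2, hs3, hs4⟩ : ∃ s > 0, s ≤ k1 ∧ s ≤ k2 ∧ s ≤ r3 ∧ s ≤ r :=
    ⟨min (min k1 k2) (min r3 r), by positivity, (min_le_left _ _).trans (min_le_left _ _),
      (min_le_left _ _).trans (min_le_right _ _), (min_le_right _ _).trans (min_le_left _ _),
      (min_le_right _ _).trans (min_le_right _ _)⟩
  have hsV : ball z₀ s ⊆ V := (ball_subset_ball hs3).trans hr3s
  have hUD' : ∀ i, ∀ z ∈ ball z₀ s, D1 f β' c 𝒰 (U i) z := fun i z hz =>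
    hnear i z (ball_subset_ball (hs1.trans (hk1' i)) hz)
  refine ⟨s, hs, hsV, U, hUc, hUd, fun i => iso_shrink hf (hUo i) (ball_subset_ball hs4), hUD,
    fun i => (ball_subset_ball (hs2.trans (hk2' i))).trans (hon i), ?_, ?_⟩
  · -- injectivity
    rintro i p ⟨hpU, hpb⟩ q ⟨hqU, hqb⟩ hpq
    by_contra hne
    set z' := f p with hz'
    have hpb' : z' ∈ ball z₀ s := hpb
    have hFc : IsCompact (U i ∩ f ⁻¹' {z'}) :=
      (hUc i).inter_right (isClosed_singleton.preimage hf)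
    have hFt : IsTotallyDisconnected (U i ∩ f ⁻¹' {z'}) := fun t ht =>
      hVl z' (hsV hpb) t (ht.trans inter_subset_right)
    obtain ⟨C₁, C₂, h1, h2, h12, hC, hC1, hC2⟩ := split_tot hFc hFt
      (isClosed_singleton (x := p)) (isClosed_singleton (x := q)) (by
        rw [disjoint_singleton]; exact hne)
    have hpC : p ∈ C₁ := hC1 ⟨⟨hpU, rfl⟩, rfl⟩
    have hqC : q ∈ C₂ := hC2 ⟨⟨hqU, hpq.symm⟩, rfl⟩
    obtain ⟨O₁, O₂, hO₁, hO₂, hCO₁, hCO₂, hO⟩ := SeparatedNhds.of_isCompact_isCompact h1 h2 h12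
    have hcl : IsClosed (f '' (U i \ (O₁ ∪ O₂))) :=
      (((hUc i).diff (hO₁.union hO₂)).image hf).isClosed
    have htn : z' ∉ f '' (U i \ (O₁ ∪ O₂)) := by
      rintro ⟨x, ⟨hxU, hxO⟩, hxt⟩
      have hx : x ∈ C₁ ∪ C₂ := by rw [hC]; exact ⟨hxU, hxt⟩
      rcases hx with hx | hx
      · exact hxO (Or.inl (hCO₁ hx))
      · exact hxO (Or.inr (hCO₂ hx))
    obtain ⟨t₀, ht₀, hb⟩ := Metric.mem_nhds_iff.1 (hcl.isOpen_compl.mem_nhds htn)
    obtain ⟨t, ht, ht1, ht2⟩ : ∃ t > 0, t < t₀ ∧ t < s - dist z' z₀ := by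
      have h3 : 0 < s - dist z' z₀ := by have := mem_ball.1 hpb'; linarith
      refine ⟨min (t₀ / 2) ((s - dist z' z₀) / 2), by positivity, ?_, ?_⟩
      · exact (min_le_left _ _).trans_lt (by linarith)
      · exact (min_le_right _ _).trans_lt (by linarith)
    have hts : ball z' t ⊆ ball z₀ s := by
      intro w hw
      have h3 := mem_ball.1 hw
      have h4 := dist_triangle w z' z₀
      rw [mem_ball]
      linarith
    have hOO : ∀ x ∈ U i, f x ∈ closedBall z' t → x ∈ O₁ ∪ O₂ := by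
      intro x hx hxt
      by_contra hxO
      exact hb (mem_ball.2 ((mem_closedBall.1 hxt).trans_lt ht1)) ⟨x, ⟨hx, hxO⟩, rfl⟩
    set P : Set M := (U i ∩ f ⁻¹' closedBall z' t) \ O₂ with hPdef
    set R : Set M := (U i ∩ f ⁻¹' closedBall z' t) \ O₁ with hRdef
    have hKc : IsCompact (U i ∩ f ⁻¹' closedBall z' t) :=
      (hUc i).inter_right (isClosed_closedBall.preimage hf)
    have hP : IsCompact P := hKc.diff hO₂
    have hR : IsCompact R := hKc.diff hO₁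
    have hPU : P ⊆ U i := fun x hx => hx.1.1
    have hRU : R ⊆ U i := fun x hx => hx.1.1
    have hPR : Disjoint P R := by
      rw [disjoint_left]
      rintro x ⟨hx, hx2⟩ ⟨-, hx1⟩
      rcases hOO x hx.1 hx.2 with h | h
      · exact hx1 h
      · exact hx2 h
    have hPo : IsOpen (P ∩ f ⁻¹' ball z' t) := by
      have : P ∩ f ⁻¹' ball z' t = (U i ∩ f ⁻¹' ball z' t) ∩ O₁ := by
        ext x
        constructor
        · rintro ⟨⟨hx, hx2⟩, hxb⟩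
          exact ⟨⟨hx.1, hxb⟩, (hOO x hx.1 hx.2).resolve_right hx2⟩
        · rintro ⟨⟨hx, hxb⟩, hx1⟩
          exact ⟨⟨⟨hx, (mem_ball.1 hxb).le⟩, fun h => (disjoint_left.1 hO) hx1 h⟩, hxb⟩
      rw [this]
      exact (iso_shrink hf (hUo i) (hts.trans (ball_subset_ball hs4))).inter hO₁
    have hRo : IsOpen (R ∩ f ⁻¹' ball z' t) := by
      have : R ∩ f ⁻¹' ball z' t = (U i ∩ f ⁻¹' ball z' t) ∩ O₂ := by
        ext x
        constructor
        · rintro ⟨⟨hx, hx2⟩, hxb⟩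
          exact ⟨⟨hx.1, hxb⟩, (hOO x hx.1 hx.2).resolve_left hx2⟩
        · rintro ⟨⟨hx, hxb⟩, hx1⟩
          exact ⟨⟨⟨hx, (mem_ball.1 hxb).le⟩, fun h => (disjoint_left.1 hO) h hx1⟩, hxb⟩
      rw [this]
      exact (iso_shrink hf (hUo i) (hts.trans (ball_subset_ball hs4))).inter hO₂
    have hpP : p ∈ P := ⟨⟨hpU, mem_closedBall_self ht.le⟩,
      fun h => (disjoint_left.1 hO) (hCO₁ hpC) h⟩
    have hqR : q ∈ R := by
      refine ⟨⟨hqU, ?_⟩, fun h => (disjoint_left.1 hO) h (hCO₂ hqC)⟩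
      show f q ∈ closedBall z' t
      rw [← hpq]; exact mem_closedBall_self ht.le
    obtain ⟨κ, hκ, hadd⟩ := sheet_add (n := n) hf hβ' hP hR hPR hPU hRU
      (q_mono (by norm_num) β' (hV1 (hsV hpb))) ht (by
        intro x hx hxt
        rcases hOO x hx (mem_closedBall.2 hxt.le) with h | h
        · exact Or.inl ⟨⟨hx, mem_closedBall.2 hxt.le⟩, fun h' => (disjoint_left.1 hO) h h'⟩
        · exact Or.inr ⟨⟨hx, mem_closedBall.2 hxt.le⟩, fun h' => (disjoint_left.1 hO) h' h⟩)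
    by_cases hD : D1 f β' c 𝒰 P z'
    · exact inj_aux hn hf hβ' hc0 hcs hc1 h𝒰 hV1 hVl hmax hUc hUd hUo hs4 hsV hUD' i hP hPU hRU
        hPR ht hts hPo hRo hD hqR hpq.symm
    · have hD' := hD
      unfold D1 at hD'
      rw [← Ultrafilter.eventually_not] at hD'
      have hD2 : D1 f β' c 𝒰 R z' := by
        have hU' := hUD' i z' hpb
        unfold D1 at hU' ⊢
        filter_upwards [hD', hU', hsU κ hκ] with k e1 e2 e3
        have e4 := hadd (c k) e3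
        rw [e2] at e4
        have : ∀ z w : ZMod 2, ¬ z = 1 → 1 = z + w → w = 1 := by decide
        exact this _ _ e1 e4
      exact inj_aux hn hf hβ' hc0 hcs hc1 h𝒰 hV1 hVl hmax hUc hUd hUo hs4 hsV hUD' i hR hRU hPU
        hPR.symm ht hts hRo hPo hD2 hpP rfl
  · -- covering
    intro x hx
    by_contra hxU
    have hcl : IsClosed (⋃ i, U i) := isClosed_iUnion_of_finite fun i => (hUc i).isClosed
    have hWo : IsOpen (f ⁻¹' ball z₀ s ∩ (⋃ i, U i)ᶜ) :=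
      (isOpen_ball.preimage hf).inter hcl.isOpen_compl
    obtain ⟨S, y₁, ρ₁, hS, hSW, hy₁, hρ₁, hSo, hSD, hy₁S⟩ := nv hn hf hβ' hc0 hcs hc1 h𝒰 hV1 hVl
      hWo (fun x hx => hsV hx.1) (x₀ := x) ⟨hx, hxU⟩
    have hy₁b : y₁ ∈ ball z₀ s := by
      obtain ⟨w, hw, rfl⟩ := hy₁S
      exact (hSW hw).1
    have hr'0 : 0 < min ρ₁ (s - dist y₁ z₀) :=
      lt_min hρ₁ (by have := mem_ball.1 hy₁b; linarith)
    have hb2 : ball y₁ (min ρ₁ (s - dist y₁ z₀)) ⊆ ball z₀ r := by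
      intro w hw
      have h1 := (mem_ball.1 hw).trans_le (min_le_right _ _)
      have h2 := dist_triangle w y₁ z₀
      rw [mem_ball]
      linarith
    refine hmax y₁ (hsV hy₁b) (Sh.extend hUc hUd hr'0 (fun i => iso_shrink hf (hUo i) hb2)
      (fun i => hUD' i y₁ hy₁b) hS (iso_shrink hf hSo (ball_subset_ball (min_le_left _ _))) hSD ?_)
    intro i
    rw [disjoint_left]
    intro w hw hwU
    exact (hSW hw).2 (mem_iUnion.2 ⟨i, hwU⟩)

end Core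

/-- Injective maps of open sets of manifolds are open embeddings. -/
theorem openEmb_of_injOn [ChartedSpace (EuclideanSpace ℝ (Fin n)) N] {f : M → N}
    (hf : Continuous f) {O : Set M} (hO : IsOpen O) (hinj : InjOn f O) :
    IsOpenEmbedding (fun x : O => f x) := by
  refine IsOpenEmbedding.of_continuous_injective_isOpenMap (hf.comp continuous_subtype_val)
    (fun a b h => Subtype.ext (hinj a.2 b.2 h)) ?_
  intro A hA
  rw [isOpen_iff_mem_nhds]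
  rintro _ ⟨a, ha, rfl⟩
  have hA' : IsOpen ((↑) '' A : Set M) := hO.isOpenMap_subtype_val A hA
  obtain ⟨β, hβ, h0, hr⟩ := exists_chart (n := n) (a : M) (hA'.mem_nhds (mem_image_of_mem _ ha))
  have hsub : range β ⊆ O := hr.trans (by rintro _ ⟨x, -, rfl⟩; exact x.2)
  have h1 := isOpenEmbedding_comp hf hβ (hinj.mono hsub)
  refine Filter.mem_of_superset (h1.isOpen_range.mem_nhds ⟨0, by
    show f (β 0) = f a
    rw [h0]⟩) ?_
  rintro _ ⟨u, rfl⟩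
  obtain ⟨x, hx, hxu⟩ := hr (mem_range_self u)
  exact ⟨x, hx, by show f (x : M) = f (β u); rw [hxu]⟩

open Classical in
/-- **Main theorem for maps with finite fibres.** -/
theorem cover_local [PreconnectedSpace M] [ChartedSpace (EuclideanSpace ℝ (Fin n)) N]
    (hn : 0 < n) (f : C(M, N)) (g : C(N, M))
    (hfg : (f.comp g).Homotopic (ContinuousMap.id N)) {y : N} {W : Set N} (hW : W ∈ 𝓝 y)
    (hfib : ∀ z ∈ W, (f ⁻¹' {z}).Finite) (hny : ¬ (f ⁻¹' {y}).Subsingleton) :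
    ∃ V : Set N, IsOpen V ∧ V.Nonempty ∧ V ⊆ W ∧ ∃ m : ℕ, Odd m ∧ 3 ≤ m ∧
      ∃ U : Fin m → Set M, (∀ i, IsOpen (U i)) ∧ (∀ i j, i ≠ j → Disjoint (U i) (U j)) ∧
        f ⁻¹' V = ⋃ i, U i ∧ ∀ i, IsOpenEmbedding (fun x : U i => f x) ∧ f '' U i = V := by
  have hfin : ∀ z ∈ W, IsTotallyDisconnected (f ⁻¹' {z}) := fun z hz =>
    (hfib z hz).countable.isTotallyDisconnected
  have hny' : ¬ IsPreconnected (f ⁻¹' {y}) := fun h => hny (hfin y (mem_of_mem_nhds hW) _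
    Subset.rfl h)
  obtain ⟨V₀, hV₀o, ⟨y₀, hy₀⟩, hV₀W, hV₀⟩ := three_local hn f g hfg hW
    (fun z hz => Or.inr (hfin z hz)) hny'
  obtain ⟨x₁, -⟩ := (hV₀ y₀ hy₀).2
  have : Nonempty M := ⟨x₁⟩
  -- the cycles
  obtain ⟨β', hβ', hβ'0, -⟩ := exists_chart (n := n) y₀ Filter.univ_mem
  have hy2 : y₀ ∈ β' '' Q n 2 := ⟨0, mem_closedBall_self (by norm_num), hβ'0⟩
  obtain ⟨βx, hβx, -, -⟩ := exists_chart (n := n) x₁ Filter.univ_mem
  obtain ⟨m₀, b, hb, hcovM, -, -⟩ := exists_atlas hβx hβx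
  have hpos : ∀ k : ℕ, (0 : ℝ) < 1 / ((k : ℝ) + 1) := fun k => by positivity
  choose c hc0 hcs hc1 htot using fun k : ℕ =>
    good_cycle hn f g hfg hβ' hy2 hb hcovM (hpos k)
  have hcs' : ∀ κ > 0, ∀ᶠ k in atTop, Sup (fun l => l.length = n + 1 ∧ Sm κ l) (c k) := by
    intro κ hκ
    have h3 := tendsto_one_div_add_atTop_nhds_zero_nat (𝕜 := ℝ)
    filter_upwards [h3.eventually (gt_mem_nhds hκ)] with k hk
    exact Sup.mono (fun l hl => ⟨hl.1, sm_mono hk.le hl.2⟩) (hcs k)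
  have hc1' : ∀ (x₀ : M) (β : (Fin n → ℝ) → M), IsOpenEmbedding β → β 0 = x₀ →
      ∀ᶠ k in atTop, dg β (c k) x₀ = 1 := by
    intro x₀ β hβ h0
    obtain ⟨a, ha⟩ := hcovM x₀
    have ha2 : x₀ ∈ b a '' Q n 2 := q_mono (by norm_num) _ ha
    obtain ⟨κ, hκ, H⟩ := dg_inv hn hβ (hb a) (show (0 : ℝ) < 1 by norm_num)
    filter_upwards [hcs' κ hκ] with k hk
    rw [H (c k) x₀ ⟨⟨0, mem_closedBall_self (by norm_num), h0⟩, ha2⟩ hk
      (by rw [hc0 k]; exact Sup.zero)]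
    exact hc1 k a x₀ ha2
  let 𝒰 : Ultrafilter ℕ := hyperfilter ℕ
  have h𝒰 : (𝒰 : Filter ℕ) ≤ atTop := by
    rw [← Nat.cofinite_eq_atTop]
    exact hyperfilter_le_cofinite
  have hsU : ∀ κ > 0, ∀ᶠ k in 𝒰, Sup (fun l => l.length = n + 1 ∧ Sm κ l) (c k) :=
    fun κ hκ => (hcs' κ hκ).filter_mono h𝒰
  obtain ⟨r₂, hr₂, κ₂, hκ₂, h2⟩ := sheet_const (U := univ) hn f.continuous isCompact_univ one_pos
    (isOpen_univ.inter (isOpen_ball.preimage f.continuous)) hβ' hy2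
  have huniv : ∀ d : Ch (ZMod 2) M, d.filter (In univ) = d := fun d => by
    rw [Finsupp.filter_eq_self_iff]
    intro l _ x _
    trivial
  -- the region
  set Ω : Set N := ball y₀ r₂ ∩ (V₀ ∩ β' '' ball 0 1) with hΩ
  have hΩo : IsOpen Ω := isOpen_ball.inter (hV₀o.inter (hβ'.isOpenMap _ isOpen_ball))
  have hΩne : Ω.Nonempty := ⟨y₀, mem_ball_self hr₂, hy₀, 0, mem_ball_self (by norm_num), hβ'0⟩
  have hΩ1 : Ω ⊆ β' '' Q n 1 := fun z hz => image_mono ball_subset_closedBall hz.2.2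
  have hΩ2 : ∀ z ∈ Ω, z ∈ β' '' Q n 2 := fun z hz => q_mono (by norm_num) β' (hΩ1 hz)
  have hΩW : Ω ⊆ W := fun z hz => hV₀W hz.2.1
  have htotal : ∀ z ∈ Ω, D1 f β' c 𝒰 univ z := by
    intro z hz
    unfold D1
    filter_upwards [hsU κ₂ hκ₂] with k hk
    rw [h2 (c k) (hc0 k) hk z hz.1, huniv, htot k]
  -- Baire
  have hex : ∃ j : ℕ, ∃ V : Set N, IsOpen V ∧ V.Nonempty ∧ V ⊆ Ω ∧ ∀ z ∈ V,
      ¬ Sh f β' c 𝒰 j z := by
    by_contra hcon
    push Not at hcon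
    have hAo : ∀ j, IsOpen {z | z ∈ Ω ∧ Sh f β' c 𝒰 j z} := by
      intro j
      rw [isOpen_iff_mem_nhds]
      rintro z ⟨hzΩ, U, r, hr, hUc, hUd, hUo, hUD⟩
      choose r1 hr1 hnear using fun i => D1.near hn f.continuous hβ' hc0 hsU (hUc i)
        (hΩ2 z hzΩ) hr (hUo i) (hUD i)
      obtain ⟨k1, hk1, hk1'⟩ := fund_min r1 hr1
      filter_upwards [hΩo.mem_nhds hzΩ, ball_mem_nhds z (lt_min hr hk1)] with z' h1 h3
      have h4 : 0 < r - dist z' z := by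
        have := (mem_ball.1 h3).trans_le (min_le_left _ _)
        linarith
      refine ⟨h1, U, r - dist z' z, h4, hUc, hUd, fun i => ?_, fun i => ?_⟩
      · refine iso_shrink f.continuous (hUo i) ?_
        intro w hw
        have h5 := mem_ball.1 hw
        have h6 := dist_triangle w z' z
        rw [mem_ball]
        linarith
      · exact hnear i z' (ball_subset_ball ((min_le_right _ _).trans (hk1' i)) h3)
    have hG : Dense (⋂ j : ℕ, ({z | z ∈ Ω ∧ Sh f β' c 𝒰 j z} ∪ (closure Ω)ᶜ)) := by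
      refine dense_iInter_of_isOpen (fun j => (hAo j).union isClosed_closure.isOpen_compl) ?_
      intro j
      rw [dense_iff_inter_open]
      rintro O hO ⟨w, hw⟩
      by_cases hwc : w ∈ closure Ω
      · obtain ⟨v, hvO, hvΩ⟩ := mem_closure_iff.1 hwc O hO hw
        obtain ⟨z, hz, hzS⟩ := hcon j (O ∩ Ω) (hO.inter hΩo) ⟨v, hvO, hvΩ⟩ inter_subset_right
        exact ⟨z, hz.1, Or.inl ⟨hz.2, hzS⟩⟩
      · exact ⟨w, hw, Or.inr hwc⟩
    obtain ⟨z, hzΩ, hz⟩ := hG.inter_open_nonempty Ω hΩo hΩne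
    have hall : ∀ j, Sh f β' c 𝒰 j z := by
      intro j
      rcases mem_iInter.1 hz j with h | h
      · exact h.2
      · exact absurd (subset_closure hzΩ) h
    have h3 := Sh.card hn f.continuous hβ' hc0 hsU (hΩ2 z hzΩ)
      (hall ((f ⁻¹' {z}).ncard + 1)) (hfib z (hΩW hzΩ))
    omega
  obtain ⟨V, hVo, hVne, hVΩ, hV⟩ := Nat.find_spec hex
  obtain ⟨m, hm⟩ : ∃ m, Nat.find hex = m + 1 := by
    refine Nat.exists_eq_succ_of_ne_zero fun h0 => ?_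
    rw [h0] at hV
    obtain ⟨z, hz⟩ := hVne
    exact hV z hz ⟨Fin.elim0, 1, one_pos, fun i => i.elim0, fun i => i.elim0, fun i => i.elim0,
      fun i => i.elim0⟩
  rw [hm] at hV
  have hmin := Nat.find_min hex (m := m) (by omega)
  push Not at hmin
  obtain ⟨z₀, hz₀, hSh⟩ := hmin V hVo hVne hVΩ
  obtain ⟨s, hs, hsV, U, hUc, hUd, hUo, hUD, hUon, hUinj, hUcov⟩ := cover_core hn f.continuous hβ'
    hc0 hcs' hc1' h𝒰 hVo (hVΩ.trans hΩ1) (fun z hz => hfin z (hΩW (hVΩ hz))) hV hz₀ hSh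
  have hz₀Ω : z₀ ∈ Ω := hVΩ hz₀
  -- parity
  have hodd : Odd m := by
    obtain ⟨κ₃, hκ₃, h3⟩ := sheet_sum (n := n) (β' := β') (f := f) hUc hUd Finset.univ z₀
    obtain ⟨κ₄, hκ₄, h4⟩ := sheet_sum (n := n) (β' := β') (f := f) hUc hUd ∅ z₀
    obtain ⟨κ₅, hκ₅, h5⟩ := sheet_add (n := n) f.continuous hβ' (U := univ)
      (P := ⋃ i ∈ (Finset.univ : Finset (Fin m)), U i) (R := ⋃ i ∈ (∅ : Finset (Fin m)), U i)
      (Finset.univ.isCompact_biUnion fun i _ => hUc i)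
      ((∅ : Finset (Fin m)).isCompact_biUnion fun i _ => hUc i) (by simp) (subset_univ _)
      (subset_univ _) (q_mono (by norm_num) β' (hΩ1 hz₀Ω)) hs (by
        intro x _ hx
        left
        simpa using hUcov hx)
    have hall : ∀ᶠ k in 𝒰, ∀ i, dg β' (pf f ((c k).filter (In (U i)))) z₀ = 1 :=
      Filter.eventually_all.2 fun i => hUD i
    have htz := htotal z₀ hz₀Ω
    unfold D1 at htz
    obtain ⟨k, ⟨⟨⟨e1, e2⟩, e3⟩, e4⟩, e5⟩ := ((((hall.and htz).and (hsU κ₃ hκ₃)).and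
      (hsU κ₄ hκ₄)).and (hsU κ₅ hκ₅)).exists
    have e6 := h5 (c k) e5
    rw [e2, h3 (c k) e3, h4 (c k) e4, Finset.sum_empty, add_zero,
      Finset.sum_congr rfl (fun i _ => e1 i), Finset.sum_const, Finset.card_univ,
      Fintype.card_fin, nsmul_eq_mul, mul_one] at e6
    rw [← Nat.not_even_iff_odd]
    intro hev
    rw [(ZMod.natCast_eq_zero_iff_even).2 hev] at e6
    exact one_ne_zero e6
  have hm3 : 3 ≤ m := by
    rcases hodd with ⟨j, hj⟩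
    by_contra hlt
    have hm1 : m = 1 := by omega
    obtain ⟨-, a, a', e, hab, -, -, ha, hb', -⟩ := hV₀ z₀ (hVΩ hz₀).2.1
    have hmem : ∀ w, f w = z₀ → w ∈ U ⟨0, by omega⟩ ∩ f ⁻¹' ball z₀ s := by
      intro w hw
      have hwb : w ∈ f ⁻¹' ball z₀ s := by
        show f w ∈ ball z₀ s
        rw [hw]; exact mem_ball_self hs
      refine ⟨?_, hwb⟩
      obtain ⟨i, hi⟩ := mem_iUnion.1 (hUcov hwb)
      have : i = ⟨0, by omega⟩ := Fin.ext (by have := i.2; show (i : ℕ) = 0; omega)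
      rwa [this] at hi
    exact hab (hUinj _ (hmem a ha) (hmem a' hb') (ha.trans hb'.symm))
  refine ⟨ball z₀ s, isOpen_ball, ⟨z₀, mem_ball_self hs⟩, hsV.trans (hVΩ.trans hΩW), m, hodd, hm3,
    fun i => U i ∩ f ⁻¹' ball z₀ s, hUo, ?_, ?_, ?_⟩
  · intro i j hij
    exact (hUd i j hij).mono inter_subset_left inter_subset_left
  · ext x
    constructor
    · intro hx
      obtain ⟨i, hi⟩ := mem_iUnion.1 (hUcov hx)
      exact mem_iUnion.2 ⟨i, hi, hx⟩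
    · intro hx
      obtain ⟨i, hi⟩ := mem_iUnion.1 hx
      exact hi.2
  · intro i
    refine ⟨openEmb_of_injOn (n := n) f.continuous (hUo i) (hUinj i), ?_⟩
    ext z
    constructor
    · rintro ⟨x, hx, rfl⟩
      exact hx.2
    · intro hz
      obtain ⟨x, hx, rfl⟩ := hUon i hz
      exact ⟨x, ⟨hx, hz⟩, rfl⟩

end Vale.Agent.P260.H283
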