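import Vale.Agent.P239.Bdl.B13
import Vale.Agent.P073.IoD

/-!
# Local degrees mod 2 of small cycles in closed manifolds
-/

open Metric Set Topology
open Vale.Agent.P239.M

namespace Vale.Agent.P260.H283

section Charts

/-- A topological manifold has charts with domain `ℝⁿ` centred at any point and contained in any
neighbourhood. -/
theorem exists_chart {n : ℕ} {X : Type*} [TopologicalSpace X]
    [ChartedSpace (EuclideanSpace ℝ (Fin n)) X] (x : X) {W : Set X} (hW : W ∈ 𝓝 x) :
    ∃ β : (Fin n → ℝ) → X, IsOpenEmbedding β ∧ β 0 = x ∧ range β ⊆ W := by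
  let c := chartAt (EuclideanSpace ℝ (Fin n)) x
  have hx : x ∈ c.source := mem_chart_source _ x
  have hnb : c.target ∩ c.symm ⁻¹' W ∈ 𝓝 (c x) := by
    refine Filter.inter_mem (c.open_target.mem_nhds (c.map_source hx)) ?_
    exact (c.tendsto_symm hx) hW
  obtain ⟨r, hr, hball⟩ := Metric.mem_nhds_iff.1 hnb
  let u : OpenPartialHomeomorph (EuclideanSpace ℝ (Fin n)) (EuclideanSpace ℝ (Fin n)) :=
    OpenPartialHomeomorph.univBall (c x) r
  let g : OpenPartialHomeomorph (EuclideanSpace ℝ (Fin n)) X := u.trans c.symm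
  have hu : ∀ y, u y ∈ ball (c x) r := fun y => by
    rw [← OpenPartialHomeomorph.univBall_target (c x) hr]
    exact u.map_source (by rw [OpenPartialHomeomorph.univBall_source]; trivial)
  have hg : g.source = univ := by
    rw [OpenPartialHomeomorph.trans_source]
    refine eq_univ_of_forall fun y => ⟨?_, ?_⟩
    · rw [OpenPartialHomeomorph.univBall_source]; trivial
    · exact (hball (hu y)).1
  let L : (Fin n → ℝ) ≃ₜ EuclideanSpace ℝ (Fin n) :=
    (EuclideanSpace.equiv (Fin n) ℝ).symm.toHomeomorph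
  refine ⟨fun y => g (L y), (g.isOpenEmbedding hg).comp L.isOpenEmbedding, ?_, ?_⟩
  · have h0 : L 0 = 0 := map_zero (EuclideanSpace.equiv (Fin n) ℝ).symm
    change c.symm (u (L 0)) = x
    rw [h0]
    have h1 : u 0 = c x := OpenPartialHomeomorph.univBall_apply_zero _ _
    rw [h1, c.left_inv hx]
  · rintro _ ⟨y, rfl⟩
    exact (hball (hu (L y))).2

/-- Invariance of domain for manifolds, in a chart. -/
theorem isOpenEmbedding_comp {n : ℕ} {X Y : Type*} [TopologicalSpace X] [TopologicalSpace Y]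
    [ChartedSpace (EuclideanSpace ℝ (Fin n)) Y] {f : X → Y} (hf : Continuous f)
    {β : (Fin n → ℝ) → X} (hβ : IsOpenEmbedding β) (hinj : InjOn f (range β)) :
    IsOpenEmbedding (f ∘ β) := by
  have hc : Continuous (f ∘ β) := hf.comp hβ.continuous
  have hi : Function.Injective (f ∘ β) := fun u v h =>
    hβ.injective (hinj (mem_range_self u) (mem_range_self v) h)
  refine IsOpenEmbedding.of_continuous_injective_isOpenMap hc hi ?_
  intro V hV
  rw [isOpen_iff_mem_nhds]
  rintro _ ⟨u, hu, rfl⟩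
  obtain ⟨β', hβ', h0, -⟩ := exists_chart (n := n) ((f ∘ β) u) Filter.univ_mem
  set U : Set (Fin n → ℝ) := V ∩ (f ∘ β) ⁻¹' range β' with hU
  have hUo : IsOpen U := hV.inter (hβ'.isOpen_range.preimage hc)
  set φ : (Fin n → ℝ) → (Fin n → ℝ) := fun v => Function.invFun β' ((f ∘ β) v) with hφ
  have hφ1 : ∀ v ∈ U, β' (φ v) = (f ∘ β) v := by
    rintro v ⟨-, w, hw⟩
    exact Function.invFun_eq ⟨w, hw⟩
  have hφc : ContinuousOn φ U := by
    rw [hβ'.isInducing.continuousOn_iff]
    exact hc.continuousOn.congr fun v hv => hφ1 v hv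
  have hφi : InjOn φ U := by
    intro v hv w hw h
    apply hi
    rw [← hφ1 v hv, ← hφ1 w hw, h]
  have ho := Vale.Agent.P073.Sep.isOpen_image_of_injOn hUo hφc hφi
  have hu' : u ∈ U := ⟨hu, 0, h0⟩
  have h1 : β' '' (φ '' U) ∈ 𝓝 ((f ∘ β) u) := by
    refine (hβ'.isOpenMap _ ho).mem_nhds ?_
    exact ⟨φ u, mem_image_of_mem _ hu', hφ1 u hu'⟩
  refine Filter.mem_of_superset h1 ?_
  rintro _ ⟨_, ⟨v, hv, rfl⟩, rfl⟩
  rw [hφ1 v hv]
  exact mem_image_of_mem _ hv.1

end Charts

end Vale.Agent.P260.H283
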