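import Vale.Agent.P260.H283.Deg

/-!
# Local degrees mod 2: homotopy invariance, change of chart, push-forward
-/

open Metric Set Topology
open Vale.Agent.P239.M Vale.Agent.P239.M.Fill

namespace Vale.Agent.P260.H283

section Htp

variable {X : Type*} [MetricSpace X] [CompactSpace X]

/-- A small cycle and its image under a map homotopic to the identity are homologous through small
chains. -/
theorem htpy_bd (h : C(X, X)) (hh : h.Homotopic (ContinuousMap.id X)) {ε : ℝ} (hε : 0 < ε) :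
    ∃ κ > 0, ∀ c : Ch (ZMod 2) X, bd c = 0 → Sup (Sm κ) c →
      ∃ e : Ch (ZMod 2) X, Sup (Sm ε) e ∧ pf h c = c + bd e := by
  obtain ⟨H⟩ := hh
  let F : ℝ → X → X := fun t x => H (projIcc 0 1 zero_le_one t, x)
  have hF : Continuous (fun p : ℝ × X => F p.1 p.2) :=
    H.continuous.comp ((continuous_projIcc.comp continuous_fst).prodMk continuous_snd)
  have hF0 : F 0 = h := by
    funext x
    have : projIcc (0 : ℝ) 1 zero_le_one 0 = 0 := projIcc_left zero_le_one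
    show H (projIcc (0 : ℝ) 1 zero_le_one 0, x) = h x
    rw [this]
    simp
  have hF1 : F 1 = id := by
    funext x
    have : projIcc (0 : ℝ) 1 zero_le_one 1 = 1 := projIcc_right zero_le_one
    show H (projIcc (0 : ℝ) 1 zero_le_one 1, x) = x
    rw [this]
    simp
  obtain ⟨κ, hκ, N₀, hu⟩ := unif hF isCompact_univ hε
  refine ⟨κ, hκ, fun c hc hs => ⟨DN (ZMod 2) F (N₀ + 1) c, ?_, ?_⟩⟩
  · rw [DN_apply]
    refine sup_sum' _ _ fun a ha => ?_
    refine sup_lin' _ _ fun l hl => ?_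
    rw [pr_single, one_smul]
    refine sup_mono' (fun m hm => ?_) (sup_prL' _ _ l)
    intro y hy z hz
    obtain ⟨x, hx, hyx⟩ := hm.2 y hy
    obtain ⟨x', hx', hzx⟩ := hm.2 z hz
    have hd := hu (N₀ + 1) (Nat.le_succ _) (Nat.succ_pos _) a (Finset.mem_range.1 ha) x
      (mem_univ x) x' (mem_univ x') (hs l hl x hx x' hx')
    rcases hyx with rfl | rfl <;> rcases hzx with rfl | rfl
    · exact hd _ _ (Or.inl rfl) (Or.inl rfl)
    · exact hd _ _ (Or.inl rfl) (Or.inr rfl)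
    · exact hd _ _ (Or.inr rfl) (Or.inl rfl)
    · exact hd _ _ (Or.inr rfl) (Or.inr rfl)
  · have e1 := bd_DN (k := ZMod 2) F (Nat.succ_pos N₀) c
    rw [hc, map_zero, add_zero, hF0, hF1, pf_id'] at e1
    rw [e1, add_sub_assoc', fund_self, zero_sub]
    exact eq_neg_of_add_eq_zero_left (fund_self _)

end Htp

section Gen

variable {X : Type*} [MetricSpace X] {n : ℕ}

theorem sm_mono {a b : ℝ} {l : List X} (hab : a ≤ b) (h : Sm a l) : Sm b l := fun x hx y hy =>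
  (h x hx y hy).trans_le hab

omit [MetricSpace X] in
theorem q_mono {r s : ℝ} (h : r ≤ s) (β : (Fin n → ℝ) → X) : β '' Q n r ⊆ β '' Q n s :=
  image_mono (closedBall_subset_closedBall h)

/-- The local degree of a small relative cycle does not vanish in one chart and vanish in the other
one. -/
theorem dg_zero_of (hn : 0 < n) {β β' : (Fin n → ℝ) → X} (hβ : IsOpenEmbedding β)
    (hβ' : IsOpenEmbedding β') {ρ : ℝ} (hρ : 0 < ρ) : ∃ κ > 0, ∀ c : Ch (ZMod 2) X,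
      ∀ x ∈ β '' Q n 2 ∩ β' '' Q n 2, Sup (fun l => l.length = n + 1 ∧ Sm κ l) c →
      Sup (fun l => ∀ y ∈ l, ρ ≤ dist y x) (bd c) → dg β' c x = 0 → dg β c x = 0 := by
  classical
  obtain ⟨ρ₂, hρ₂, hm2⟩ := chart_mod hβ' (show (2 : ℝ) < 3 by norm_num) one_pos
  obtain ⟨σ, hσ, hσ1, hσ2⟩ : ∃ σ > 0, σ ≤ ρ ∧ σ ≤ ρ₂ :=
    ⟨min ρ ρ₂, lt_min hρ hρ₂, min_le_left _ _, min_le_right _ _⟩
  obtain ⟨r, hr, hzero⟩ := inv_zero hn hβ' (ld1S hn hβ') hσ
  obtain ⟨k1, hk1, hb1⟩ := dg_bd hβ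
  obtain ⟨k3, hk3, hf1⟩ := dg_far hβ hr
  obtain ⟨k, hk, hkk1, hkk3⟩ : ∃ k > 0, k ≤ k1 ∧ k ≤ k3 :=
    ⟨min k1 k3, lt_min hk1 hk3, min_le_left _ _, min_le_right _ _⟩
  obtain ⟨κ₀, hκ₀, hz⟩ := hzero k hk
  have hσ3 : (0 : ℝ) < σ / 2 := by linarith only [hσ]
  obtain ⟨q1, hq1, hcut1⟩ := inv_cut hβ hσ3
  obtain ⟨q2, hq2, hcut2⟩ := inv_cut hβ' hσ3
  obtain ⟨κ, hκ, hκa, hκb, hκc, hκd⟩ : ∃ κ > 0, κ ≤ κ₀ ∧ κ ≤ q1 ∧ κ ≤ q2 ∧ κ ≤ σ / 4 :=
    ⟨min (min κ₀ q1) (min q2 (σ / 4)), lt_min (lt_min hκ₀ hq1) (lt_min hq2 (by linarith only [hσ])),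
      (min_le_left _ _).trans (min_le_left _ _), (min_le_left _ _).trans (min_le_right _ _),
      (min_le_right _ _).trans (min_le_left _ _), (min_le_right _ _).trans (min_le_right _ _)⟩
  refine ⟨κ, hκ, fun c x hx hc hb h0 => ?_⟩
  have hx7 : x ∈ β '' Q n 7 := q_mono (by norm_num) β hx.1
  have hx7' : x ∈ β' '' Q n 7 := q_mono (by norm_num) β' hx.2
  have hbx' : ball x σ ⊆ β' '' Q n 6 := by
    intro y hy
    obtain ⟨u, hu, hux⟩ := hx.2
    obtain ⟨v, hv, hvy, _⟩ := hm2 u hu y (by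
      rw [hux, dist_comm]; exact (mem_ball.1 hy).trans_le hσ2)
    exact ⟨v, closedBall_subset_closedBall (by norm_num) hv, hvy⟩
  set d : Ch (ZMod 2) X := c.filter (In (ball x (σ / 2))) with hd
  have hds : Sup (fun l => l.length = n + 1 ∧ Sm κ₀ l ∧ In (ball x (σ / 2)) l) d := by
    intro l hl
    rw [hd, Finsupp.support_filter, Finset.mem_filter] at hl
    exact ⟨(hc l hl.1).1, sm_mono hκa (hc l hl.1).2, hl.2⟩
  have hdb : Sup (Far (σ / 4) {x}) (bd d) := by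
    refine inv_bdfar (Sup.mono (fun l hl => sm_mono hκd hl.2) hc) ?_
    refine Sup.mono (fun l hl y hy => ?_) hb
    have := hl y hy
    linarith only [this, hσ1, hσ]
  have hd1 := hcut1 c (Sup.mono (fun l hl => sm_mono hκb hl.2) hc) x hx7
  have hd2 := hcut2 c (Sup.mono (fun l hl => sm_mono hκc hl.2) hc) x hx7'
  obtain ⟨e, cm, hce, he, hcm⟩ := hz d x hx.2 hds hbx' hdb (by rw [hd2.1]; exact h0)
  rw [← hd1.1, ← hd, hce, inv_dg_add,
    (hb1 e (Sup.mono (fun l hl => sm_mono hkk1 hl) he) x hx7).1,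
    (hf1 cm x hx7 (Sup.mono (fun l hl => ⟨sm_mono hkk3 hl.1, hl.2⟩) hcm)).1, add_zero]

/-- Change of chart. -/
theorem dg_inv (hn : 0 < n) {β β' : (Fin n → ℝ) → X} (hβ : IsOpenEmbedding β)
    (hβ' : IsOpenEmbedding β') {ρ : ℝ} (hρ : 0 < ρ) : ∃ κ > 0, ∀ c : Ch (ZMod 2) X,
      ∀ x ∈ β '' Q n 2 ∩ β' '' Q n 2, Sup (fun l => l.length = n + 1 ∧ Sm κ l) c →
      Sup (fun l => ∀ y ∈ l, ρ ≤ dist y x) (bd c) → dg β c x = dg β' c x := by
  obtain ⟨κ₁, h1, H1⟩ := dg_zero_of hn hβ hβ' hρ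
  obtain ⟨κ₂, h2, H2⟩ := dg_zero_of hn hβ' hβ hρ
  refine ⟨min κ₁ κ₂, lt_min h1 h2, fun c x hx hc hb => ?_⟩
  have e1 := H1 c x hx (Sup.mono (fun l hl => ⟨hl.1, sm_mono (min_le_left _ _) hl.2⟩) hc) hb
  have e2 := H2 c x hx.symm
    (Sup.mono (fun l hl => ⟨hl.1, sm_mono (min_le_right _ _) hl.2⟩) hc) hb
  have key : ∀ a b : ZMod 2, (b = 0 → a = 0) → (a = 0 → b = 0) → a = b := by decide
  exact key _ _ e1 e2

/-- The local degree of a small relative cycle is locally constant. -/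
theorem dg_const (hn : 0 < n) {β : (Fin n → ℝ) → X} (hβ : IsOpenEmbedding β) {ρ : ℝ}
    (hρ : 0 < ρ) : ∃ r > 0, ∃ κ > 0, ∀ c : Ch (ZMod 2) X, ∀ x ∈ β '' Q n 2,
      Sup (fun l => l.length = n + 1 ∧ Sm κ l) c →
      Sup (fun l => ∀ y ∈ l, ρ ≤ dist y x) (bd c) →
      ∀ y : X, dist y x < r → dg β c y = dg β c x := by
  classical
  obtain ⟨ρ₂, hρ₂, hm2⟩ := chart_mod hβ (show (2 : ℝ) < 3 by norm_num) one_pos
  obtain ⟨σ, hσ, hσ1, hσ2⟩ : ∃ σ > 0, σ ≤ ρ ∧ σ ≤ ρ₂ :=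
    ⟨min ρ ρ₂, lt_min hρ hρ₂, min_le_left _ _, min_le_right _ _⟩
  have hσ3 : (0 : ℝ) < σ / 2 := by linarith only [hσ]
  have hσ4 : (0 : ℝ) < σ / 4 := by linarith only [hσ]
  obtain ⟨r, hr, κ₀, hκ₀, hcell⟩ := inv_cell hn hβ hσ
  obtain ⟨q1, hq1, hcut1⟩ := inv_cut hβ hσ3
  obtain ⟨k3, hk3, hf1⟩ := dg_far hβ hσ4
  obtain ⟨κ, hκ, hκa, hκb, hκc, hκd⟩ : ∃ κ > 0, κ ≤ κ₀ ∧ κ ≤ q1 ∧ κ ≤ k3 ∧ κ ≤ σ / 4 :=
    ⟨min (min κ₀ q1) (min k3 (σ / 4)), lt_min (lt_min hκ₀ hq1) (lt_min hk3 (by linarith only [hσ])),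
      (min_le_left _ _).trans (min_le_left _ _), (min_le_left _ _).trans (min_le_right _ _),
      (min_le_right _ _).trans (min_le_left _ _), (min_le_right _ _).trans (min_le_right _ _)⟩
  refine ⟨min r (σ / 4), lt_min hr hσ4, κ, hκ, fun c x hx hc hb y hy => ?_⟩
  have hx7 : x ∈ β '' Q n 7 := q_mono (by norm_num) β hx
  have hbx : ball x σ ⊆ β '' Q n 3 := by
    intro y hy
    obtain ⟨u, hu, hux⟩ := hx
    obtain ⟨v, hv, hvy, _⟩ := hm2 u hu y (by
      rw [hux, dist_comm]; exact (mem_ball.1 hy).trans_le hσ2)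
    exact ⟨v, hv, hvy⟩
  have hyr : dist y x < r := hy.trans_le (min_le_left _ _)
  have hyσ : dist y x < σ / 4 := hy.trans_le (min_le_right _ _)
  have hy7 : y ∈ β '' Q n 7 := q_mono (by norm_num) β
    (hbx (mem_ball.2 (hyσ.trans (by linarith only [hσ]))))
  set d : Ch (ZMod 2) X := c.filter (In (ball x (σ / 2))) with hd
  have hds : Sup (fun l => l.length = n + 1 ∧ Sm κ₀ l ∧ In (ball x (σ / 2)) l) d := by
    intro l hl
    rw [hd, Finsupp.support_filter, Finset.mem_filter] at hl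
    exact ⟨(hc l hl.1).1, sm_mono hκa (hc l hl.1).2, hl.2⟩
  have hdb : Sup (Far (σ / 4) {x}) (bd d) := by
    refine inv_bdfar (Sup.mono (fun l hl => sm_mono hκd hl.2) hc) ?_
    refine Sup.mono (fun l hl y hy => ?_) hb
    have := hl y hy
    linarith only [this, hσ1, hσ]
  have hd1 := (hcut1 c (Sup.mono (fun l hl => sm_mono hκb hl.2) hc) x hx7).1
  have h1 := hcell d x hx hds (hbx.trans (q_mono (by norm_num) β)) hdb y hyr
  have h2 : dg β (c.filter (fun l => ¬ In (ball x (σ / 2)) l)) y = 0 := by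
    refine (hf1 _ y hy7 ?_).1
    intro l hl
    rw [Finsupp.support_filter, Finset.mem_filter] at hl
    refine ⟨sm_mono hκc (hc l hl.1).2, ?_⟩
    have h2 := hl.2
    unfold In at h2
    push Not at h2
    obtain ⟨z, hz, hzb⟩ := h2
    refine ⟨z, hz, ?_⟩
    rw [mem_ball, not_lt] at hzb
    have h3 := dist_triangle z y x
    rw [dist_comm z y] at h3
    linarith only [h3, hzb, hyσ]
  have h3 : dg β c y = dg β d y := by
    have e := Finsupp.filter_add_filter_not c (In (ball x (σ / 2)))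
    have h3 := inv_dg_add β (c.filter (In (ball x (σ / 2))))
      (c.filter (fun l => ¬ In (ball x (σ / 2)) l)) y
    rw [e, h2, add_zero] at h3
    exact h3
  rw [h3, h1, hd, hd1]

end Gen

section Push

variable {X Y : Type*} {n : ℕ}

theorem pf_comp {Z : Type*} (f : X → Y) (g : Y → Z) (c : Ch (ZMod 2) X) :
    pf g (pf f c) = pf (g ∘ f) c := by
  induction c using Finsupp.induction_linear with
  | zero => simp only [map_zero]
  | add a b ha hb => simp only [map_add, ha, hb]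
  | single l r => rw [pf_single, pf_single, pf_single, List.map_map]

open Classical in
/-- The local degree of the image of a chain in the image of a chart. -/
theorem dg_push [MetricSpace X] [MetricSpace Y] {f : X → Y} {β : (Fin n → ℝ) → X}
    (hβ : IsOpenEmbedding β)
    (hfβ : IsOpenEmbedding (f ∘ β)) (c : Ch (ZMod 2) X) (u : Fin n → ℝ) :
    dg (f ∘ β) (pf f (c.filter (In (β '' Q n 8)))) (f (β u)) = dg β c (β u) := by
  have key : ∀ l : List X, In (β '' Q n 8) l →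
      KerC (f ∘ β) (l.map f) [f (β u)] = KerC β l [β u] ∧ In ((f ∘ β) '' Q n 8) (l.map f) := by
    intro l hl
    obtain ⟨l', hl', rfl⟩ := Chart.exists_map hl
    have h1 := KerC_map hβ l' [u]
    have h2 := KerC_map hfβ l' [u]
    rw [List.map_map]
    refine ⟨?_, Chart.in_map hl'⟩
    rw [show [f (β u)] = [u].map (f ∘ β) from rfl, h2, show [β u] = [u].map β from rfl, h1]
  unfold dg
  rw [Chart.ext_pf]
  have e1 : ∀ l ∈ (c.filter (In (β '' Q n 8))).support,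
      (if In ((f ∘ β) '' Q n 8) (l.map f) then KerC (f ∘ β) (l.map f) [f (β u)] else 0) =
      (if In (β '' Q n 8) l then KerC β l [β u] else 0) := by
    intro l hl
    rw [Finsupp.support_filter, Finset.mem_filter] at hl
    rw [if_pos (key l hl.2).2, if_pos hl.2, (key l hl.2).1]
  rw [SpA.ext_cong e1]
  conv_rhs => rw [← Finsupp.filter_add_filter_not c (In (β '' Q n 8)), map_add]
  rw [left_eq_add]
  have e2 : ∀ l ∈ (c.filter (fun l => ¬ In (β '' Q n 8) l)).support,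
      (if In (β '' Q n 8) l then KerC β l [β u] else 0) = (fun _ => (0 : ZMod 2)) l := by
    intro l hl
    rw [Finsupp.support_filter, Finset.mem_filter] at hl
    rw [if_neg hl.2]
  rw [SpA.ext_cong e2, SpA.ext_zero]

end Push

end Vale.Agent.P260.H283
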