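import Vale.Agent.P260.H283.Deg2

/-!
# Fundamental cycles of closed manifolds, and the degree of the sheets of a map
-/

open Metric Set Topology
open Vale.Agent.P239.M Vale.Agent.P239.M.Fill

namespace Vale.Agent.P260.H283

section Fund

variable {n : ℕ} {X : Type*} [MetricSpace X] [CompactSpace X]

/-- A finite atlas, containing two given charts. -/
theorem exists_atlas [ChartedSpace (EuclideanSpace ℝ (Fin n)) X] {β₁ β₂ : (Fin n → ℝ) → X}
    (h₁ : IsOpenEmbedding β₁) (h₂ : IsOpenEmbedding β₂) :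
    ∃ (m : ℕ) (b : Fin m → (Fin n → ℝ) → X), (∀ a, IsOpenEmbedding (b a)) ∧
      (∀ x, ∃ a, x ∈ b a '' Q n 1) ∧ (∃ a, b a = β₁) ∧ ∃ a, b a = β₂ := by
  have hch : ∀ x : X, ∃ β : (Fin n → ℝ) → X, IsOpenEmbedding β ∧ β 0 = x := fun x => by
    obtain ⟨β, h, h0, -⟩ := exists_chart (n := n) x Filter.univ_mem
    exact ⟨β, h, h0⟩
  choose β hβ hβ0 using hch
  have hnb : ∀ x, β x '' Q n 1 ∈ 𝓝 x := fun x => by
    have h1 : ball (0 : Fin n → ℝ) 1 ⊆ Q n 1 := ball_subset_closedBall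
    refine Filter.mem_of_superset ?_ (image_mono h1)
    refine ((hβ x).isOpenMap _ isOpen_ball).mem_nhds ?_
    exact ⟨0, mem_ball_self one_pos, hβ0 x⟩
  obtain ⟨t, -, ht⟩ := isCompact_univ.elim_nhds_subcover (fun x => β x '' Q n 1)
    fun x _ => hnb x
  let L : List ((Fin n → ℝ) → X) := β₁ :: β₂ :: t.toList.map β
  have hL : ∀ γ ∈ L, IsOpenEmbedding γ := by
    intro γ hγ
    rcases List.mem_cons.1 hγ with rfl | hγ
    · exact h₁
    rcases List.mem_cons.1 hγ with rfl | hγ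
    · exact h₂
    obtain ⟨x, -, rfl⟩ := List.mem_map.1 hγ
    exact hβ x
  refine ⟨L.length, fun i => L.get i, fun a => hL _ (List.get_mem _ _), fun x => ?_, ?_, ?_⟩
  · obtain ⟨z, hz, hxz⟩ := mem_iUnion₂.1 (ht (mem_univ x))
    have h1 : β z ∈ L := by
      refine List.mem_cons_of_mem _ (List.mem_cons_of_mem _ ?_)
      exact List.mem_map.2 ⟨z, Finset.mem_toList.2 hz, rfl⟩
    obtain ⟨a, ha⟩ := List.get_of_mem h1
    refine ⟨a, ?_⟩
    show x ∈ L.get a '' Q n 1
    rw [ha]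
    exact hxz
  · exact List.get_of_mem (List.mem_cons_self)
  · exact List.get_of_mem (List.mem_cons_of_mem _ List.mem_cons_self)

omit [CompactSpace X] in
/-- Fundamental cycles of a closed manifold. -/
theorem fund_cycle (hn : 0 < n) {m : ℕ} {b : Fin m → (Fin n → ℝ) → X}
    (hb : ∀ a, IsOpenEmbedding (b a)) (hcov : ∀ x, ∃ a, x ∈ b a '' Q n 1) {δ : ℝ} (hδ : 0 < δ) :
    ∃ μ : Ch (ZMod 2) X, bd μ = 0 ∧ Sup (fun l => l.length = n + 1 ∧ Sm δ l) μ ∧
      ∀ a, ∀ x ∈ b a '' Q n 2, dg (b a) μ x = 1 := by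
  have hL : ∀ a, LD1S (b a) := fun a => ld1S hn (hb a)
  have hI : ∀ a c, InvS (b a) (b c) := fun a c => invS hn (hb a) (hb c) (hL c)
  obtain ⟨η, hη, H⟩ := fundS hn b hb hL hI
  obtain ⟨μ, h1, h2, h3⟩ := H δ hδ
  refine ⟨μ, ?_, h1, fun a x hx => ?_⟩
  · rw [← Finsupp.support_eq_empty, Finset.eq_empty_iff_forall_notMem]
    intro l hl
    have hlen : Sup (fun l => l.length = n) (bd μ) :=
      Sup.bd (fun l l' _ hl hP => by have := hP.1; omega) h1
    have e1 := hlen l hl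
    have hlne : l ≠ [] := by
      intro h; rw [h] at e1; simp at e1; omega
    obtain ⟨x, hx⟩ := List.exists_mem_of_ne_nil l hlne
    obtain ⟨a, ha⟩ := hcov x
    have e2 := h2 l hl a x hx x ha
    rw [dist_self] at e2
    linarith
  · obtain ⟨a', ha'⟩ := hcov x
    exact (h3 a x hx ⟨a', x, ha', by rw [dist_self]; exact hη⟩).1

omit [CompactSpace X] in
/-- The local degree of a small cycle of a connected closed manifold is constant. -/
theorem deg_const [PreconnectedSpace X] (hn : 0 < n) {m : ℕ} {b : Fin m → (Fin n → ℝ) → X}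
    (hb : ∀ a, IsOpenEmbedding (b a)) (hcov : ∀ x, ∃ a, x ∈ b a '' Q n 1) :
    ∃ κ > 0, ∀ c : Ch (ZMod 2) X, bd c = 0 → Sup (fun l => l.length = n + 1 ∧ Sm κ l) c →
      ∀ a a', ∀ x ∈ b a '' Q n 2, ∀ x' ∈ b a' '' Q n 2, dg (b a) c x = dg (b a') c x' := by
  choose κ₁ hκ₁ hinv using fun p : Fin m × Fin m =>
    dg_inv hn (hb p.1) (hb p.2) (show (0 : ℝ) < 1 by norm_num)
  choose r hr κ₂ hκ₂ hconst using fun a => dg_const hn (hb a) (show (0 : ℝ) < 1 by norm_num)
  choose κ₃ hκ₃ hmod using fun a => chart_mod (hb a) (show (1 : ℝ) < 2 by norm_num)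
    (show (0 : ℝ) < 1 by norm_num)
  obtain ⟨k2, hk2, hkk2⟩ := fund_min κ₂ hκ₂
  obtain ⟨k3, hk3, hkk3⟩ := fund_min (fun a => min (r a) (κ₃ a)) fun a => lt_min (hr a) (hκ₃ a)
  let e := Fintype.equivFin (Fin m × Fin m)
  obtain ⟨k1, hk1, hkk1⟩ := fund_min (fun i => κ₁ (e.symm i)) fun i => hκ₁ _
  refine ⟨min k1 k2, lt_min hk1 hk2, fun c hc hs => ?_⟩
  have hz : ∀ P : List X → Prop, Sup P (bd c) := fun P => by rw [hc]; exact Sup.zero
  have hI : ∀ a a', ∀ x ∈ b a '' Q n 2 ∩ b a' '' Q n 2, dg (b a) c x = dg (b a') c x := by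
    intro a a' x hx
    refine hinv (a, a') c x hx (Sup.mono (fun l hl => ⟨hl.1, sm_mono ?_ hl.2⟩) hs) (hz _)
    have := hkk1 (e (a, a'))
    rw [e.symm_apply_apply] at this
    exact (min_le_left _ _).trans this
  choose idx hidx using hcov
  have hidx2 : ∀ x, x ∈ b (idx x) '' Q n 2 := fun x => q_mono (by norm_num) _ (hidx x)
  let F : X → ZMod 2 := fun x => dg (b (idx x)) c x
  have hF : IsLocallyConstant F := by
    rw [IsLocallyConstant.iff_eventually_eq]
    intro x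
    filter_upwards [ball_mem_nhds x hk3] with y hy
    rw [mem_ball] at hy
    have h1 := hkk3 (idx x)
    have h2 : dg (b (idx x)) c y = dg (b (idx x)) c x := by
      refine hconst (idx x) c x (hidx2 x) (Sup.mono (fun l hl => ⟨hl.1, sm_mono ?_ hl.2⟩) hs)
        (hz _) y (hy.trans_le (h1.trans (min_le_left _ _)))
      exact (min_le_right _ _).trans (hkk2 _)
    obtain ⟨u, hu, hux⟩ := hidx x
    obtain ⟨v, hv, hvy, -⟩ := hmod (idx x) u hu y (by
      rw [hux, dist_comm]; exact hy.trans_le (h1.trans (min_le_right _ _)))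
    change dg (b (idx y)) c y = dg (b (idx x)) c x
    rw [hI (idx y) (idx x) y ⟨hidx2 y, v, hv, hvy⟩, h2]
  have hall : ∀ x x', F x = F x' := fun x x' => hF.apply_eq_of_preconnectedSpace x x'
  intro a a' x hx x' hx'
  rw [hI a (idx x) x ⟨hx, hidx2 x⟩, hI a' (idx x') x' ⟨hx', hidx2 x'⟩]
  exact hall x x'

end Fund

section Dec

variable {n : ℕ} {X Y : Type*} [MetricSpace X] [CompactSpace X] [MetricSpace Y]

omit [CompactSpace X] in
theorem exists_dist_pos {U₁ U₂ : Set X} (h₁ : IsCompact U₁) (h₂ : IsCompact U₂)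
    (hd : Disjoint U₁ U₂) : ∃ κ > 0, ∀ x ∈ U₁, ∀ y ∈ U₂, κ ≤ dist x y := by
  obtain ⟨δ, hδ, hdis⟩ := hd.exists_thickenings h₁ h₂.isClosed
  refine ⟨δ, hδ, fun x hx y hy => ?_⟩
  by_contra hlt
  rw [not_le] at hlt
  refine (disjoint_left.1 hdis) (a := y) ?_ ?_
  · rw [mem_thickening_iff]
    exact ⟨x, hx, by rw [dist_comm]; exact hlt⟩
  · exact self_subset_thickening hδ _ hy

open Classical in
/-- The degree of a map at a point is the sum of the degrees of two sheets. -/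
theorem dec {f : X → Y} (hf : Continuous f) {U₁ U₂ : Set X} (h₁ : IsCompact U₁)
    (h₂ : IsCompact U₂) (hd : Disjoint U₁ U₂) {y : Y} {ρ : ℝ} (hρ : 0 < ρ)
    (hcov : ∀ x, dist (f x) y < ρ → x ∈ U₁ ∨ x ∈ U₂) {β' : (Fin n → ℝ) → Y}
    (hβ' : IsOpenEmbedding β') :
    ∃ κ > 0, ∀ c : Ch (ZMod 2) X, bd c = 0 → Sup (fun l => l.length = n + 1 ∧ Sm κ l) c →
      Sup (fun l => ∀ z ∈ l, ρ / 2 ≤ dist z y) (bd (pf f (c.filter (In U₁)))) ∧
      Sup (fun l => ∀ z ∈ l, ρ / 2 ≤ dist z y) (bd (pf f (c.filter (In U₂)))) ∧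
      ∀ y' ∈ β' '' Q n 7, dist y' y < ρ / 4 → dg β' (pf f c) y' =
        dg β' (pf f (c.filter (In U₁))) y' + dg β' (pf f (c.filter (In U₂))) y' := by
  obtain ⟨κ₁, hκ₁, hsep⟩ := exists_dist_pos h₁ h₂ hd
  have hρ4 : 0 < ρ / 4 := by linarith only [hρ]
  obtain ⟨κ₂, hκ₂, hfar⟩ := dg_far hβ' hρ4
  have huc := CompactSpace.uniformContinuous_of_continuous hf
  obtain ⟨κ₃, hκ₃, hmod⟩ := Metric.uniformContinuous_iff.1 huc (min κ₂ (ρ / 4))
    (lt_min hκ₂ hρ4)
  refine ⟨min κ₁ κ₃, lt_min hκ₁ hκ₃, fun c hc hs => ?_⟩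
  have hs1 : ∀ l ∈ c.support, ∀ w ∈ l, ∀ w' ∈ l, dist w w' < κ₁ := fun l hl w hw w' hw' =>
    ((hs l hl).2 w hw w' hw').trans_le (min_le_left _ _)
  have hs2 : ∀ l ∈ c.support, ∀ w ∈ l, ∀ w' ∈ l, dist (f w) (f w') < κ₂ :=
    fun l hl w hw w' hw' => (hmod (((hs l hl).2 w hw w' hw').trans_le
      (min_le_right _ _))).trans_le (min_le_left _ _)
  have hs3 : ∀ l ∈ c.support, ∀ w ∈ l, ∀ w' ∈ l, dist (f w) (f w') < ρ / 4 :=
    fun l hl w hw w' hw' => (hmod (((hs l hl).2 w hw w' hw').trans_le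
      (min_le_right _ _))).trans_le (min_le_right _ _)
  have hbdy : ∀ U U' : Set X, (∀ x, dist (f x) y < ρ → x ∈ U ∨ x ∈ U') →
      (∀ x ∈ U, ∀ z ∈ U', κ₁ ≤ dist x z) →
      Sup (fun l => ∀ z ∈ l, ρ / 2 ≤ dist z y) (bd (pf f (c.filter (In U)))) := by
    intro U U' hcov hsep
    rw [bd_pf]
    refine Sup.pf f ?_
    intro l' hl' z hz
    obtain ⟨w, hw, rfl⟩ := List.mem_map.1 hz
    by_contra hlt
    rw [not_le] at hlt
    have hwU : w ∈ U := by
      have : Sup (In U) (bd (c.filter (In U))) := by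
        refine Sup.bd (P := In U) (fun l l' hsub _ hl x hx => hl x (hsub.subset hx)) ?_
        intro l hl
        rw [Finsupp.support_filter, Finset.mem_filter] at hl
        exact hl.2
      exact this l' hl' w hw
    have h1 : l' ∈ (bd c).support := mem_bd_filter hl' hw (fun l hl hwl w' hw' => by
      have h2 := hs3 l hl w' hw' w hwl
      have h3 := dist_triangle (f w') (f w) y
      rcases hcov w' (by linarith only [h2, h3, hlt, hρ]) with h4 | h4
      · exact h4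
      · exact absurd (hs1 l hl w hwl w' hw') (not_lt.2 (hsep w hwU w' h4)))
    rw [hc] at h1
    simp at h1
  refine ⟨hbdy U₁ U₂ hcov hsep, hbdy U₂ U₁ (fun x hx => (hcov x hx).symm)
    (fun x hx z hz => by rw [dist_comm]; exact hsep z hz x hx), fun y' hy' hyy => ?_⟩
  set c₁ := c.filter (In U₁) with hc₁
  set c' := c.filter (fun l => ¬ In U₁ l) with hc'
  set c₃ := c'.filter (fun l => ¬ In U₂ l) with hc₃
  have e1 : c = c₁ + c' := (Finsupp.filter_add_filter_not c (In U₁)).symm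
  have e2 : c' = c'.filter (In U₂) + c₃ := (Finsupp.filter_add_filter_not c' (In U₂)).symm
  have hlne : ∀ l ∈ c.support, l ≠ [] := fun l hl h => by
    have := (hs l hl).1
    rw [h] at this
    simp at this
  have e3 : c'.filter (In U₂) = c.filter (In U₂) := by
    ext l
    by_cases h : In U₂ l
    · rw [Finsupp.filter_apply_pos _ _ h, Finsupp.filter_apply_pos _ _ h]
      by_cases hl : l ∈ c.support
      · refine Finsupp.filter_apply_pos _ _ ?_
        intro h'
        obtain ⟨w, hw⟩ := List.exists_mem_of_ne_nil l (hlne l hl)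
        exact (disjoint_left.1 hd) (h' w hw) (h w hw)
      · rw [Finsupp.notMem_support_iff.1 hl]
        rw [← Finsupp.notMem_support_iff]
        intro hmem
        rw [hc', Finsupp.support_filter, Finset.mem_filter] at hmem
        exact hl hmem.1
    · rw [Finsupp.filter_apply_neg _ _ h, Finsupp.filter_apply_neg _ _ h]
  have e4 : dg β' (pf f c₃) y' = 0 := by
    refine (hfar _ y' hy' (Sup.pf f ?_)).1
    intro l hl
    rw [hc₃, Finsupp.support_filter, Finset.mem_filter, hc', Finsupp.support_filter,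
      Finset.mem_filter] at hl
    obtain ⟨⟨hl1, hl2⟩, hl3⟩ := hl
    refine ⟨?_, ?_⟩
    · intro a ha b hb
      obtain ⟨w, hw, rfl⟩ := List.mem_map.1 ha
      obtain ⟨w', hw', rfl⟩ := List.mem_map.1 hb
      exact hs2 l hl1 w hw w' hw'
    · by_contra hcon
      push Not at hcon
      have hall : ∀ w ∈ l, dist (f w) y < ρ := fun w hw => by
        have h1 := hcon (f w) (List.mem_map.2 ⟨w, hw, rfl⟩)
        have h2 := dist_triangle (f w) y' y
        rw [dist_comm] at h1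
        linarith only [h1, h2, hyy, hρ]
      obtain ⟨w, hw⟩ := List.exists_mem_of_ne_nil l (hlne l hl1)
      rcases hcov w (hall w hw) with h | h
      · refine hl2 fun w' hw' => ?_
        rcases hcov w' (hall w' hw') with h' | h'
        · exact h'
        · exact absurd (hs1 l hl1 w hw w' hw') (not_lt.2 (hsep w h w' h'))
      · refine hl3 fun w' hw' => ?_
        rcases hcov w' (hall w' hw') with h' | h'
        · exact absurd (hs1 l hl1 w' hw' w hw) (not_lt.2 (hsep w' h' w h))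
        · exact h'
  calc dg β' (pf f c) y' = dg β' (pf f c₁ + (pf f (c.filter (In U₂)) + pf f c₃)) y' := by
        rw [← e3, ← map_add, ← e2, ← map_add, ← e1]
    _ = _ := by rw [inv_dg_add, inv_dg_add, e4, add_zero]

end Dec

end Vale.Agent.P260.H283
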