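import Vale.Agent.P260.H283.Deg3

/-!
# Maps with a homotopy section between closed manifolds: fibres with two points
-/

open Metric Set Topology
open Vale.Agent.P239.M Vale.Agent.P239.M.Fill

namespace Vale.Agent.P260.H283

section Small

variable {X Y : Type*} [MetricSpace X] [CompactSpace X] [MetricSpace Y]

/-- Continuous maps send small lists to small lists. -/
theorem small_map {f : X → Y} (hf : Continuous f) {ε : ℝ} (hε : 0 < ε) :
    ∃ δ > 0, ∀ l : List X, Sm δ l → Sm ε (l.map f) := by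
  have huc := CompactSpace.uniformContinuous_of_continuous hf
  obtain ⟨δ, hδ, hmod⟩ := Metric.uniformContinuous_iff.1 huc ε hε
  refine ⟨δ, hδ, fun l hl a ha b hb => ?_⟩
  obtain ⟨w, hw, rfl⟩ := List.mem_map.1 ha
  obtain ⟨w', hw', rfl⟩ := List.mem_map.1 hb
  exact hmod (hl w hw w' hw')

/-- Tube lemma for fibres. -/
theorem exists_tube {f : X → Y} (hf : Continuous f) {W : Set X} (hW : IsOpen W) {y : Y}
    (hy : f ⁻¹' {y} ⊆ W) : ∃ ρ > 0, ∀ x, dist (f x) y < ρ → x ∈ W := by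
  have h1 : IsClosed (f '' Wᶜ) := (hW.isClosed_compl.isCompact.image hf).isClosed
  have h2 : y ∈ (f '' Wᶜ)ᶜ := by
    rintro ⟨x, hx, hxy⟩
    exact hx (hy hxy)
  obtain ⟨ρ, hρ, hb⟩ := Metric.mem_nhds_iff.1 (h1.isOpen_compl.mem_nhds h2)
  refine ⟨ρ, hρ, fun x hx => ?_⟩
  by_contra hxW
  exact hb (mem_ball.2 hx) ⟨x, hxW, rfl⟩

end Small

section Total

variable {n : ℕ} {M N : Type*} [MetricSpace M] [CompactSpace M] [MetricSpace N] [CompactSpace N]
  [ChartedSpace (EuclideanSpace ℝ (Fin n)) N]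

omit [CompactSpace M] in
/-- If `f` has a homotopy section, then there are small cycles on the source whose images have
degree one. -/
theorem total_one (hn : 0 < n) (f : C(M, N)) (g : C(N, M))
    (hfg : (f.comp g).Homotopic (ContinuousMap.id N)) {β' : (Fin n → ℝ) → N}
    (hβ' : IsOpenEmbedding β') {δ : ℝ} (hδ : 0 < δ) :
    ∃ c : Ch (ZMod 2) M, bd c = 0 ∧ Sup (fun l => l.length = n + 1 ∧ Sm δ l) c ∧
      ∀ y ∈ β' '' Q n 2, dg β' (pf f c) y = 1 := by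
  obtain ⟨m, b, hb, hcov, ⟨a, ha⟩, -⟩ := exists_atlas hβ' hβ'
  obtain ⟨k1, hk1, hb1⟩ := dg_bd hβ'
  obtain ⟨k2, hk2, hh⟩ := htpy_bd (f.comp g) hfg hk1
  obtain ⟨k3, hk3, hg⟩ := small_map g.continuous hδ
  obtain ⟨μ, hμ0, hμs, hμ1⟩ := fund_cycle hn hb hcov (lt_min hk2 hk3)
  refine ⟨pf g μ, ?_, ?_, ?_⟩
  · rw [bd_pf, hμ0, map_zero]
  · refine Sup.pf g (Sup.mono (fun l hl => ⟨?_, hg l (sm_mono (min_le_right _ _) hl.2)⟩) hμs)
    rw [List.length_map]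
    exact hl.1
  · intro y hy
    obtain ⟨e, he, hpe⟩ := hh μ hμ0 (Sup.mono (fun l hl => sm_mono (min_le_left _ _) hl.2) hμs)
    have e1 : pf f (pf g μ) = μ + bd e := by
      rw [pf_comp]
      exact hpe
    rw [e1, inv_dg_add, (hb1 e he y (q_mono (by norm_num) β' hy)).1, add_zero]
    have := hμ1 a
    rw [ha] at this
    exact this y hy

end Total

section StepA

variable {n : ℕ} {M N : Type*} [MetricSpace M] [CompactSpace M] [MetricSpace N] [CompactSpace N]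
  [ChartedSpace (EuclideanSpace ℝ (Fin n)) N]

/-- One of the two sheets is onto a neighbourhood. -/
theorem stepA (hn : 0 < n) (f : C(M, N)) (g : C(N, M))
    (hfg : (f.comp g).Homotopic (ContinuousMap.id N)) {U₁ U₂ : Set M} (h₁ : IsCompact U₁)
    (h₂ : IsCompact U₂) (hd : Disjoint U₁ U₂) {y : N} {ρ : ℝ} (hρ : 0 < ρ)
    (hcov : ∀ x, dist (f x) y < ρ → x ∈ U₁ ∨ x ∈ U₂) :
    (∃ r > 0, ball y r ⊆ f '' U₁) ∨ ∃ r > 0, ball y r ⊆ f '' U₂ := by
  classical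
  by_contra hcon
  push Not at hcon
  obtain ⟨hc1, hc2⟩ := hcon
  obtain ⟨β', hβ', h0, -⟩ := exists_chart (n := n) y Filter.univ_mem
  have hy2 : y ∈ β' '' Q n 2 := ⟨0, mem_closedBall_self (by norm_num), h0⟩
  have hρ2 : 0 < ρ / 2 := by linarith only [hρ]
  obtain ⟨r, hr, k1, hk1, hconst⟩ := dg_const hn hβ' hρ2
  obtain ⟨r', hr', hmod⟩ := chart_mod hβ' (show (2 : ℝ) < 7 by norm_num) one_pos
  have hball : ∀ z, dist z y < r' → z ∈ β' '' Q n 7 := by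
    intro z hz
    obtain ⟨u, hu, huy⟩ := hy2
    obtain ⟨v, hv, hvy, _⟩ := hmod u hu z (by rw [huy, dist_comm]; exact hz)
    exact ⟨v, hv, hvy⟩
  have key : ∀ U : Set M, IsCompact U → (∀ r > 0, ¬ ball y r ⊆ f '' U) → ∃ κ > 0,
      ∀ c : Ch (ZMod 2) M, Sup (fun l => l.length = n + 1 ∧ Sm κ l) c →
      Sup (fun l => ∀ z ∈ l, ρ / 2 ≤ dist z y) (bd (pf f (c.filter (In U)))) →
      dg β' (pf f (c.filter (In U))) y = 0 := by
    intro U hU hnot
    obtain ⟨z, hz, hzU⟩ := not_subset.1 (hnot (min r r') (lt_min hr hr'))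
    rw [mem_ball] at hz
    have hcl : IsClosed (f '' U) := (hU.image f.continuous).isClosed
    obtain ⟨t, ht, hb⟩ := Metric.mem_nhds_iff.1 (hcl.isOpen_compl.mem_nhds hzU)
    obtain ⟨k3, hk3, hfar⟩ := dg_far hβ' ht
    obtain ⟨κ, hκ, hsm⟩ := small_map f.continuous (lt_min hk1 hk3)
    refine ⟨κ, hκ, fun c hc hbd => ?_⟩
    have hs : Sup (fun l => (l.length = n + 1 ∧ Sm (min k1 k3) l) ∧ In (f '' U) l)
        (pf f (c.filter (In U))) := by
      refine Sup.pf f ?_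
      intro l hl
      rw [Finsupp.support_filter, Finset.mem_filter] at hl
      refine ⟨⟨?_, hsm l (hc l hl.1).2⟩, ?_⟩
      · rw [List.length_map]; exact (hc l hl.1).1
      · intro a ha
        obtain ⟨w, hw, rfl⟩ := List.mem_map.1 ha
        exact ⟨w, hl.2 w hw, rfl⟩
    rw [← hconst _ y hy2 (Sup.mono (fun l hl => ⟨hl.1.1, sm_mono (min_le_left _ _) hl.1.2⟩) hs)
      hbd z (hz.trans_le (min_le_left _ _))]
    refine (hfar _ z (hball z (hz.trans_le (min_le_right _ _))) (Sup.mono (fun l hl => ?_) hs)).1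
    refine ⟨sm_mono (min_le_right _ _) hl.1.2, ?_⟩
    have hne : l ≠ [] := by
      intro h
      have := hl.1.1
      rw [h] at this
      simp at this
    obtain ⟨w, hw⟩ := List.exists_mem_of_ne_nil l hne
    refine ⟨w, hw, ?_⟩
    by_contra hlt
    rw [not_le] at hlt
    exact hb (mem_ball.2 (by rw [dist_comm]; exact hlt)) (hl.2 w hw)
  obtain ⟨κ₁, hκ₁, H1⟩ := key U₁ h₁ hc1
  obtain ⟨κ₂, hκ₂, H2⟩ := key U₂ h₂ hc2
  obtain ⟨κ₃, hκ₃, H3⟩ := dec f.continuous h₁ h₂ hd hρ hcov hβ'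
  obtain ⟨c, hc0, hcs, hc1⟩ := total_one hn f g hfg hβ' (lt_min (lt_min hκ₁ hκ₂) hκ₃)
  obtain ⟨hb1, hb2, hsum⟩ := H3 c hc0
    (Sup.mono (fun l hl => ⟨hl.1, sm_mono (min_le_right _ _) hl.2⟩) hcs)
  have e1 := H1 c (Sup.mono (fun l hl => ⟨hl.1, sm_mono ((min_le_left _ _).trans
    (min_le_left _ _)) hl.2⟩) hcs) hb1
  have e2 := H2 c (Sup.mono (fun l hl => ⟨hl.1, sm_mono ((min_le_left _ _).trans
    (min_le_right _ _)) hl.2⟩) hcs) hb2
  have e3 := hsum y (q_mono (by norm_num) β' hy2) (by rw [dist_self]; linarith only [hρ])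
  rw [hc1 y hy2, e1, e2, add_zero] at e3
  exact one_ne_zero e3

/-- Two sheets which are local homeomorphisms are impossible. -/
theorem stepC [PreconnectedSpace M] [ChartedSpace (EuclideanSpace ℝ (Fin n)) M] (hn : 0 < n)
    (f : C(M, N)) (g : C(N, M))
    (hfg : (f.comp g).Homotopic (ContinuousMap.id N)) {β₁ β₂ : (Fin n → ℝ) → M}
    (hβ₁ : IsOpenEmbedding β₁) (hβ₂ : IsOpenEmbedding β₂) (hfβ₁ : IsOpenEmbedding (f ∘ β₁))
    (hfβ₂ : IsOpenEmbedding (f ∘ β₂)) (hd : Disjoint (range β₁) (range β₂)) {y : N}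
    (h1 : f (β₁ 0) = y) (h2 : f (β₂ 0) = y) (hy : f ⁻¹' {y} ⊆ {β₁ 0, β₂ 0}) : False := by
  classical
  have hK1 : IsCompact (β₁ '' Q n 8) := (isCompact_closedBall _ _).image hβ₁.continuous
  have hK2 : IsCompact (β₂ '' Q n 8) := (isCompact_closedBall _ _).image hβ₂.continuous
  have hdK : Disjoint (β₁ '' Q n 8) (β₂ '' Q n 8) :=
    hd.mono (image_subset_range _ _) (image_subset_range _ _)
  have hop : ∀ β : (Fin n → ℝ) → M, IsOpenEmbedding β → IsOpen (β '' ball 0 8) :=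
    fun β hβ => hβ.isOpenMap _ isOpen_ball
  have hmem : ∀ β : (Fin n → ℝ) → M, β 0 ∈ β '' ball 0 8 := fun β =>
    ⟨0, mem_ball_self (by norm_num), rfl⟩
  have hsub : ∀ β : (Fin n → ℝ) → M, β '' ball 0 8 ⊆ β '' Q n 8 := fun β =>
    image_mono ball_subset_closedBall
  obtain ⟨ρ, hρ, hcov⟩ := exists_tube f.continuous ((hop β₁ hβ₁).union (hop β₂ hβ₂)) (y := y)
    (hy.trans (by
      rintro x (rfl | rfl)
      · exact Or.inl (hmem β₁)
      · exact Or.inr (hmem β₂)))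
  have hcov' : ∀ x, dist (f x) y < ρ → x ∈ β₁ '' Q n 8 ∨ x ∈ β₂ '' Q n 8 := fun x hx =>
    (hcov x hx).imp (fun h => hsub _ h) (fun h => hsub _ h)
  obtain ⟨m, b, hb, hcovM, ⟨a1, ha1⟩, ⟨a2, ha2⟩⟩ := exists_atlas hβ₁ hβ₂
  have hy1 : ∀ s : ℝ, 0 ≤ s → y ∈ (f ∘ β₁) '' Q n s := fun s hs =>
    ⟨0, mem_closedBall_self hs, h1⟩
  have hy2 : ∀ s : ℝ, 0 ≤ s → y ∈ (f ∘ β₂) '' Q n s := fun s hs =>
    ⟨0, mem_closedBall_self hs, h2⟩
  have hρ2 : 0 < ρ / 2 := by linarith only [hρ]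
  obtain ⟨κ₁, hκ₁, H1⟩ := dec f.continuous hK1 hK2 hdK hρ hcov' hfβ₁
  obtain ⟨κ₂, hκ₂, H2⟩ := deg_const hn hb hcovM
  obtain ⟨κ₃, hκ₃, H3⟩ := dg_inv hn hfβ₁ hfβ₂ hρ2
  obtain ⟨κ₄, hκ₄, H4⟩ := small_map f.continuous hκ₃
  obtain ⟨κ, hκ, hka, hkb, hkc⟩ : ∃ κ > 0, κ ≤ κ₁ ∧ κ ≤ κ₂ ∧ κ ≤ κ₄ :=
    ⟨min (min κ₁ κ₂) κ₄, lt_min (lt_min hκ₁ hκ₂) hκ₄, (min_le_left _ _).trans (min_le_left _ _),
      (min_le_left _ _).trans (min_le_right _ _), min_le_right _ _⟩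
  obtain ⟨c, hc0, hcs, hc1⟩ := total_one hn f g hfg hfβ₁ hκ
  obtain ⟨hb1, hb2, hsum⟩ := H1 c hc0 (Sup.mono (fun l hl => ⟨hl.1, sm_mono hka hl.2⟩) hcs)
  have e0 := hsum y (hy1 7 (by norm_num)) (by rw [dist_self]; linarith only [hρ])
  have e1 := H3 (pf f (c.filter (In (β₂ '' Q n 8)))) y
    ⟨hy1 2 (by norm_num), hy2 2 (by norm_num)⟩ (by
      refine Sup.pf f ?_
      intro l hl
      rw [Finsupp.support_filter, Finset.mem_filter] at hl
      refine ⟨?_, H4 l (sm_mono hkc (hcs l hl.1).2)⟩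
      rw [List.length_map]; exact (hcs l hl.1).1) hb2
  have e2 := dg_push hβ₁ hfβ₁ c 0
  have e3 := dg_push hβ₂ hfβ₂ c 0
  rw [h1] at e2
  rw [h2] at e3
  have e4 := H2 c hc0 (Sup.mono (fun l hl => ⟨hl.1, sm_mono hkb hl.2⟩) hcs) a1 a2 (β₁ 0)
    (by rw [ha1]; exact ⟨0, mem_closedBall_self (by norm_num), rfl⟩) (β₂ 0)
    (by rw [ha2]; exact ⟨0, mem_closedBall_self (by norm_num), rfl⟩)
  rw [ha1, ha2] at e4
  rw [hc1 y (hy1 2 (by norm_num)), e1, e2, e3, e4] at e0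
  have : ∀ z : ZMod 2, (1 : ZMod 2) = z + z → False := by decide
  exact this _ e0

end StepA

section StepB

variable {n : ℕ} {M N : Type*} [MetricSpace M] [CompactSpace M] [PreconnectedSpace M]
  [ChartedSpace (EuclideanSpace ℝ (Fin n)) M] [MetricSpace N] [CompactSpace N]
  [ChartedSpace (EuclideanSpace ℝ (Fin n)) N]

/-- The statement with the sheets ordered. -/
theorem stepB (hn : 0 < n) (f : C(M, N)) (g : C(N, M))
    (hfg : (f.comp g).Homotopic (ContinuousMap.id N)) {y : N} {x₁ x₂ : M} {ρ : ℝ} (hρ : 0 < ρ)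
    {U₁ U₂ : Set M} (hU₁ : U₁ ∈ 𝓝 x₁) (hU₂ : U₂ ∈ 𝓝 x₂) (hd : Disjoint U₁ U₂)
    (hinj : ∀ y' ∈ ball y ρ, y' ∈ f '' U₁ → y' ∈ f '' U₂ →
      (∀ x ∈ U₁, ∀ x' ∈ U₁, f x = y' → f x' = y' → x = x') ∧
      ∀ x ∈ U₂, ∀ x' ∈ U₂, f x = y' → f x' = y' → x = x')
    (hy : f ⁻¹' {y} = {x₁, x₂}) {r : ℝ} (hr : 0 < r) (hon : ball y r ⊆ f '' U₁) : False := by
  have hx1 : f x₁ = y := by
    have : x₁ ∈ f ⁻¹' {y} := by rw [hy]; exact Or.inl rfl
    exact this
  have hx2 : f x₂ = y := by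
    have : x₂ ∈ f ⁻¹' {y} := by rw [hy]; exact Or.inr rfl
    exact this
  have hW2 : U₂ ∩ f ⁻¹' ball y (min ρ r) ∈ 𝓝 x₂ := by
    refine Filter.inter_mem hU₂ (f.continuous.continuousAt ?_)
    rw [hx2]
    exact ball_mem_nhds _ (lt_min hρ hr)
  obtain ⟨β₂, hβ₂, hβ₂0, hβ₂r⟩ := exists_chart (n := n) x₂ hW2
  have hball : ∀ z ∈ ball y (min ρ r), z ∈ ball y ρ ∧ z ∈ ball y r := fun z hz =>
    ⟨ball_subset_ball (min_le_left _ _) hz, ball_subset_ball (min_le_right _ _) hz⟩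
  have hi2 : InjOn f (range β₂) := by
    intro x hx x' hx' h
    have h1 := hβ₂r hx
    have h2 := hβ₂r hx'
    have h3 := hball _ h1.2
    exact (hinj (f x) h3.1 (hon h3.2) ⟨x, h1.1, rfl⟩).2 x h1.1 x' h2.1 rfl h.symm
  have hfβ₂ := isOpenEmbedding_comp f.continuous hβ₂ hi2
  have hW1 : U₁ ∩ f ⁻¹' range (f ∘ β₂) ∈ 𝓝 x₁ := by
    refine Filter.inter_mem hU₁ (f.continuous.continuousAt ?_)
    rw [hx1]
    refine hfβ₂.isOpen_range.mem_nhds ⟨0, ?_⟩
    show f (β₂ 0) = y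
    rw [hβ₂0, hx2]
  obtain ⟨β₁, hβ₁, hβ₁0, hβ₁r⟩ := exists_chart (n := n) x₁ hW1
  have hi1 : InjOn f (range β₁) := by
    intro x hx x' hx' h
    have h1 := hβ₁r hx
    have h2 := hβ₁r hx'
    obtain ⟨u, hu⟩ := h1.2
    have h4 := hβ₂r (mem_range_self u)
    have hu' : f (β₂ u) = f x := hu
    have h5 : f x ∈ ball y (min ρ r) := by rw [← hu']; exact h4.2
    exact (hinj (f x) (hball _ h5).1 ⟨x, h1.1, rfl⟩ ⟨β₂ u, h4.1, hu'⟩).1 x h1.1 x' h2.1
      rfl h.symm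
  have hfβ₁ := isOpenEmbedding_comp f.continuous hβ₁ hi1
  refine stepC hn f g hfg hβ₁ hβ₂ hfβ₁ hfβ₂ ?_ (y := y) (by rw [hβ₁0, hx1]) (by rw [hβ₂0, hx2])
    (by rw [hy, hβ₁0, hβ₂0])
  exact hd.mono (hβ₁r.trans inter_subset_left) (hβ₂r.trans inter_subset_left)

/-- A map with a homotopy section has no fibre consisting of two points such that all the nearby
fibres are connected or have at most two points. -/
theorem no_two (hn : 0 < n) (f : C(M, N)) (g : C(N, M))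
    (hfg : (f.comp g).Homotopic (ContinuousMap.id N)) {V : Set N} (hVo : IsOpen V)
    (hV : ∀ y ∈ V, IsPreconnected (f ⁻¹' {y}) ∨ (f ⁻¹' {y}).encard ≤ 2) :
    ∀ y ∈ V, IsPreconnected (f ⁻¹' {y}) := by
  intro y hyV
  rcases hV y hyV with h | hle
  · exact h
  by_contra hnc
  have hns : ¬ (f ⁻¹' {y}).Subsingleton := fun h => hnc h.isPreconnected
  rw [Set.not_subsingleton_iff] at hns
  obtain ⟨x₁, h1, x₂, h2, hne⟩ := hns
  have hsub : ({x₁, x₂} : Set M) ⊆ f ⁻¹' {y} := by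
    rintro x (rfl | rfl)
    · exact h1
    · exact h2
  have hfib : f ⁻¹' {y} = {x₁, x₂} := by
    refine ((Set.toFinite ({x₁, x₂} : Set M)).eq_of_subset_of_encard_le hsub ?_).symm
    rw [Set.encard_pair hne]
    exact hle
  have hx1 : f x₁ = y := h1
  have hx2 : f x₂ = y := h2
  have hdp : 0 < dist x₁ x₂ := dist_pos.2 hne
  set s := dist x₁ x₂ / 3 with hs
  have hs0 : 0 < s := by linarith
  have hdis : Disjoint (closedBall x₁ s) (closedBall x₂ s) := by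
    refine closedBall_disjoint_closedBall ?_
    linarith
  obtain ⟨ρ₁, hρ₁, hball⟩ := Metric.mem_nhds_iff.1 (hVo.mem_nhds hyV)
  obtain ⟨ρ₂, hρ₂, htube⟩ := exists_tube f.continuous
    ((isOpen_ball (x := x₁) (ε := s)).union (isOpen_ball (x := x₂) (ε := s))) (y := y) (by
      rw [hfib]
      rintro x (rfl | rfl)
      · exact Or.inl (mem_ball_self hs0)
      · exact Or.inr (mem_ball_self hs0))
  have hρ : 0 < min ρ₁ ρ₂ := lt_min hρ₁ hρ₂
  have hcov : ∀ x, dist (f x) y < min ρ₁ ρ₂ → x ∈ closedBall x₁ s ∨ x ∈ closedBall x₂ s :=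
    fun x hx => (htube x (hx.trans_le (min_le_right _ _))).imp (fun h => ball_subset_closedBall h)
      (fun h => ball_subset_closedBall h)
  have hinj : ∀ y' ∈ ball y (min ρ₁ ρ₂), y' ∈ f '' closedBall x₁ s → y' ∈ f '' closedBall x₂ s →
      (∀ x ∈ closedBall x₁ s, ∀ x' ∈ closedBall x₁ s, f x = y' → f x' = y' → x = x') ∧
      ∀ x ∈ closedBall x₂ s, ∀ x' ∈ closedBall x₂ s, f x = y' → f x' = y' → x = x' := by
    rintro y' hy' ⟨z₁, hz₁, hz₁'⟩ ⟨z₂, hz₂, hz₂'⟩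
    have hy'1 : y' ∈ V := hball (ball_subset_ball (min_le_left _ _) hy')
    have hfc : f ⁻¹' {y'} ⊆ closedBall x₁ s ∪ closedBall x₂ s := by
      intro x hx
      have hx' : f x = y' := hx
      refine hcov x ?_
      rw [hx']
      exact hy'
    have hnp : ¬ IsPreconnected (f ⁻¹' {y'}) := by
      intro hp
      rw [isPreconnected_closed_iff] at hp
      obtain ⟨w, -, hw1, hw2⟩ := hp _ _ isClosed_closedBall isClosed_closedBall hfc
        ⟨z₁, hz₁', hz₁⟩ ⟨z₂, hz₂', hz₂⟩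
      exact (disjoint_left.1 hdis) hw1 hw2
    have hcard := (hV y' hy'1).resolve_left hnp
    have three : ∀ a b c : M, f a = y' → f b = y' → f c = y' → a ≠ c → b ≠ c → a = b := by
      intro a b c ha hb hc hac hbc
      by_contra hab
      have h3 : ({a, b, c} : Set M) ⊆ f ⁻¹' {y'} := by
        rintro x (rfl | rfl | rfl)
        exacts [ha, hb, hc]
      have h4 := (Set.encard_le_encard h3).trans hcard
      rw [Set.encard_eq_three.2 ⟨a, b, c, hab, hac, hbc, rfl⟩] at h4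
      exact absurd h4 (by decide)
    refine ⟨fun x hx x' hx' h h' => ?_, fun x hx x' hx' h h' => ?_⟩
    · exact three x x' z₂ h h' hz₂' (fun e => (disjoint_left.1 hdis) hx (e ▸ hz₂))
        (fun e => (disjoint_left.1 hdis) hx' (e ▸ hz₂))
    · exact three x x' z₁ h h' hz₁' (fun e => (disjoint_left.1 hdis) hz₁ (e ▸ hx))
        (fun e => (disjoint_left.1 hdis) hz₁ (e ▸ hx'))
  rcases stepA (n := n) hn f g hfg (isClosed_closedBall.isCompact) (isClosed_closedBall.isCompact) hdis hρ hcov with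
    ⟨r, hr, hon⟩ | ⟨r, hr, hon⟩
  · exact stepB hn f g hfg hρ (closedBall_mem_nhds _ hs0) (closedBall_mem_nhds _ hs0) hdis hinj
      hfib hr hon
  · exact stepB hn f g hfg hρ (closedBall_mem_nhds _ hs0) (closedBall_mem_nhds _ hs0) hdis.symm
      (fun y' hy' a b => (hinj y' hy' b a).symm) (by rw [hfib, Set.pair_comm]) hr hon

end StepB

end Vale.Agent.P260.H283
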