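import Vale.Agent.P260.H283.Deg4
import Mathlib.Analysis.Normed.Module.Connected
import Mathlib.Topology.Separation.Lemmas

/-!
# Maps with a homotopy section between closed manifolds: connected fibres
-/

open Metric Set Topology
open Vale.Agent.P239.M Vale.Agent.P239.M.Fill

namespace Vale.Agent.P260.H283

section Surj

variable {n : ℕ} {M N : Type*} [MetricSpace M] [CompactSpace M] [MetricSpace N] [CompactSpace N]
  [ChartedSpace (EuclideanSpace ℝ (Fin n)) N]

/-- A map onto a closed manifold with a homotopy section is surjective. -/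
theorem surj (hn : 0 < n) (f : C(M, N)) (g : C(N, M))
    (hfg : (f.comp g).Homotopic (ContinuousMap.id N)) : Function.Surjective f := by
  intro y
  by_contra hy
  have hy' : y ∉ range f := fun ⟨x, hx⟩ => hy ⟨x, hx⟩
  obtain ⟨β', hβ', h0, -⟩ := exists_chart (n := n) y Filter.univ_mem
  have hcl : IsClosed (range f) := (isCompact_range f.continuous).isClosed
  obtain ⟨t, ht, hb⟩ := Metric.mem_nhds_iff.1 (hcl.isOpen_compl.mem_nhds hy')
  obtain ⟨k, hk, hfar⟩ := dg_far hβ' ht
  obtain ⟨δ, hδ, hsm⟩ := small_map f.continuous hk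
  obtain ⟨c, hc0, hcs, hc1⟩ := total_one hn f g hfg hβ' hδ
  have e1 := hc1 y ⟨0, mem_closedBall_self (by norm_num), h0⟩
  have e2 : dg β' (pf f c) y = 0 := by
    refine (hfar _ y ⟨0, mem_closedBall_self (by norm_num), h0⟩ (Sup.pf f ?_)).1
    intro l hl
    refine ⟨hsm l (hcs l hl).2, ?_⟩
    have hne : l ≠ [] := by
      intro h
      have := (hcs l hl).1
      rw [h] at this
      simp at this
    obtain ⟨w, hw⟩ := List.exists_mem_of_ne_nil l hne
    refine ⟨f w, List.mem_map.2 ⟨w, hw, rfl⟩, ?_⟩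
    by_contra hlt
    rw [not_le] at hlt
    exact hb (mem_ball.2 (by rw [dist_comm]; exact hlt)) ⟨w, rfl⟩
  rw [e1] at e2
  exact one_ne_zero e2

end Surj

section Mono

/-- The complement of a countable set does not separate, locally, a manifold of dimension at
least two. -/
theorem nonsep_countable {n : ℕ} {Y : Type*} [TopologicalSpace Y] [ChartedSpace (EuclideanSpace ℝ (Fin n)) Y]
    (hn : 2 ≤ n) {S : Set Y} (hS : S.Countable) (y : Y) {W : Set Y} (hW : W ∈ 𝓝 y) :
    ∃ V ⊆ W, IsOpen V ∧ y ∈ V ∧ IsPreconnected (V \ S) := by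
  obtain ⟨β, hβ, h0, hr⟩ := exists_chart (n := n) y hW
  refine ⟨range β, hr, hβ.isOpen_range, ⟨0, h0⟩, ?_⟩
  have h1 : (β ⁻¹' S).Countable := hS.preimage hβ.injective
  have h2 : 1 < Module.rank ℝ (Fin n → ℝ) := by
    rw [rank_fin_fun]
    exact_mod_cast hn
  have h3 := (h1.isConnected_compl_of_one_lt_rank h2).isPreconnected.image β
    hβ.continuous.continuousOn
  have h4 : β '' (β ⁻¹' S)ᶜ = range β \ S := by
    ext z
    constructor
    · rintro ⟨u, hu, rfl⟩
      exact ⟨⟨u, rfl⟩, hu⟩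
    · rintro ⟨⟨u, rfl⟩, hu⟩
      exact ⟨u, hu, rfl⟩
  rw [← h4]
  exact h3

/-- Connectedness of the fibres over a closed set which does not separate locally. -/
theorem fibres_connected (n : ℕ) {M N : Type*} [MetricSpace M] [CompactSpace M]
    [PreconnectedSpace M] [ChartedSpace (EuclideanSpace ℝ (Fin n)) M] [MetricSpace N]
    (f : C(M, N)) (hsurj : Function.Surjective f) {S : Set N}
    (hS : IsClosed S) (hoff : ∀ y ∉ S, IsPreconnected (f ⁻¹' {y}))
    (hsep : ∀ y ∈ S, ∀ W ∈ 𝓝 y, ∃ V ⊆ W, IsOpen V ∧ y ∈ V ∧ IsPreconnected (V \ S))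
    (hint : S.Countable ∨ interior (f ⁻¹' S) = ∅) (y : N) :
    IsPreconnected (f ⁻¹' {y}) := by
  by_cases hyS : y ∉ S
  · exact hoff y hyS
  rw [not_not] at hyS
  rw [isPreconnected_closed_iff]
  intro A B hA hB hAB hneA hneB
  by_contra hemp
  rw [Set.not_nonempty_iff_eq_empty] at hemp
  set F := f ⁻¹' {y} with hF
  have hFc : IsClosed F := isClosed_singleton.preimage f.continuous
  have hdis : Disjoint (F ∩ A) (F ∩ B) := by
    rw [disjoint_left]
    rintro x ⟨h1, h2⟩ ⟨-, h3⟩
    have : x ∈ F ∩ (A ∩ B) := ⟨h1, h2, h3⟩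
    rw [hemp] at this
    exact this
  -- a symmetric statement
  have key : ∀ A B : Set M, IsClosed A → IsClosed B → F ⊆ A ∪ B → (F ∩ A).Nonempty →
      (F ∩ B).Nonempty → Disjoint (F ∩ A) (F ∩ B) → ∀ (OA OB : Set M), IsOpen OA → IsOpen OB →
      F ∩ A ⊆ OA → F ∩ B ⊆ OB → Disjoint OA OB → ∀ V : Set N, IsOpen V → y ∈ V →
      f ⁻¹' V ⊆ OA ∪ OB → f ⁻¹' (V \ S) ∩ OB = ∅ → False := by
    intro A B hA hB hAB hneA hneB hdis OA OB hOA hOB hAO hBO hO V hVo hyV hcov hempt
    have hsubS : f ⁻¹' V ∩ OB ⊆ f ⁻¹' S := by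
      rintro x ⟨hxV, hxO⟩
      by_contra hxS
      have : x ∈ f ⁻¹' (V \ S) ∩ OB := ⟨⟨hxV, hxS⟩, hxO⟩
      rw [hempt] at this
      exact this
    have hopen : IsOpen (f ⁻¹' V ∩ OB) := (hVo.preimage f.continuous).inter hOB
    obtain ⟨x₀, hx₀F, hx₀B⟩ := hneB
    have hx₀ : x₀ ∈ f ⁻¹' V ∩ OB := by
      refine ⟨?_, hBO ⟨hx₀F, hx₀B⟩⟩
      have : f x₀ = y := hx₀F
      show f x₀ ∈ V
      rw [this]; exact hyV
    rcases hint with hcount | hint
    · -- the set `F ∩ B` is open and closed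
      have hclosed : IsClosed (F ∩ B) := hFc.inter hB
      have hopenB : IsOpen (F ∩ B) := by
        rw [isOpen_iff_mem_nhds]
        rintro x ⟨hxF, hxB⟩
        have hxy : f x = y := hxF
        have hxm : f ⁻¹' V ∩ OB ∈ 𝓝 x := by
          refine hopen.mem_nhds ⟨?_, hBO ⟨hxF, hxB⟩⟩
          show f x ∈ V
          rw [hxy]; exact hyV
        obtain ⟨β, hβ, h0, hr⟩ := exists_chart (n := n) x hxm
        refine Filter.mem_of_superset (hβ.isOpen_range.mem_nhds ⟨0, h0⟩) ?_
        have hpre : IsPreconnected (f '' range β) :=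
          ((isPreconnected_range hβ.continuous).image f f.continuous.continuousOn)
        have hsub : f '' range β ⊆ S := by
          rintro _ ⟨z, hz, rfl⟩
          exact hsubS (hr hz)
        have hss := (hcount.isTotallyDisconnected) _ hsub hpre
        intro z hz
        have hzy : f z = y := by
          rw [← hxy]
          exact hss ⟨z, hz, rfl⟩ ⟨x, ⟨0, h0⟩, rfl⟩
        refine ⟨hzy, ?_⟩
        rcases hAB (show z ∈ F from hzy) with h | h
        · exact absurd (hAO ⟨hzy, h⟩) (fun h' => (disjoint_left.1 hO) h' (hr hz).2)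
        · exact h
      have huniv : F ∩ B = univ := by
        refine IsClopen.eq_univ ⟨hclosed, hopenB⟩ ⟨x₀, hx₀F, hx₀B⟩
      obtain ⟨a, ha⟩ := hneA
      have : a ∈ F ∩ B := by rw [huniv]; trivial
      exact (disjoint_left.1 hdis) ha this
    · have : x₀ ∈ interior (f ⁻¹' S) := mem_interior.2 ⟨_, hsubS, hopen, hx₀⟩
      rw [hint] at this
      exact this
  obtain ⟨OA, OB, hOA, hOB, hAO, hBO, hO⟩ :=
    (SeparatedNhds.of_isCompact_isCompact (hFc.inter hA).isCompact (hFc.inter hB).isCompact hdis)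
  obtain ⟨ρ, hρ, htube⟩ := exists_tube f.continuous (hOA.union hOB) (y := y) (by
    intro x hx
    rcases hAB hx with h | h
    · exact Or.inl (hAO ⟨hx, h⟩)
    · exact Or.inr (hBO ⟨hx, h⟩))
  obtain ⟨V, hVW, hVo, hyV, hVc⟩ := hsep y hyS (ball y ρ) (ball_mem_nhds y hρ)
  have hcov : f ⁻¹' V ⊆ OA ∪ OB := fun x hx => htube x (mem_ball.1 (hVW hx))
  have hor : f ⁻¹' (V \ S) ∩ OB = ∅ ∨ f ⁻¹' (V \ S) ∩ OA = ∅ := by
    by_contra hcon
    push Not at hcon
    obtain ⟨⟨b, hb, hbO⟩, ⟨a, ha, haO⟩⟩ := hcon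
    have hCA : IsClosed (f '' OBᶜ) := (hOB.isClosed_compl.isCompact.image f.continuous).isClosed
    have hCB : IsClosed (f '' OAᶜ) := (hOA.isClosed_compl.isCompact.image f.continuous).isClosed
    rw [isPreconnected_closed_iff] at hVc
    obtain ⟨z, ⟨hzV, hzS⟩, ⟨p, hp, hpz⟩, ⟨q, hq, hqz⟩⟩ := hVc _ _ hCA hCB (by
        rintro z ⟨hzV, hzS⟩
        obtain ⟨x, hx⟩ := hsurj z
        have hxV : x ∈ f ⁻¹' V := by
          show f x ∈ V
          rw [hx]; exact hzV
        rcases hcov hxV with h | h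
        · exact Or.inl ⟨x, fun h' => (disjoint_left.1 hO) h h', hx⟩
        · exact Or.inr ⟨x, fun h' => (disjoint_left.1 hO) h' h, hx⟩)
      ⟨f a, ha, a, fun h' => (disjoint_left.1 hO) haO h', rfl⟩
      ⟨f b, hb, b, fun h' => (disjoint_left.1 hO) h' hbO, rfl⟩
    have hfz : f ⁻¹' {z} ⊆ OA ∪ OB := fun x hx => hcov (by
      have : f x = z := hx
      show f x ∈ V
      rw [this]; exact hzV)
    have hp' : p ∈ OA := by
      rcases hfz hpz with h | h
      · exact h
      · exact absurd h hp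
    have hq' : q ∈ OB := by
      rcases hfz hqz with h | h
      · exact absurd h hq
      · exact h
    obtain ⟨w, -, hw1, hw2⟩ := hoff z hzS OA OB hOA hOB hfz ⟨p, hpz, hp'⟩ ⟨q, hqz, hq'⟩
    exact (disjoint_left.1 hO) hw1 hw2
  rcases hor with h | h
  · exact key A B hA hB hAB hneA hneB hdis OA OB hOA hOB hAO hBO hO V hVo hyV hcov h
  · exact key B A hB hA (by rw [union_comm]; exact hAB) hneB hneA hdis.symm OB OA hOB hOA hBO hAO
      hO.symm V hVo hyV (by rw [union_comm]; exact hcov) h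

theorem homeo_of_fibres {M N : Type*} [TopologicalSpace M] [CompactSpace M] [TopologicalSpace N]
    [T2Space N] (f : C(M, N)) (hsurj : Function.Surjective f)
    (hc : ∀ y, IsPreconnected (f ⁻¹' {y})) (ht : ∀ y, IsTotallyDisconnected (f ⁻¹' {y})) :
    IsHomeomorph f := by
  rw [isHomeomorph_iff_continuous_bijective]
  refine ⟨f.continuous, fun x x' h => ?_, hsurj⟩
  exact ht (f x) _ Subset.rfl (hc (f x)) rfl h.symm

end Mono

section Dyn

variable {n : ℕ} {M : Type*} [MetricSpace M] [CompactSpace M]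
  [ChartedSpace (EuclideanSpace ℝ (Fin n)) M]

/-- A self-map of a closed manifold homotopic to the identity two of whose iterates are uniformly
close, at every scale, is injective. -/
theorem inj_of_rec (hn : 0 < n) (h : C(M, M)) (hh : h.Homotopic (ContinuousMap.id M))
    (hrec : ∀ U : Set (M × M), IsOpen U → diagonal M ⊆ U →
      ∃ k l : ℕ, k < l ∧ ∀ x, (h^[k] x, h^[l] x) ∈ U) : Function.Injective h := by
  have hs : Function.Surjective h := surj hn h (ContinuousMap.id M) hh
  intro x x' hxx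
  by_contra hne
  have hd : 0 < dist x x' := dist_pos.2 hne
  obtain ⟨k, l, hkl, H⟩ := hrec {p | dist p.1 p.2 < dist x x' / 2}
    (isOpen_lt continuous_dist continuous_const) (by
      intro p hp
      have : p.1 = p.2 := hp
      show dist p.1 p.2 < _
      rw [this, dist_self]
      linarith)
  have hclose : ∀ z, dist z (h^[l - k] z) < dist x x' / 2 := by
    intro z
    obtain ⟨w, rfl⟩ := hs.iterate k z
    have h1 : h^[l - k] (h^[k] w) = h^[l] w := by
      rw [← Function.iterate_add_apply]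
      congr 2
      omega
    rw [h1]
    exact H w
  obtain ⟨j, hj⟩ : ∃ j, l - k = j + 1 := ⟨l - k - 1, by omega⟩
  have h1 := hclose x
  have h2 := hclose x'
  rw [hj, Function.iterate_succ_apply] at h1 h2
  rw [← hxx, dist_comm] at h2
  have h3 := dist_triangle x (h^[j] (h x)) x'
  linarith

end Dyn

end Vale.Agent.P260.H283
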