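import Vale.Agent.P260.H283.Sheets

/-!
# Cycles of degree one, and degrees of isolated sheets
-/

open Metric Set Topology
open Vale.Agent.P239.M Vale.Agent.P239.M.Fill

namespace Vale.Agent.P260.H283

section Good

variable {n : ℕ} {M N : Type*} [MetricSpace M] [CompactSpace M] [PreconnectedSpace M] [Nonempty M]
  [MetricSpace N] [CompactSpace N] [ChartedSpace (EuclideanSpace ℝ (Fin n)) N]

/-- Small cycles of local degree one on the source, with an image of degree one at a given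
point. -/
theorem good_cycle (hn : 0 < n) (f : C(M, N)) (g : C(N, M))
    (hfg : (f.comp g).Homotopic (ContinuousMap.id N)) {β' : (Fin n → ℝ) → N}
    (hβ' : IsOpenEmbedding β') {y : N} (hy : y ∈ β' '' Q n 2) {m : ℕ}
    {b : Fin m → (Fin n → ℝ) → M}
    (hb : ∀ a, IsOpenEmbedding (b a)) (hcov : ∀ x, ∃ a, x ∈ b a '' Q n 1) {δ : ℝ} (hδ : 0 < δ) :
    ∃ c : Ch (ZMod 2) M, bd c = 0 ∧ Sup (fun l => l.length = n + 1 ∧ Sm δ l) c ∧
      (∀ a, ∀ x ∈ b a '' Q n 2, dg (b a) c x = 1) ∧ dg β' (pf f c) y = 1 := by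
  obtain ⟨κ₁, hκ₁, hconst⟩ := deg_const hn hb hcov
  obtain ⟨c₁, h0, hs, h1⟩ := total_one hn f g hfg hβ' (lt_min hδ hκ₁)
  have hs' : Sup (fun l => l.length = n + 1 ∧ Sm δ l) c₁ :=
    Sup.mono (fun l hl => ⟨hl.1, sm_mono (min_le_left _ _) hl.2⟩) hs
  have hs'' : Sup (fun l => l.length = n + 1 ∧ Sm κ₁ l) c₁ :=
    Sup.mono (fun l hl => ⟨hl.1, sm_mono (min_le_right _ _) hl.2⟩) hs
  obtain ⟨x₀⟩ : Nonempty M := inferInstance
  obtain ⟨a₀, ha₀⟩ := hcov x₀
  have ha₀' : x₀ ∈ b a₀ '' Q n 2 := q_mono (by norm_num) _ ha₀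
  have hz : ∀ z : ZMod 2, z = 0 ∨ z = 1 := by decide
  have hall : ∀ a, ∀ x ∈ b a '' Q n 2, dg (b a) c₁ x = dg (b a₀) c₁ x₀ :=
    fun a x hx => hconst c₁ h0 hs'' a a₀ x hx x₀ ha₀'
  rcases hz (dg (b a₀) c₁ x₀) with hd | hd
  · obtain ⟨μ, hμ0, hμs, hμ1⟩ := fund_cycle hn hb hcov hδ
    rcases hz (dg β' (pf f μ) y) with ha | ha
    · refine ⟨μ + c₁, by rw [map_add, hμ0, h0, add_zero], hμs.add hs', fun a x hx => ?_, ?_⟩
      · rw [inv_dg_add, hμ1 a x hx, hall a x hx, hd, add_zero]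
      · rw [map_add, inv_dg_add, ha, h1 y hy, zero_add]
    · exact ⟨μ, hμ0, hμs, hμ1, ha⟩
  · exact ⟨c₁, h0, hs', fun a x hx => by rw [hall a x hx, hd], h1 y hy⟩

end Good

section Sheet

variable {n : ℕ} {M N : Type*} [MetricSpace M] [CompactSpace M] [MetricSpace N]

open Classical in
/-- The boundary of an isolated sheet. -/
theorem sheet_bdy {f : M → N} (hf : Continuous f) {U : Set M} (hU : IsCompact U) {y : N} {ρ : ℝ}
    (hρ : 0 < ρ) (hiso : IsOpen (U ∩ f ⁻¹' ball y ρ)) :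
    ∃ κ > 0, ∀ c : Ch (ZMod 2) M, bd c = 0 → Sup (fun l => l.length = n + 1 ∧ Sm κ l) c →
      Sup (fun l => ∀ z ∈ l, ρ / 2 ≤ dist z y) (bd (pf f (c.filter (In U)))) := by
  have hK : IsCompact (U ∩ f ⁻¹' closedBall y (ρ / 2)) :=
    hU.inter_right (isClosed_closedBall.preimage hf)
  have hKU : U ∩ f ⁻¹' closedBall y (ρ / 2) ⊆ U ∩ f ⁻¹' ball y ρ := by
    rintro x ⟨hx, hxy⟩
    exact ⟨hx, (mem_closedBall.1 hxy).trans_lt (half_lt_self hρ)⟩
  obtain ⟨κ, hκ, hth⟩ := hK.exists_thickening_subset_open hiso hKU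
  refine ⟨κ, hκ, fun c hc hs => ?_⟩
  rw [bd_pf]
  refine Sup.pf f ?_
  intro l' hl' z hz
  obtain ⟨w, hw, rfl⟩ := List.mem_map.1 hz
  by_contra hlt
  rw [not_le] at hlt
  have hwU : w ∈ U := by
    have : Sup (In U) (bd (c.filter (In U))) := by
      refine Sup.bd (P := In U) (fun l l' hsub _ hl x hx => hl x (hsub.subset hx)) ?_
      intro l hl
      rw [Finsupp.support_filter, Finset.mem_filter] at hl
      exact hl.2
    exact this l' hl' w hw
  have h1 : l' ∈ (bd c).support := mem_bd_filter hl' hw (fun l hl hwl w' hw' => by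
    have h2 : w' ∈ thickening κ (U ∩ f ⁻¹' closedBall y (ρ / 2)) := by
      rw [mem_thickening_iff]
      exact ⟨w, ⟨hwU, mem_closedBall.2 hlt.le⟩, (hs l hl).2 w' hw' w hwl⟩
    exact (hth h2).1)
  rw [hc] at h1
  simp at h1

open Classical in
/-- The degree of an isolated sheet is locally constant. -/
theorem sheet_const (hn : 0 < n) {f : M → N} (hf : Continuous f) {U : Set M} (hU : IsCompact U)
    {y : N} {ρ : ℝ} (hρ : 0 < ρ) (hiso : IsOpen (U ∩ f ⁻¹' ball y ρ)) {β' : (Fin n → ℝ) → N}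
    (hβ' : IsOpenEmbedding β') (hy : y ∈ β' '' Q n 2) :
    ∃ r > 0, ∃ κ > 0, ∀ c : Ch (ZMod 2) M, bd c = 0 →
      Sup (fun l => l.length = n + 1 ∧ Sm κ l) c →
      ∀ y' : N, dist y' y < r →
        dg β' (pf f (c.filter (In U))) y' = dg β' (pf f (c.filter (In U))) y := by
  obtain ⟨κ₁, hκ₁, h1⟩ := sheet_bdy (n := n) hf hU hρ hiso
  obtain ⟨r, hr, κ₂, hκ₂, h2⟩ := dg_const hn hβ' (half_pos hρ)
  obtain ⟨κ₃, hκ₃, h3⟩ := small_map hf hκ₂
  refine ⟨r, hr, min κ₁ κ₃, lt_min hκ₁ hκ₃, fun c hc hs y' hy' => ?_⟩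
  refine h2 _ y hy ?_ (h1 c hc (Sup.mono (fun l hl =>
    ⟨hl.1, sm_mono (min_le_left _ _) hl.2⟩) hs)) y' hy'
  refine Sup.pf f ?_
  intro l hl
  rw [Finsupp.support_filter, Finset.mem_filter] at hl
  refine ⟨?_, h3 l (sm_mono (min_le_right _ _) (hs l hl.1).2)⟩
  rw [List.length_map]; exact (hs l hl.1).1

open Classical in
/-- An isolated sheet of degree one is onto a neighbourhood. -/
theorem sheet_onto (hn : 0 < n) {f : M → N} (hf : Continuous f) {U : Set M} (hU : IsCompact U)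
    {y : N} {ρ : ℝ} (hρ : 0 < ρ) (hiso : IsOpen (U ∩ f ⁻¹' ball y ρ)) {β' : (Fin n → ℝ) → N}
    (hβ' : IsOpenEmbedding β') (hy : y ∈ β' '' Q n 2)
    (hfreq : ∀ κ > 0, ∃ c : Ch (ZMod 2) M, bd c = 0 ∧
      Sup (fun l => l.length = n + 1 ∧ Sm κ l) c ∧ dg β' (pf f (c.filter (In U))) y = 1) :
    ∃ r > 0, ball y r ⊆ f '' U := by
  obtain ⟨r, hr, κ₁, hκ₁, h1⟩ := sheet_const hn hf hU hρ hiso hβ' hy
  obtain ⟨r', hr', hmod⟩ := chart_mod hβ' (show (2 : ℝ) < 7 by norm_num) one_pos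
  refine ⟨min r r', lt_min hr hr', fun z hz => ?_⟩
  by_contra hzU
  rw [mem_ball] at hz
  have hz7 : z ∈ β' '' Q n 7 := by
    obtain ⟨u, hu, huy⟩ := hy
    obtain ⟨v, hv, hvy, _⟩ := hmod u hu z (by
      rw [huy, dist_comm]; exact hz.trans_le (min_le_right _ _))
    exact ⟨v, hv, hvy⟩
  have hcl : IsClosed (f '' U) := (hU.image hf).isClosed
  obtain ⟨t, ht, hb⟩ := Metric.mem_nhds_iff.1 (hcl.isOpen_compl.mem_nhds hzU)
  obtain ⟨k3, hk3, hfar⟩ := dg_far hβ' ht
  obtain ⟨κ₂, hκ₂, hsm⟩ := small_map hf hk3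
  obtain ⟨c, hc0, hcs, hc1⟩ := hfreq (min κ₁ κ₂) (lt_min hκ₁ hκ₂)
  have e1 := h1 c hc0 (Sup.mono (fun l hl => ⟨hl.1, sm_mono (min_le_left _ _) hl.2⟩) hcs) z
    (hz.trans_le (min_le_left _ _))
  rw [hc1] at e1
  have e2 : dg β' (pf f (c.filter (In U))) z = 0 := by
    refine (hfar _ z hz7 (Sup.pf f ?_)).1
    intro l hl
    rw [Finsupp.support_filter, Finset.mem_filter] at hl
    refine ⟨hsm l (sm_mono (min_le_right _ _) (hcs l hl.1).2), ?_⟩
    have hne : l ≠ [] := by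
      intro h
      have := (hcs l hl.1).1
      rw [h] at this
      simp at this
    obtain ⟨w, hw⟩ := List.exists_mem_of_ne_nil l hne
    refine ⟨f w, List.mem_map.2 ⟨w, hw, rfl⟩, ?_⟩
    by_contra hlt
    rw [not_le] at hlt
    exact hb (mem_ball.2 (by rw [dist_comm]; exact hlt)) ⟨w, hl.2 w hw, rfl⟩
  rw [e2] at e1
  exact one_ne_zero e1.symm

omit [CompactSpace M] in
open Classical in
/-- Splitting a small chain on the union of two disjoint compact sets. -/
theorem filter_union {S R : Set M} (hS : IsCompact S) (hR : IsCompact R) (hd : Disjoint S R) :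
    ∃ κ > 0, ∀ c : Ch (ZMod 2) M, Sup (fun l => l.length = n + 1 ∧ Sm κ l) c →
      c.filter (In (S ∪ R)) = c.filter (In S) + c.filter (In R) := by
  obtain ⟨κ, hκ, hsep⟩ := exists_dist_pos hS hR hd
  refine ⟨κ, hκ, fun c hs => ?_⟩
  ext l
  rw [Finsupp.add_apply]
  by_cases hl : l ∈ c.support
  · have hne : l ≠ [] := by
      intro h
      have := (hs l hl).1
      rw [h] at this
      simp at this
    obtain ⟨w, hw⟩ := List.exists_mem_of_ne_nil l hne
    by_cases h1 : In S l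
    · have h2 : ¬ In R l := fun h => (disjoint_left.1 hd) (h1 w hw) (h w hw)
      have h3 : In (S ∪ R) l := fun x hx => Or.inl (h1 x hx)
      rw [Finsupp.filter_apply_pos _ _ h3, Finsupp.filter_apply_pos _ _ h1,
        Finsupp.filter_apply_neg _ _ h2, add_zero]
    · by_cases h2 : In R l
      · have h3 : In (S ∪ R) l := fun x hx => Or.inr (h2 x hx)
        rw [Finsupp.filter_apply_pos _ _ h3, Finsupp.filter_apply_neg _ _ h1,
          Finsupp.filter_apply_pos _ _ h2, zero_add]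
      · have h3 : ¬ In (S ∪ R) l := by
          intro h
          rcases h w hw with hwS | hwR
          · refine h1 fun x hx => ?_
            rcases h x hx with h' | h'
            · exact h'
            · exact absurd ((hs l hl).2 w hw x hx) (not_lt.2 (hsep w hwS x h'))
          · refine h2 fun x hx => ?_
            rcases h x hx with h' | h'
            · exact absurd ((hs l hl).2 x hx w hw) (not_lt.2 (hsep x h' w hwR))
            · exact h'
        rw [Finsupp.filter_apply_neg _ _ h3, Finsupp.filter_apply_neg _ _ h1,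
          Finsupp.filter_apply_neg _ _ h2, add_zero]
  · have h0 : c l = 0 := Finsupp.notMem_support_iff.1 hl
    have : ∀ (P : List M → Prop) [DecidablePred P], c.filter P l = 0 := by
      intro P _
      rw [Finsupp.filter_apply, h0, ite_self]
    rw [this, this, this, add_zero]

end Sheet

end Vale.Agent.P260.H283
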