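import Vale.Agent.P260.H283.Deg5
import Vale.Agent.P260.H283.ND
import Vale.Agent.P260.H283.AV

/-!
# Light maps with a homotopy section, with countably many fibres of more than two points
-/

open Metric Set Topology

namespace Vale.Agent.P260.H283

section Img

variable {n : ℕ} {M N : Type*} [TopologicalSpace M] [T2Space M]
  [ChartedSpace (EuclideanSpace ℝ (Fin n)) M] [TopologicalSpace N] [T2Space N]
  [ChartedSpace (EuclideanSpace ℝ (Fin n)) N]

omit [T2Space M] in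
/-- A light map which is injective off countably many fibres on an open set has an image with
interior. -/
theorem image_interior (hn : 0 < n) {f : M → N} (hf : Continuous f)
    (hlight : ∀ y, IsTotallyDisconnected (f ⁻¹' {y})) {T : Set N} (hT : T.Countable)
    {W : Set M} (hW : IsOpen W) (hne : W.Nonempty)
    (hinj : ∀ x ∈ W, ∀ x' ∈ W, f x = f x' → f x ∉ T → x = x') :
    (interior (f '' W)).Nonempty := by
  obtain ⟨x, hx⟩ := hne
  obtain ⟨β', hβ', h0', -⟩ := exists_chart (n := n) (f x) Filter.univ_mem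
  have hnb : W ∩ f ⁻¹' range β' ∈ 𝓝 x :=
    (hW.inter (hβ'.isOpen_range.preimage hf)).mem_nhds ⟨hx, 0, h0'⟩
  obtain ⟨β, hβ, h0, hr⟩ := exists_chart (n := n) x hnb
  set φ : (Fin n → ℝ) → (Fin n → ℝ) := fun v => Function.invFun β' (f (β v)) with hφ
  have hφ1 : ∀ v, β' (φ v) = f (β v) := by
    intro v
    obtain ⟨w, hw⟩ := (hr (mem_range_self v)).2
    exact Function.invFun_eq ⟨w, hw⟩
  have hφc : Continuous φ := by
    rw [hβ'.isInducing.continuous_iff]
    have : β' ∘ φ = f ∘ β := funext hφ1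
    rw [this]
    exact hf.comp hβ.continuous
  -- the exceptional sets
  have : Nonempty N := ⟨f x⟩
  obtain ⟨e, he⟩ := Set.countable_iff_exists_subset_range.1 hT
  let C : ℕ → Set (Fin n → ℝ) := fun j => (fun v => f (β v)) ⁻¹' {e j} ∩ closedBall 0 1
  have hfβ : Continuous (fun v => f (β v)) := hf.comp hβ.continuous
  have hC : ∀ j, IsCompact (C j) := fun j =>
    (isCompact_closedBall _ _).inter_left (isClosed_singleton.preimage hfβ)
  have hCt : ∀ j, IsTotallyDisconnected (C j) := by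
    intro j t ht hpt
    have h1 : IsPreconnected (β '' t) := hpt.image β hβ.continuous.continuousOn
    have h2 : β '' t ⊆ f ⁻¹' {e j} := by
      rintro _ ⟨v, hv, rfl⟩
      exact (ht hv).1
    have h3 := hlight (e j) _ h2 h1
    intro a ha b hb
    exact hβ.injective (h3 (mem_image_of_mem _ ha) (mem_image_of_mem _ hb))
  have hdis : Disjoint (closedBall (0 : Fin n → ℝ) (1 / 3)) (ball (0 : Fin n → ℝ) (2 / 3))ᶜ := by
    rw [disjoint_compl_right_iff_subset]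
    exact closedBall_subset_ball (by norm_num)
  obtain ⟨O, O', hO, hO', hOO, hPO, hQO, hCO⟩ := av hC hCt isClosed_closedBall
    isOpen_ball.isClosed_compl hdis
  set X := closure O with hX
  have hXO' : Disjoint X O' := hOO.closure_left hO'
  have hXb : X ⊆ ball 0 (2 / 3) := by
    intro v hv
    by_contra h
    exact (disjoint_left.1 hXO') hv (hQO h)
  have hX1 : X ⊆ closedBall 0 1 := fun v hv =>
    (ball_subset_closedBall.trans (closedBall_subset_closedBall (by norm_num))) (hXb hv)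
  have hXc : IsCompact X := (isCompact_closedBall _ _).of_isClosed_subset isClosed_closure hX1
  have hOi : O ⊆ interior X := interior_maximal subset_closure hO
  have h0X : (0 : Fin n → ℝ) ∈ interior X := hOi (hPO (mem_closedBall_self (by norm_num)))
  have hfr : ∀ v ∈ frontier X, f (β v) ∉ T := by
    intro v hv hvT
    have hvX : v ∈ X := hXc.isClosed.frontier_subset hv
    obtain ⟨j, hj⟩ := he hvT
    have hvC : v ∈ C j := ⟨hj.symm, hX1 hvX⟩
    rcases hCO j hvC with h | h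
    · exact hv.2 (hOi h)
    · exact (disjoint_left.1 hXO') hvX h
  have hinjφ : InjOn φ (frontier X) := by
    intro u hu v hv huv
    have h1 : f (β u) = f (β v) := by rw [← hφ1 u, ← hφ1 v, huv]
    exact hβ.injective (hinj _ (hr (mem_range_self u)).1 _ (hr (mem_range_self v)).1 h1 (hfr u hu))
  obtain ⟨z, hz⟩ := interior_image_nonempty hn hXc h0X hφc.continuousOn hinjφ
  refine ⟨β' z, mem_interior.2 ⟨β' '' interior (φ '' X), ?_, hβ'.isOpenMap _ isOpen_interior,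
    mem_image_of_mem _ hz⟩⟩
  rintro _ ⟨w, hw, rfl⟩
  obtain ⟨v, hv, rfl⟩ := interior_subset hw
  rw [hφ1 v]
  exact ⟨β v, (hr (mem_range_self v)).1, rfl⟩

/-- Injectivity on a sheet. -/
theorem sheet_inj (hn : 2 ≤ n) {f : M → N} (hf : Continuous f)
    (hlight : ∀ y, IsTotallyDisconnected (f ⁻¹' {y})) {T : Set N} (hT : T.Countable)
    (hTT : ∀ t ⊆ T, IsPreconnected t → t.Subsingleton)
    {U : Set M} (hU : IsCompact U) {B : Set N} (hB : IsOpen B) (hBU : B ⊆ f '' U)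
    (hUB : IsOpen (U ∩ f ⁻¹' B))
    (hinj : ∀ x ∈ U, ∀ x' ∈ U, f x = f x' → f x ∈ B → f x ∉ T → x = x') :
    InjOn f (U ∩ f ⁻¹' B) := by
  rintro p ⟨hpU, hpB⟩ q ⟨hqU, hqB⟩ hpq
  by_contra hne
  set t := f p with ht
  have hFc : IsCompact (U ∩ f ⁻¹' {t}) := hU.inter_right (isClosed_singleton.preimage hf)
  have hFt : IsTotallyDisconnected (U ∩ f ⁻¹' {t}) := fun s hs => hlight t s
    (hs.trans inter_subset_right)
  obtain ⟨C₁, C₂, h1, h2, h12, hC, hC1, hC2⟩ := split_tot hFc hFt (isClosed_singleton (x := p))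
    (isClosed_singleton (x := q)) (by
      rw [disjoint_singleton]; exact hne)
  have hpC : p ∈ C₁ := hC1 ⟨⟨hpU, rfl⟩, rfl⟩
  have hqC : q ∈ C₂ := hC2 ⟨⟨hqU, hpq.symm⟩, rfl⟩
  obtain ⟨O₁, O₂, hO₁, hO₂, hCO₁, hCO₂, hO⟩ := SeparatedNhds.of_isCompact_isCompact h1 h2 h12
  -- a neighbourhood of `t`
  have hcl : IsClosed (f '' (U \ (O₁ ∪ O₂))) :=
    ((hU.diff (hO₁.union hO₂)).image hf).isClosed
  have htn : t ∉ f '' (U \ (O₁ ∪ O₂)) := by
    rintro ⟨x, ⟨hxU, hxO⟩, hxt⟩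
    have hx : x ∈ C₁ ∪ C₂ := by rw [hC]; exact ⟨hxU, hxt⟩
    rcases hx with hx | hx
    · exact hxO (Or.inl (hCO₁ hx))
    · exact hxO (Or.inr (hCO₂ hx))
  obtain ⟨V, hVW, hVo, htV, hVc⟩ := nonsep_countable (n := n) hn hT t
    ((hB.inter hcl.isOpen_compl).mem_nhds ⟨hpB, htn⟩)
  have hcov : ∀ x ∈ U, f x ∈ V → x ∈ O₁ ∪ O₂ := by
    intro x hx hxV
    by_contra hxO
    exact (hVW hxV).2 ⟨x, ⟨hx, hxO⟩, rfl⟩
  have hopen : IsOpen (U ∩ f ⁻¹' V) := by
    have : U ∩ f ⁻¹' V = (U ∩ f ⁻¹' B) ∩ f ⁻¹' V := by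
      ext x
      constructor
      · rintro ⟨a, b⟩; exact ⟨⟨a, (hVW b).1⟩, b⟩
      · rintro ⟨⟨a, -⟩, b⟩; exact ⟨a, b⟩
    rw [this]
    exact hUB.inter (hVo.preimage hf)
  -- no open set is mapped into a countable set
  have hno : ∀ (G : Set M) (z : M), IsOpen G → z ∈ G → (∀ w ∈ G, f w ∈ T) → False := by
    intro G z hG hz hGT
    obtain ⟨β, hβ, h0, hr⟩ := exists_chart (n := n) z (hG.mem_nhds hz)
    have h1 : (f '' range β).Subsingleton := by
      refine hTT _ ?_ ((isPreconnected_range hβ.continuous).image f hf.continuousOn)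
      rintro _ ⟨w, hw, rfl⟩
      exact hGT w (hr hw)
    have h2 : (range β).Subsingleton := by
      refine hlight (f z) _ ?_ (isPreconnected_range hβ.continuous)
      intro w hw
      exact h1 ⟨w, hw, rfl⟩ ⟨z, ⟨0, h0⟩, rfl⟩
    have h3 := hβ.injective (h2 (mem_range_self 0) (mem_range_self 1))
    have h4 := congrFun h3 ⟨0, by omega⟩
    simp at h4
  have hZ1 : IsClosed (f '' (U \ O₂)) := ((hU.diff hO₂).image hf).isClosed
  have hZ2 : IsClosed (f '' (U \ O₁)) := ((hU.diff hO₁).image hf).isClosed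
  have hmain : ¬ ((V \ T) ∩ f '' (U \ O₂)).Nonempty ∨ ¬ ((V \ T) ∩ f '' (U \ O₁)).Nonempty := by
    by_contra hcon
    push Not at hcon
    obtain ⟨hn1, hn2⟩ := hcon
    rw [isPreconnected_closed_iff] at hVc
    obtain ⟨y, ⟨hyV, hyT⟩, ⟨a, ⟨haU, haO⟩, hay⟩, ⟨b, ⟨hbU, hbO⟩, hby⟩⟩ := hVc _ _ hZ1 hZ2 (by
      rintro y ⟨hyV, -⟩
      obtain ⟨x, hxU, hxy⟩ := hBU (hVW hyV).1
      rcases hcov x hxU (by rw [hxy]; exact hyV) with h | h
      · exact Or.inl ⟨x, ⟨hxU, fun h' => (disjoint_left.1 hO) h h'⟩, hxy⟩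
      · exact Or.inr ⟨x, ⟨hxU, fun h' => (disjoint_left.1 hO) h' h⟩, hxy⟩) hn1 hn2
    have hab : a = b := hinj a haU b hbU (hay.trans hby.symm) (by rw [hay]; exact (hVW hyV).1)
      (by rw [hay]; exact hyT)
    have ha1 : a ∈ O₁ := (hcov a haU (by rw [hay]; exact hyV)).resolve_right haO
    exact hbO (hab ▸ ha1)
  rcases hmain with h | h
  · refine hno (O₁ ∩ (U ∩ f ⁻¹' V)) p (hO₁.inter hopen) ⟨hCO₁ hpC, hpU, htV⟩ ?_
    rintro w ⟨hwO, hwU, hwV⟩
    by_contra hwT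
    exact h ⟨f w, ⟨hwV, hwT⟩, w, ⟨hwU, fun h' => (disjoint_left.1 hO) hwO h'⟩, rfl⟩
  · refine hno (O₂ ∩ (U ∩ f ⁻¹' V)) q (hO₂.inter hopen) ⟨hCO₂ hqC, hqU, by
      show f q ∈ V
      rw [← hpq]; exact htV⟩ ?_
    rintro w ⟨hwO, hwU, hwV⟩
    by_contra hwT
    exact h ⟨f w, ⟨hwV, hwT⟩, w, ⟨hwU, fun h' => (disjoint_left.1 hO) h' hwO⟩, rfl⟩

end Img

section Main

variable {n : ℕ} {M N : Type*} [MetricSpace M] [CompactSpace M] [PreconnectedSpace M]
  [ChartedSpace (EuclideanSpace ℝ (Fin n)) M] [MetricSpace N] [CompactSpace N]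
  [ChartedSpace (EuclideanSpace ℝ (Fin n)) N]

/-- The statement with ordered sheets. -/
theorem light_aux (hn : 2 ≤ n) (f : C(M, N)) (g : C(N, M))
    (hfg : (f.comp g).Homotopic (ContinuousMap.id N))
    (hlight : ∀ y, IsTotallyDisconnected (f ⁻¹' {y})) {T : Set N} (hT : T.Countable)
    (htwo : ∀ y ∉ T, (f ⁻¹' {y}).encard ≤ 2) {U₁ U₂ : Set M} (hU₁ : IsCompact U₁)
    (hU₂ : IsCompact U₂) (hd : Disjoint U₁ U₂) {y : N} {r : ℝ} (hon : ball y r ⊆ f '' U₁)
    (ho₁ : IsOpen (U₁ ∩ f ⁻¹' ball y r)) (ho₂ : IsOpen (U₂ ∩ f ⁻¹' ball y r))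
    (hcov : f ⁻¹' ball y r ⊆ U₁ ∪ U₂) (hne : (U₂ ∩ f ⁻¹' ball y r).Nonempty) : False := by
  have hn0 : 0 < n := by omega
  have hTT : ∀ t ⊆ T, IsPreconnected t → t.Subsingleton := hT.isTotallyDisconnected
  have three : ∀ z ∉ T, ∀ a b c : M, f a = z → f b = z → f c = z → a ≠ c → b ≠ c → a = b := by
    intro z hz a b c ha hb hc hac hbc
    by_contra hab
    have h3 : ({a, b, c} : Set M) ⊆ f ⁻¹' {z} := by
      rintro x (rfl | rfl | rfl)
      exacts [ha, hb, hc]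
    have h4 := (Set.encard_le_encard h3).trans (htwo z hz)
    rw [Set.encard_eq_three.2 ⟨a, b, c, hab, hac, hbc, rfl⟩] at h4
    exact absurd h4 (by decide)
  have hdne : ∀ a ∈ U₁, ∀ b ∈ U₂, a ≠ b := fun a ha b hb h =>
    (disjoint_left.1 hd) ha (h ▸ hb)
  obtain ⟨y₁, hy₁⟩ := image_interior hn0 f.continuous hlight hT ho₂ hne (by
    rintro x ⟨hxU, hxB⟩ x' ⟨hxU', -⟩ hxx hxT
    obtain ⟨c, hcU, hcx⟩ := hon hxB
    exact three (f x) hxT x x' c rfl hxx.symm hcx (hdne c hcU x hxU).symm (hdne c hcU x' hxU').symm)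
  set V := interior (f '' (U₂ ∩ f ⁻¹' ball y r)) with hV
  have hVo : IsOpen V := isOpen_interior
  have hVs : V ⊆ f '' (U₂ ∩ f ⁻¹' ball y r) := interior_subset
  have hVb : V ⊆ ball y r := by
    intro z hz
    obtain ⟨x, hx, rfl⟩ := hVs hz
    exact hx.2
  have hV1 : V ⊆ f '' U₁ := hVb.trans hon
  have hV2 : V ⊆ f '' U₂ := hVs.trans (image_mono inter_subset_left)
  have hopen : ∀ U : Set M, IsOpen (U ∩ f ⁻¹' ball y r) → IsOpen (U ∩ f ⁻¹' V) := by
    intro U hU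
    have : U ∩ f ⁻¹' V = (U ∩ f ⁻¹' ball y r) ∩ f ⁻¹' V := by
      ext x
      constructor
      · rintro ⟨a, b⟩; exact ⟨⟨a, hVb b⟩, b⟩
      · rintro ⟨⟨a, -⟩, b⟩; exact ⟨a, b⟩
    rw [this]
    exact hU.inter (hVo.preimage f.continuous)
  have hi2 : InjOn f (U₂ ∩ f ⁻¹' V) :=
    sheet_inj hn f.continuous hlight hT hTT hU₂ hVo hV2 (hopen _ ho₂) (by
      intro x hx x' hx' hxx hxV hxT
      obtain ⟨c, hcU, hcx⟩ := hV1 hxV
      exact three (f x) hxT x x' c rfl hxx.symm hcx (hdne c hcU x hx).symm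
        (hdne c hcU x' hx').symm)
  have hi1 : InjOn f (U₁ ∩ f ⁻¹' V) :=
    sheet_inj hn f.continuous hlight hT hTT hU₁ hVo hV1 (hopen _ ho₁) (by
      intro x hx x' hx' hxx hxV hxT
      obtain ⟨c, hcU, hcx⟩ := hV2 hxV
      exact three (f x) hxT x x' c rfl hxx.symm hcx (hdne x hx c hcU) (hdne x' hx' c hcU))
  obtain ⟨a, haU, hay⟩ := hV1 hy₁
  obtain ⟨b, hbU, hby⟩ := hV2 hy₁
  have haV : a ∈ f ⁻¹' V := by
    show f a ∈ V
    rw [hay]; exact hy₁
  have hbV : b ∈ f ⁻¹' V := by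
    show f b ∈ V
    rw [hby]; exact hy₁
  obtain ⟨β₁, hβ₁, h01, hr1⟩ := exists_chart (n := n) a ((hopen _ ho₁).mem_nhds ⟨haU, haV⟩)
  obtain ⟨β₂, hβ₂, h02, hr2⟩ := exists_chart (n := n) b ((hopen _ ho₂).mem_nhds ⟨hbU, hbV⟩)
  have hfβ₁ := isOpenEmbedding_comp f.continuous hβ₁ (hi1.mono hr1)
  have hfβ₂ := isOpenEmbedding_comp f.continuous hβ₂ (hi2.mono hr2)
  refine stepC hn0 f g hfg hβ₁ hβ₂ hfβ₁ hfβ₂ ?_ (y := y₁) (by rw [h01, hay]) (by rw [h02, hby]) ?_
  · exact hd.mono (hr1.trans inter_subset_left) (hr2.trans inter_subset_left)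
  · intro x hx
    have hx' : f x = y₁ := hx
    have hxV : x ∈ f ⁻¹' V := by
      show f x ∈ V
      rw [hx']; exact hy₁
    rcases hcov (hVb hxV) with h | h
    · left
      rw [h01]
      exact hi1 ⟨h, hxV⟩ ⟨haU, haV⟩ (hx'.trans hay.symm)
    · right
      show x = β₂ 0
      rw [h02]
      exact hi2 ⟨h, hxV⟩ ⟨hbU, hbV⟩ (hx'.trans hby.symm)

/-- A light map with a homotopy section, all but countably many fibres of which have at most two
points, is injective. -/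
theorem light_inj (hn : 2 ≤ n) (f : C(M, N)) (g : C(N, M))
    (hfg : (f.comp g).Homotopic (ContinuousMap.id N))
    (hlight : ∀ y, IsTotallyDisconnected (f ⁻¹' {y})) {T : Set N} (hT : T.Countable)
    (htwo : ∀ y ∉ T, (f ⁻¹' {y}).encard ≤ 2) : Function.Injective f := by
  have hn0 : 0 < n := by omega
  intro x x' hxx
  by_contra hne
  set y := f x with hy
  have hFc : IsCompact (f ⁻¹' {y}) := (isClosed_singleton.preimage f.continuous).isCompact
  obtain ⟨C₁, C₂, h1, h2, h12, hC, hC1, hC2⟩ := split_tot hFc (hlight y)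
    (isClosed_singleton (x := x)) (isClosed_singleton (x := x')) (by
      rw [disjoint_singleton]; exact hne)
  have hxC : x ∈ C₁ := hC1 ⟨rfl, rfl⟩
  have hxC' : x' ∈ C₂ := hC2 ⟨hxx.symm, rfl⟩
  obtain ⟨O₁, O₂, hO₁, hO₂, hCO₁, hCO₂, hO⟩ := SeparatedNhds.of_isCompact_isCompact h1 h2 h12
  obtain ⟨ρ, hρ, htube⟩ := exists_tube f.continuous (hO₁.union hO₂) (y := y) (by
    rw [← hC]
    exact union_subset_union hCO₁ hCO₂)
  have hρ2 : 0 < ρ / 2 := half_pos hρ
  have hcb : ∀ z, z ∈ f ⁻¹' closedBall y (ρ / 2) → z ∈ O₁ ∪ O₂ := fun z hz =>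
    htube z ((mem_closedBall.1 hz).trans_lt (half_lt_self hρ))
  set U₁ := f ⁻¹' closedBall y (ρ / 2) \ O₂ with hU₁
  set U₂ := f ⁻¹' closedBall y (ρ / 2) \ O₁ with hU₂
  have hpc : IsClosed (f ⁻¹' closedBall y (ρ / 2)) := isClosed_closedBall.preimage f.continuous
  have hU₁c : IsCompact U₁ := (hpc.sdiff hO₂).isCompact
  have hU₂c : IsCompact U₂ := (hpc.sdiff hO₁).isCompact
  have hdis : Disjoint U₁ U₂ := by
    rw [disjoint_left]
    rintro z ⟨hz, hz2⟩ ⟨-, hz1⟩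
    rcases hcb z hz with h | h
    · exact hz1 h
    · exact hz2 h
  have hcov : ∀ z, dist (f z) y < ρ / 2 → z ∈ U₁ ∨ z ∈ U₂ := by
    intro z hz
    have hz' : z ∈ f ⁻¹' closedBall y (ρ / 2) := mem_closedBall.2 hz.le
    rcases hcb z hz' with h | h
    · exact Or.inl ⟨hz', fun h' => (disjoint_left.1 hO) h h'⟩
    · exact Or.inr ⟨hz', fun h' => (disjoint_left.1 hO) h' h⟩
  have hop₁ : ∀ r ≤ ρ / 2, IsOpen (U₁ ∩ f ⁻¹' ball y r) := by
    intro r hr
    have : U₁ ∩ f ⁻¹' ball y r = O₁ ∩ f ⁻¹' ball y r := by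
      ext z
      constructor
      · rintro ⟨⟨hz1, hz2⟩, hz3⟩
        exact ⟨(hcb z hz1).resolve_right hz2, hz3⟩
      · rintro ⟨hz1, hz3⟩
        exact ⟨⟨mem_closedBall.2 ((mem_ball.1 hz3).le.trans hr),
          fun h' => (disjoint_left.1 hO) hz1 h'⟩, hz3⟩
    rw [this]
    exact hO₁.inter (isOpen_ball.preimage f.continuous)
  have hop₂ : ∀ r ≤ ρ / 2, IsOpen (U₂ ∩ f ⁻¹' ball y r) := by
    intro r hr
    have : U₂ ∩ f ⁻¹' ball y r = O₂ ∩ f ⁻¹' ball y r := by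
      ext z
      constructor
      · rintro ⟨⟨hz1, hz2⟩, hz3⟩
        exact ⟨(hcb z hz1).resolve_left hz2, hz3⟩
      · rintro ⟨hz1, hz3⟩
        exact ⟨⟨mem_closedBall.2 ((mem_ball.1 hz3).le.trans hr),
          fun h' => (disjoint_left.1 hO) h' hz1⟩, hz3⟩
    rw [this]
    exact hO₂.inter (isOpen_ball.preimage f.continuous)
  have hxU : x ∈ U₁ := ⟨mem_closedBall_self hρ2.le, fun h' => (disjoint_left.1 hO) (hCO₁ hxC) h'⟩
  have hxU' : x' ∈ U₂ := by
    refine ⟨?_, fun h' => (disjoint_left.1 hO) h' (hCO₂ hxC')⟩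
    show f x' ∈ closedBall y (ρ / 2)
    rw [← hxx]
    exact mem_closedBall_self hρ2.le
  rcases stepA (n := n) hn0 f g hfg hU₁c hU₂c hdis hρ2 hcov with ⟨r, hr, hon⟩ | ⟨r, hr, hon⟩
  · have hm : 0 < min r (ρ / 2) := lt_min hr hρ2
    refine light_aux hn f g hfg hlight hT htwo hU₁c hU₂c hdis (y := y) (r := min r (ρ / 2))
      ((ball_subset_ball (min_le_left _ _)).trans hon) (hop₁ _ (min_le_right _ _))
      (hop₂ _ (min_le_right _ _)) ?_ ?_
    · intro z hz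
      exact hcov z ((mem_ball.1 hz).trans_le (min_le_right _ _))
    · refine ⟨x', hxU', ?_⟩
      show f x' ∈ ball y _
      rw [← hxx]
      exact mem_ball_self hm
  · have hm : 0 < min r (ρ / 2) := lt_min hr hρ2
    refine light_aux hn f g hfg hlight hT htwo hU₂c hU₁c hdis.symm (y := y) (r := min r (ρ / 2))
      ((ball_subset_ball (min_le_left _ _)).trans hon) (hop₂ _ (min_le_right _ _))
      (hop₁ _ (min_le_right _ _)) ?_ ?_
    · intro z hz
      exact (hcov z ((mem_ball.1 hz).trans_le (min_le_right _ _))).symm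
    · exact ⟨x, hxU, mem_ball_self hm⟩

end Main

end Vale.Agent.P260.H283
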