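import Vale.Agent.P260.H283.Deg5
import Mathlib.Topology.MetricSpace.Lipschitz
import Mathlib.Order.Filter.Ultrafilter.Basic

/-!
# Lipschitz constants of homotopy equivalences
-/

open Metric Set Topology Filter
open Vale.Agent.P239.M Vale.Agent.P239.M.Fill

namespace Vale.Agent.P260.H283

/-- A surjective self-map of a compact metric space which does not expand distances is an
isometry. -/
theorem isom_of_surj {X : Type*} [MetricSpace X] [CompactSpace X] {h : X → X}
    (hl : ∀ x y, dist (h x) (h y) ≤ dist x y) (hs : Function.Surjective h) (x y : X) :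
    dist (h x) (h y) = dist x y := by
  refine le_antisymm (hl x y) ?_
  obtain ⟨s, hs'⟩ := hs.hasRightInverse
  have hit : ∀ (k : ℕ) (a b : X), dist (h^[k] a) (h^[k] b) ≤ dist a b := by
    intro k
    induction k with
    | zero => intro a b; simp
    | succ k ih =>
      intro a b
      rw [Function.iterate_succ_apply, Function.iterate_succ_apply]
      exact (ih _ _).trans (hl a b)
  have hsk : ∀ (k : ℕ) (a : X), h^[k] (s^[k] a) = a := fun k a => (hs'.iterate k) a
  refine le_of_forall_pos_le_add fun ε hε => ?_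
  obtain ⟨p, φ, hφ, hlim⟩ := CompactSpace.tendsto_subseq (fun k : ℕ => (s^[k] x, s^[k] y))
  have hc := hlim.cauchySeq
  obtain ⟨N, hN⟩ := Metric.cauchySeq_iff.1 hc (ε / 2) (half_pos hε)
  have h1 := hN (N + 1) (Nat.le_succ _) N le_rfl
  have hlt : φ N < φ (N + 1) := hφ (Nat.lt_succ_self N)
  obtain ⟨m, hm⟩ : ∃ m, φ (N + 1) = φ N + (m + 1) := ⟨φ (N + 1) - φ N - 1, by omega⟩
  rw [Prod.dist_eq] at h1
  simp only [Function.comp] at h1
  have h2 := (le_max_left _ _).trans_lt h1
  have h3 := (le_max_right _ _).trans_lt h1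
  have key : ∀ a : X, dist (s^[φ (N + 1)] a) (s^[φ N] a) < ε / 2 →
      dist (s^[m] a) (h a) < ε / 2 := by
    intro a ha
    have e1 : h^[φ N] (s^[φ (N + 1)] a) = s^[m + 1] a := by
      rw [hm, Function.iterate_add_apply, hsk]
    have e2 := hit (φ N) (s^[φ (N + 1)] a) (s^[φ N] a)
    rw [e1, hsk] at e2
    have e3 := hl (s^[m + 1] a) a
    have e0 : h (s^[m + 1] a) = s^[m] a := by rw [Function.iterate_succ_apply', hs']
    rw [e0] at e3
    exact (e3.trans e2).trans_lt ha
  have h4 := key x h2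
  have h5 := key y h3
  have h6 := hit m (s^[m] x) (s^[m] y)
  rw [hsk, hsk] at h6
  have h7 := dist_triangle4 (s^[m] x) (h x) (h y) (s^[m] y)
  rw [dist_comm (h y)] at h7
  linarith

/-- The limit argument. -/
theorem lim_homothety {M N : Type*} [MetricSpace M] [CompactSpace M] [MetricSpace N]
    [CompactSpace N] {R : ℝ} (hR : 0 < R) (f : ℕ → M → N) (g : ℕ → N → M) (ε : ℕ → ℝ)
    (hε : Tendsto ε atTop (𝓝 0)) (hε2 : ∀ i, ε i ≤ 1)
    (hf : ∀ i x x', dist (f i x) (f i x') ≤ (1 + ε i) * R * dist x x')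
    (hg : ∀ i y y', dist (g i y) (g i y') ≤ (1 + ε i) * R⁻¹ * dist y y')
    (hfs : ∀ i, Function.Surjective (f i)) (hgf : ∀ i, Function.Surjective (g i ∘ f i)) :
    ∃ e : M ≃ₜ N, ∀ x x', dist (e x) (e x') = R * dist x x' := by
  have hR' : 0 < R⁻¹ := inv_pos.2 hR
  let 𝒰 : Ultrafilter ℕ := hyperfilter ℕ
  have hU : (𝒰 : Filter ℕ) ≤ atTop := by
    rw [← Nat.cofinite_eq_atTop]
    exact hyperfilter_le_cofinite
  have hεU : Tendsto ε 𝒰 (𝓝 0) := hε.mono_left hU
  have limN : ∀ u : ℕ → N, ∃ y, Tendsto u 𝒰 (𝓝 y) := fun u => by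
    obtain ⟨y, -, hy⟩ := isCompact_univ.ultrafilter_le_nhds (𝒰.map u) (by simp)
    exact ⟨y, hy⟩
  have limM : ∀ u : ℕ → M, ∃ y, Tendsto u 𝒰 (𝓝 y) := fun u => by
    obtain ⟨y, -, hy⟩ := isCompact_univ.ultrafilter_le_nhds (𝒰.map u) (by simp)
    exact ⟨y, hy⟩
  choose f0 hf0 using fun x => limN fun i => f i x
  choose g0 hg0 using fun y => limM fun i => g i y
  have lf : ∀ x x', dist (f0 x) (f0 x') ≤ R * dist x x' := by
    intro x x'
    have h1 : Tendsto (fun i => (1 + ε i) * R * dist x x') 𝒰 (𝓝 ((1 + 0) * R * dist x x')) :=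
      ((tendsto_const_nhds.add hεU).mul_const R).mul_const _
    rw [add_zero, one_mul] at h1
    exact le_of_tendsto_of_tendsto ((hf0 x).dist (hf0 x')) h1 (Eventually.of_forall fun i => hf i x x')
  have lg : ∀ y y', dist (g0 y) (g0 y') ≤ R⁻¹ * dist y y' := by
    intro x x'
    have h1 : Tendsto (fun i => (1 + ε i) * R⁻¹ * dist x x') 𝒰
        (𝓝 ((1 + 0) * R⁻¹ * dist x x')) :=
      ((tendsto_const_nhds.add hεU).mul_const R⁻¹).mul_const _
    rw [add_zero, one_mul] at h1
    exact le_of_tendsto_of_tendsto ((hg0 x).dist (hg0 x')) h1 (Eventually.of_forall fun i => hg i x x')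
  have bf : ∀ i x x', dist (f i x) (f i x') ≤ 2 * R * dist x x' := fun i x x' => by
    refine (hf i x x').trans ?_
    have h1 : 1 + ε i ≤ 2 := by linarith [hε2 i]
    have h2 : (1 + ε i) * R ≤ 2 * R := mul_le_mul_of_nonneg_right h1 hR.le
    exact mul_le_mul_of_nonneg_right h2 dist_nonneg
  have bg : ∀ i x x', dist (g i x) (g i x') ≤ 2 * R⁻¹ * dist x x' := fun i x x' => by
    refine (hg i x x').trans ?_
    have h1 : 1 + ε i ≤ 2 := by linarith [hε2 i]
    have h2 : (1 + ε i) * R⁻¹ ≤ 2 * R⁻¹ := mul_le_mul_of_nonneg_right h1 hR'.le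
    exact mul_le_mul_of_nonneg_right h2 dist_nonneg
  -- moving points
  have movf : ∀ (u : ℕ → M) (x : M), Tendsto u 𝒰 (𝓝 x) →
      Tendsto (fun i => f i (u i)) 𝒰 (𝓝 (f0 x)) := by
    intro u x hu
    rw [tendsto_iff_dist_tendsto_zero]
    have h1 : Tendsto (fun i => 2 * R * dist (u i) x + dist (f i x) (f0 x)) 𝒰 (𝓝 0) := by
      have h2 := (tendsto_iff_dist_tendsto_zero.1 hu).const_mul (2 * R)
      have h3 := tendsto_iff_dist_tendsto_zero.1 (hf0 x)
      have h4 := h2.add h3
      rwa [mul_zero, add_zero] at h4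
    refine squeeze_zero (fun i => dist_nonneg) (fun i => ?_) h1
    exact (dist_triangle _ (f i x) _).trans (add_le_add (bf i _ _) le_rfl)
  have movg : ∀ (u : ℕ → N) (x : N), Tendsto u 𝒰 (𝓝 x) →
      Tendsto (fun i => g i (u i)) 𝒰 (𝓝 (g0 x)) := by
    intro u x hu
    rw [tendsto_iff_dist_tendsto_zero]
    have h1 : Tendsto (fun i => 2 * R⁻¹ * dist (u i) x + dist (g i x) (g0 x)) 𝒰 (𝓝 0) := by
      have h2 := (tendsto_iff_dist_tendsto_zero.1 hu).const_mul (2 * R⁻¹)
      have h3 := tendsto_iff_dist_tendsto_zero.1 (hg0 x)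
      have h4 := h2.add h3
      rwa [mul_zero, add_zero] at h4
    refine squeeze_zero (fun i => dist_nonneg) (fun i => ?_) h1
    exact (dist_triangle _ (g i x) _).trans (add_le_add (bg i _ _) le_rfl)
  have sf : Function.Surjective f0 := by
    intro y
    choose u hu using fun i => hfs i y
    obtain ⟨x, hx⟩ := limM u
    have h1 := movf u x hx
    simp only [hu] at h1
    exact ⟨x, tendsto_nhds_unique h1 tendsto_const_nhds⟩
  have sh : Function.Surjective (g0 ∘ f0) := by
    intro y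
    choose u hu using fun i => hgf i y
    obtain ⟨x, hx⟩ := limM u
    have h1 := movg _ _ (movf u x hx)
    have hu' : ∀ i, g i (f i (u i)) = y := hu
    simp only [hu'] at h1
    exact ⟨x, tendsto_nhds_unique h1 tendsto_const_nhds⟩
  have hl : ∀ x x', dist ((g0 ∘ f0) x) ((g0 ∘ f0) x') ≤ dist x x' := by
    intro x x'
    refine (lg _ _).trans ?_
    have h1 := mul_le_mul_of_nonneg_left (lf x x') hR'.le
    rwa [← mul_assoc, inv_mul_cancel₀ hR.ne', one_mul] at h1
  have hiso := isom_of_surj hl sh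
  have heq : ∀ x x', dist (f0 x) (f0 x') = R * dist x x' := by
    intro x x'
    refine le_antisymm (lf x x') ?_
    have h1 := hiso x x'
    have h2 := lg (f0 x) (f0 x')
    have h3 : dist x x' ≤ R⁻¹ * dist (f0 x) (f0 x') := by rw [← h1]; exact h2
    have h4 := mul_le_mul_of_nonneg_left h3 hR.le
    rwa [← mul_assoc, mul_inv_cancel₀ hR.ne', one_mul] at h4
  have hinj : Function.Injective f0 := by
    intro x x' h
    have h1 := heq x x'
    rw [h, dist_self] at h1
    have h2 : dist x x' = 0 := by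
      rcases mul_eq_zero.1 h1.symm with h3 | h3
      · exact absurd h3 hR.ne'
      · exact h3
    exact dist_eq_zero.1 h2
  have hcont : Continuous f0 := by
    refine (LipschitzWith.of_dist_le_mul (K := ⟨R, hR.le⟩) fun x x' => ?_).continuous
    exact lf x x'
  have hhom : IsHomeomorph f0 :=
    isHomeomorph_iff_continuous_bijective.2 ⟨hcont, hinj, sf⟩
  exact ⟨hhom.homeomorph, heq⟩

end Vale.Agent.P260.H283
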