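import Vale.Agent.P260.H283.Fam

/-!
# The transfer operator of a light map
-/

open Metric Set Topology
open Vale.Agent.P239.M Vale.Agent.P239.M.Fill

namespace Vale.Agent.P260.H283

section Alg

variable {X Y A : Type*} [AddCommGroup A] [Module (ZMod 2) A]

theorem ext_filter (u : List X → A) (P : List X → Prop) [DecidablePred P] (c : Ch (ZMod 2) X) :
    ext u (c.filter P) = ext (fun l => if P l then u l else 0) c := by
  rw [Finsupp.linearCombination_apply, Finsupp.linearCombination_apply, Finsupp.sum, Finsupp.sum,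
    Finsupp.support_filter, Finset.sum_filter]
  refine Finset.sum_congr rfl fun l _ => ?_
  by_cases h : P l
  · rw [if_pos h, if_pos h, Finsupp.filter_apply_pos _ _ h]
  · rw [if_neg h, if_neg h, smul_zero]

theorem ext_swap (F : List X → List Y → A) (c : Ch (ZMod 2) X) (d : Ch (ZMod 2) Y) :
    ext (fun y => ext (fun a => F a y) c) d = ext (fun a => ext (fun y => F a y) d) c := by
  simp only [Finsupp.linearCombination_apply, Finsupp.sum, Finset.smul_sum]
  rw [Finset.sum_comm]
  exact Finset.sum_congr rfl fun a _ => Finset.sum_congr rfl fun y _ => smul_comm _ _ _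

theorem ext_cong' {u v : List X → A} {c : Ch (ZMod 2) X} (h : ∀ l ∈ c.support, u l = v l) :
    ext u c = ext v c := by
  rw [Finsupp.linearCombination_apply, Finsupp.linearCombination_apply, Finsupp.sum, Finsupp.sum]
  exact Finset.sum_congr rfl fun l hl => by rw [h l hl]

theorem pf_cong {p p' : X → Y} {c : Ch (ZMod 2) X} (h : ∀ l ∈ c.support, l.map p = l.map p') :
    pf p c = pf p' c := by
  rw [SupA.eq_ext' (pf p), SupA.eq_ext' (pf p')]
  refine ext_cong' fun l hl => ?_
  rw [pf_single, pf_single, h l hl]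

end Alg

section Top

variable {n : ℕ} {Y : Type*} [MetricSpace Y] {β' : (Fin n → ℝ) → Y}

omit [MetricSpace Y] in
theorem Phi_top {N : ℕ} (hN : 0 < N) (y₀ : Y) {a : List Y} (ha : a.length = n + 1) :
    LD.Phi β' N a = ext (fun m => Finsupp.single m (KerC β' a [m.headD y₀])) (muC β' N) := by
  cases a with
  | nil => simp at ha
  | cons x a =>
    show ext (capS (KerC β' (x :: a))) (muC β' N) = _
    refine ext_congr (LD.sup_muC_len n N β' hN) ?_
    rintro m ⟨l₀, hm, hl₀, -, -⟩
    have hlen : m.length = n + 1 := by rw [hm, List.length_map, hl₀]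
    cases m with
    | nil => simp at hlen
    | cons z m =>
      rw [capS_eq (KerC β' (x :: a)) 0 (fun l hl => by
        have := LD.KerC_length hl
        omega) (z :: m) (by simp only [List.length_cons, lt_add_iff_pos_left, Order.lt_add_one_iff,
          zero_le])]
      rfl

omit [MetricSpace Y] in
theorem Phi_apply {N : ℕ} (hN : 0 < N) (y₀ : Y) {a : List Y} (ha : a.length = n + 1)
    (m : List Y) : LD.Phi β' N a m = muC β' N m * KerC β' a [m.headD y₀] := by
  classical
  rw [Phi_top hN y₀ ha, Finsupp.linearCombination_apply, Finsupp.sum, Finsupp.finsetSum_apply]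
  by_cases hm : m ∈ (muC β' N).support
  · rw [Finset.sum_eq_single m]
    · rw [Finsupp.smul_apply, Finsupp.single_eq_same, smul_eq_mul]
    · intro m' _ hne
      rw [Finsupp.smul_apply, Finsupp.single_eq_of_ne (Ne.symm hne), smul_zero]
    · intro h
      exact absurd hm h
  · rw [Finsupp.notMem_support_iff.1 hm, zero_mul]
    refine Finset.sum_eq_zero fun m' hm' => ?_
    have hne : m' ≠ m := fun h => hm (h ▸ hm')
    rw [Finsupp.smul_apply, Finsupp.single_eq_of_ne (Ne.symm hne), smul_zero]

omit [MetricSpace Y] in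
theorem Phi_mem {N : ℕ} (hN : 0 < N) (y₀ : Y) {a : List Y} (ha : a.length = n + 1)
    {m : List Y} (hm : m ∈ (muC β' N).support) (hK : KerC β' a [m.headD y₀] ≠ 0) :
    m ∈ (LD.Phi β' N a).support := by
  rw [Finsupp.mem_support_iff, Phi_apply hN y₀ ha]
  exact mul_ne_zero (Finsupp.mem_support_iff.1 hm) hK

end Top

section Tr

variable {n : ℕ} {M Y : Type*} [MetricSpace M] [MetricSpace Y]

/-- The transfer operator. -/
noncomputable def Tr (β' : (Fin n → ℝ) → Y) (N : ℕ) (f : M → Y) (q : M → Y → M) :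
    List M → Ch (ZMod 2) M
  | [] => Finsupp.single [] 1
  | x :: a => pf (q x) (LD.Phi β' N ((x :: a).map f))

variable {β' : (Fin n → ℝ) → Y} {f : M → Y} {q : M → Y → M} {X : Set M}

/-- The transfer operator is a chain map on small lists. -/
theorem bd_Tr (hn : 0 < n) (hβ' : IsOpenEmbedding β') {N : ℕ} (hN : 0 < N) {δ κ κΦ : ℝ}
    (hXβ : ∀ x ∈ X, f x ∈ β' '' Q n 6)
    (hΦ : ∀ a : List Y, Sm κΦ a → In (β' '' Q n 6) a →
      Sup (fun l' => l'.length = a.length ∧ In {x | x ∈ β' '' Q n 7 ∧ ∃ y ∈ a, dist x y < δ / 4} l')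
        (LD.Phi β' N a))
    (hq : ∀ x ∈ X, ∀ x' ∈ X, ∀ y, dist (f x) y < δ → dist (f x') y < δ → dist x x' < κ →
        q x y = q x' y) (hδ : 0 < δ) (l : List M) (hX : In X l) (hs : Sm κ l)
    (hsf : Sm κΦ (l.map f)) (hsf' : Sm (δ / 4) (l.map f)) :
    bd (Tr β' N f q l) = ext (Tr β' N f q) (bdL (ZMod 2) l) := by
  cases l with
  | nil => simp only [Tr, bd_single, bdL, smul_zero, map_zero]
  | cons x a =>
    have hIn : In (β' '' Q n 6) ((x :: a).map f) := by
      intro y hy
      obtain ⟨w, hw, rfl⟩ := List.mem_map.1 hy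
      exact hXβ w (hX w hw)
    show bd (pf (q x) (LD.Phi β' N ((x :: a).map f))) = _
    rw [bd_pf, LD.bd_Phi hβ' hn hN _ (fun y hy => q_mono (by norm_num) β' (hIn y hy)),
      ← pf_bdL, Chart.ext_pf, SupA.map_ext]
    refine ext_congr (sup_bdL (x :: a)) ?_
    rintro l' ⟨hsub, -⟩
    cases l' with
    | nil =>
      show pf (q x) (Finsupp.single [] 1) = Finsupp.single [] 1
      rw [pf_single, List.map_nil]
    | cons x' a' =>
      show pf (q x) (LD.Phi β' N ((x' :: a').map f)) = pf (q x') (LD.Phi β' N ((x' :: a').map f))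
      have hx : x ∈ x :: a := List.mem_cons_self
      have hx' : x' ∈ x :: a := hsub.subset List.mem_cons_self
      refine pf_cong fun m hm => ?_
      have h1 := hΦ ((x' :: a').map f) (fun u hu v hv => hsf u ((hsub.map f).subset hu) v
        ((hsub.map f).subset hv)) (fun u hu => hIn u ((hsub.map f).subset hu)) m hm
      refine List.map_congr_left fun y hy => ?_
      obtain ⟨-, z, hz, hyz⟩ := h1.2 y hy
      have hz' := (hsub.map f).subset hz
      have d1 := hsf' (f x) (List.mem_map_of_mem hx) z hz'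
      have d2 := hsf' (f x') (List.mem_map_of_mem hx') z hz'
      have d3 := dist_triangle (f x) z y
      have d4 := dist_triangle (f x') z y
      rw [dist_comm z y] at d3 d4
      exact hq x (hX x hx) x' (hX x' hx') y (by linarith) (by linarith) (hs x hx x' hx')

/-- The support of the transfer operator. -/
theorem sup_Tr {N : ℕ} {δ ε κΦ : ℝ}
    (hXβ : ∀ x ∈ X, f x ∈ β' '' Q n 6)
    (hΦ : ∀ a : List Y, Sm κΦ a → In (β' '' Q n 6) a →
      Sup (fun l' => l'.length = a.length ∧ In {x | x ∈ β' '' Q n 7 ∧ ∃ y ∈ a, dist x y < δ / 4} l')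
        (LD.Phi β' N a))
    (hq : ∀ x ∈ X, ∀ y, dist (f x) y < δ → dist (q x y) x < ε) (hδ : 0 < δ)
    (l : List M) (hX : In X l) (hsf : Sm κΦ (l.map f)) (hsf' : Sm (δ / 4) (l.map f)) :
    Sup (fun l' => l'.length = l.length ∧ In {x' | ∃ y ∈ l, dist x' y < ε} l')
      (Tr β' N f q l) := by
  cases l with
  | nil =>
    show Sup _ (Finsupp.single [] 1)
    exact Sup.single _ ⟨rfl, by intro x hx; simp at hx⟩
  | cons x a =>
    have hIn : In (β' '' Q n 6) ((x :: a).map f) := by
      intro y hy
      obtain ⟨w, hw, rfl⟩ := List.mem_map.1 hy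
      exact hXβ w (hX w hw)
    show Sup _ (pf (q x) (LD.Phi β' N ((x :: a).map f)))
    refine Sup.pf (q x) (Sup.mono ?_ (hΦ _ hsf hIn))
    rintro m ⟨hm1, hm2⟩
    refine ⟨by rw [List.length_map, hm1, List.length_map], ?_⟩
    intro w hw
    obtain ⟨y, hy, rfl⟩ := List.mem_map.1 hw
    have hx : x ∈ x :: a := List.mem_cons_self
    obtain ⟨-, z, hz, hyz⟩ := hm2 y hy
    have d1 := hsf' (f x) (List.mem_map_of_mem hx) z hz
    have d3 := dist_triangle (f x) z y
    rw [dist_comm z y] at d3
    exact ⟨x, hx, hq x (hX x hx) y (by linarith)⟩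

end Tr

end Vale.Agent.P260.H283
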