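import Vale.Agent.P260.H283.NV1
import Mathlib.Data.Set.Finite.List

/-!
# Some isolated sheet of a light map has degree one
-/

open Metric Set Topology Filter
open Vale.Agent.P239.M Vale.Agent.P239.M.Fill

namespace Vale.Agent.P260.H283

section Sh

variable {M Y : Type*} [MetricSpace M] [MetricSpace Y] {f : M → Y} {q : M → Y → M} {X : Set M}

/-- The sheet attached to two lists. -/
def Ush (f : M → Y) (q : M → Y → M) (X : Set M) (δ : ℝ) (y₀ : Y) (m : List Y) (v : List M) :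
    Set M :=
  {x | x ∈ X ∧ dist (f x) (m.headD y₀) ≤ δ / 2 ∧ m.map (q x) = v}

theorem map_q {δ κ : ℝ} {y₀ : Y} {m : List Y} (hm : Sm (δ / 4) m) (hδ : 0 < δ)
    (hq : ∀ x ∈ X, ∀ x' ∈ X, ∀ y, dist (f x) y < δ → dist (f x') y < δ → dist x x' < κ →
        q x y = q x' y) {x x' : M} (hx : x ∈ X) (hx' : x' ∈ X)
    (h1 : dist (f x) (m.headD y₀) ≤ δ / 2) (h2 : dist (f x') (m.headD y₀) ≤ δ / 2)
    (hd : dist x x' < κ) : m.map (q x) = m.map (q x') := by
  refine List.map_congr_left fun y hy => ?_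
  have hz : m.headD y₀ ∈ m := by
    cases m with
    | nil => simp at hy
    | cons z m => exact List.mem_cons_self
  have d1 := hm _ hz y hy
  have d3 := dist_triangle (f x) (m.headD y₀) y
  have d4 := dist_triangle (f x') (m.headD y₀) y
  exact hq x hx x' hx' y (by linarith) (by linarith) hd

theorem Ush_compact {δ κ : ℝ} {y₀ : Y} {m : List Y} (hm : Sm (δ / 4) m) (hδ : 0 < δ)
    (hκ : 0 < κ) (hf : Continuous f) (hX : IsCompact X)
    (hq : ∀ x ∈ X, ∀ x' ∈ X, ∀ y, dist (f x) y < δ → dist (f x') y < δ → dist x x' < κ →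
        q x y = q x' y) (v : List M) : IsCompact (Ush f q X δ y₀ m v) := by
  refine hX.of_isClosed_subset ?_ (fun x hx => hx.1)
  rw [← closure_subset_iff_isClosed]
  intro x hx
  have hcl : IsClosed (X ∩ f ⁻¹' closedBall (m.headD y₀) (δ / 2)) :=
    hX.isClosed.inter (isClosed_closedBall.preimage hf)
  have hx1 : x ∈ X ∩ f ⁻¹' closedBall (m.headD y₀) (δ / 2) :=
    hcl.closure_subset_iff.2 (fun z hz => ⟨hz.1, hz.2.1⟩) hx
  obtain ⟨x', hx', hd⟩ := Metric.mem_closure_iff.1 hx κ hκ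
  refine ⟨hx1.1, hx1.2, ?_⟩
  rw [map_q hm hδ hq hx1.1 hx'.1 hx1.2 hx'.2.1 hd]
  exact hx'.2.2

theorem Ush_open {δ κ r : ℝ} {y₀ : Y} {m : List Y} (hm : Sm (δ / 4) m) (hδ : 0 < δ)
    (hκ : 0 < κ) (hf : Continuous f) {x₀ : M} (hr : ball x₀ r ⊆ X)
    (hq : ∀ x ∈ X, ∀ x' ∈ X, ∀ y, dist (f x) y < δ → dist (f x') y < δ → dist x x' < κ →
        q x y = q x' y) (v : List M) (hU : Ush f q X δ y₀ m v ⊆ ball x₀ r) :
    IsOpen (Ush f q X δ y₀ m v ∩ f ⁻¹' ball (m.headD y₀) (δ / 2)) := by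
  rw [isOpen_iff_mem_nhds]
  rintro x ⟨hx, hxb⟩
  have h1 : ball x₀ r ∩ f ⁻¹' ball (m.headD y₀) (δ / 2) ∩ ball x κ ∈ 𝓝 x := by
    refine Filter.inter_mem (Filter.inter_mem (isOpen_ball.mem_nhds (hU hx)) ?_)
      (ball_mem_nhds x hκ)
    exact (isOpen_ball.preimage hf).mem_nhds hxb
  refine Filter.mem_of_superset h1 ?_
  rintro x' ⟨⟨hx'1, hx'2⟩, hx'3⟩
  refine ⟨⟨hr hx'1, (mem_ball.1 hx'2).le, ?_⟩, hx'2⟩
  rw [map_q hm hδ hq (hr hx'1) hx.1 (mem_ball.1 hx'2).le hx.2.1 hx'3]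
  exact hx.2.2

end Sh

section NV

variable {n : ℕ} {M N : Type*} [MetricSpace M] [CompactSpace M]
  [ChartedSpace (EuclideanSpace ℝ (Fin n)) M] [MetricSpace N] [CompactSpace N]

open Classical in
/-- Some isolated sheet of a light map, in any given open set, has degree one. -/
theorem nonvanish (hn : 0 < n) {f : M → N} (hf : Continuous f) {β' : (Fin n → ℝ) → N}
    (hβ' : IsOpenEmbedding β') {W : Set M} (hW : IsOpen W)
    (hlight : ∀ y, IsTotallyDisconnected (W ∩ f ⁻¹' {y})) {x₀ : M} (hx₀ : x₀ ∈ W)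
    (hWβ : ∀ x ∈ W, f x ∈ β' '' Q n 1) (c : ℕ → Ch (ZMod 2) M) (hc0 : ∀ k, bd (c k) = 0)
    (hcs : ∀ κ > 0, ∀ᶠ k in atTop, Sup (fun l => l.length = n + 1 ∧ Sm κ l) (c k))
    (hc1 : ∀ β : (Fin n → ℝ) → M, IsOpenEmbedding β → β 0 = x₀ →
      ∀ᶠ k in atTop, dg β (c k) x₀ = 1)
    (𝒰 : Ultrafilter ℕ) (h𝒰 : (𝒰 : Filter ℕ) ≤ atTop) :
    ∃ (U : Set M) (y : N) (ρ : ℝ), IsCompact U ∧ U ⊆ W ∧ y ∈ β' '' Q n 2 ∧ 0 < ρ ∧
      IsOpen (U ∩ f ⁻¹' ball y ρ) ∧
      ∀ᶠ k in 𝒰, dg β' (pf f ((c k).filter (In U))) y = 1 := by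
  by_contra hcon
  have hzero : ∀ (U : Set M) (y : N) (ρ : ℝ), IsCompact U → U ⊆ W → y ∈ β' '' Q n 2 → 0 < ρ →
      IsOpen (U ∩ f ⁻¹' ball y ρ) → ∀ᶠ k in 𝒰, dg β' (pf f ((c k).filter (In U))) y = 0 := by
    intro U y ρ h1 h2 h3 h4 h5
    have h6 : ¬ ∀ᶠ k in 𝒰, dg β' (pf f ((c k).filter (In U))) y = 1 := fun h =>
      hcon ⟨U, y, ρ, h1, h2, h3, h4, h5, h⟩
    rw [← Ultrafilter.eventually_not] at h6
    refine h6.mono fun k hk => ?_
    have hz : ∀ z : ZMod 2, ¬ z = 1 → z = 0 := by decide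
    exact hz _ hk
  obtain ⟨β, hβ, h0, hr⟩ := exists_chart (n := n) x₀ (hW.mem_nhds hx₀)
  set X : Set M := β '' Q n 8 with hX
  have hXc : IsCompact X := (isCompact_closedBall _ _).image hβ.continuous
  have hXW : X ⊆ W := (image_subset_range _ _).trans hr
  have hx₀7 : x₀ ∈ β '' Q n 7 := ⟨0, mem_closedBall_self (by norm_num), h0⟩
  obtain ⟨kb, hkb, hbdz⟩ := dg_bd hβ
  obtain ⟨rX, hrX, hrXs⟩ : ∃ r > 0, ball x₀ r ⊆ X := by
    have h1 : β '' ball 0 8 ∈ 𝓝 x₀ :=
      (hβ.isOpenMap _ isOpen_ball).mem_nhds ⟨0, mem_ball_self (by norm_num), h0⟩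
    obtain ⟨r, hr, h2⟩ := Metric.mem_nhds_iff.1 h1
    exact ⟨r, hr, h2.trans (image_mono ball_subset_closedBall)⟩
  obtain ⟨kf, hkf, hfar⟩ := dg_far hβ (show 0 < rX / 4 by positivity)
  obtain ⟨ε, hε, hεb, hεf, hεr⟩ : ∃ ε > 0, ε ≤ kb / 4 ∧ ε ≤ kf / 4 ∧ ε ≤ rX / 8 :=
    ⟨min (min (kb / 4) (kf / 4)) (rX / 8), by positivity,
      (min_le_left _ _).trans (min_le_left _ _), (min_le_left _ _).trans (min_le_right _ _),
      min_le_right _ _⟩
  have : Nonempty M := ⟨x₀⟩
  obtain ⟨δ, hδ, κq, hκq, q, ⟨S, hSfin, hS⟩, hq1, hq2⟩ := light_q hf hXc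
    (fun y t ht => hlight y t (ht.trans (inter_subset_inter_left _ hXW))) hε
  obtain ⟨δm, hδm, hmod⟩ := chart_mod hβ' (show (1 : ℝ) < 2 by norm_num) one_pos
  obtain ⟨κΦ, hκΦ, Nb, hNb, hΦ'⟩ := LD.sup_Phi (n := n) hβ' (κ₂ := min (δ / 4) δm)
    (lt_min (by positivity) hδm)
  have hΦ : ∀ a : List N, Sm κΦ a → In (β' '' Q n 6) a →
      Sup (fun l' => l'.length = a.length ∧ In {x | x ∈ β' '' Q n 7 ∧ ∃ y ∈ a, dist x y < δ / 4} l')
        (LD.Phi β' Nb a) := by
    intro a h1 h2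
    refine Sup.mono ?_ (hΦ' a h1 h2).1
    rintro l' ⟨h3, h4⟩
    refine ⟨h3, fun x hx => ?_⟩
    obtain ⟨h5, y, hy, hxy⟩ := h4 x hx
    exact ⟨h5, y, hy, hxy.trans_le (min_le_left _ _)⟩
  have hXβ : ∀ x ∈ X, f x ∈ β' '' Q n 6 := fun x hx =>
    q_mono (by norm_num) β' (hWβ x (hXW hx))
  set y₀ : N := β' 0 with hy₀
  obtain ⟨κf, hκf, hsmf⟩ := small_map hf (show 0 < min κΦ (δ / 4) from
    lt_min hκΦ (by positivity))
  obtain ⟨κ, hκ, hκ1, hκ2, hκ3, hκ4, hκ5⟩ : ∃ κ > 0, κ ≤ κq ∧ κ ≤ κf ∧ κ ≤ kb / 2 ∧ κ ≤ kf / 2 ∧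
      κ ≤ rX / 2 :=
    ⟨min (min (min κq κf) (min (kb / 2) (kf / 2))) (rX / 2), by positivity,
      ((min_le_left _ _).trans (min_le_left _ _)).trans (min_le_left _ _),
      ((min_le_left _ _).trans (min_le_left _ _)).trans (min_le_right _ _),
      ((min_le_left _ _).trans (min_le_right _ _)).trans (min_le_left _ _),
      ((min_le_left _ _).trans (min_le_right _ _)).trans (min_le_right _ _), min_le_right _ _⟩
  -- finiteness of the set of sheets
  have hfinS : {v : List M | v.length = n + 1 ∧ ∀ z ∈ v, z ∈ S}.Finite := by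
    have := hSfin.to_subtype
    refine ((List.finite_length_eq S (n + 1)).image (List.map Subtype.val)).subset ?_
    rintro v ⟨hv1, hv2⟩
    refine ⟨v.attach.map (fun z => ⟨z.1, hv2 z.1 z.2⟩), ?_, ?_⟩
    · show (v.attach.map _).length = n + 1
      rw [List.length_map, List.length_attach, hv1]
    · rw [List.map_map]
      exact List.attach_map_subtype_val v
  have hall : ∀ᶠ k in 𝒰, ∀ m ∈ (muC β' Nb).support,
      ∀ v ∈ {v : List M | v.length = n + 1 ∧ ∀ z ∈ v, z ∈ S},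
      Sm (δ / 4) m → m.headD y₀ ∈ β' '' Q n 2 → (∀ z ∈ v, dist z x₀ < rX / 4) →
      dg β' (pf f ((c k).filter (In (Ush f q X δ y₀ m v)))) (m.headD y₀) = 0 := by
    rw [Filter.eventually_all_finset]
    intro m hm
    rw [Filter.eventually_all_finite hfinS]
    rintro v ⟨hv1, hv2⟩
    by_cases hcond : Sm (δ / 4) m ∧ m.headD y₀ ∈ β' '' Q n 2 ∧ ∀ z ∈ v, dist z x₀ < rX / 4
    · obtain ⟨c1, c2, c3⟩ := hcond
      have hmlen : m.length = n + 1 := by
        obtain ⟨l₀, h1, h2, -, -⟩ := LD.sup_muC_len n Nb β' hNb m hm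
        rw [h1, List.length_map, h2]
      have hUb : Ush f q X δ y₀ m v ⊆ ball x₀ rX := by
        rintro x ⟨hx1, hx2, hx3⟩
        cases m with
        | nil => simp at hmlen
        | cons z m =>
          have h1 : q x z ∈ v := by
            rw [← hx3]
            exact List.mem_map_of_mem List.mem_cons_self
          have h2 := c3 _ h1
          have h3 := hq1 x hx1 z (by
            have : dist (f x) z ≤ δ / 2 := hx2
            linarith)
          have h4 := dist_triangle x (q x z) x₀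
          rw [dist_comm x (q x z)] at h4
          rw [mem_ball]
          linarith
      refine (hzero (Ush f q X δ y₀ m v) (m.headD y₀) (δ / 2)
        (Ush_compact c1 hδ hκq hf hXc hq2 v) (fun x hx => hXW hx.1) c2 (half_pos hδ)
        (Ush_open c1 hδ hκq hf hrXs hq2 v hUb)).mono fun k hk _ _ _ => hk
    · exact Eventually.of_forall fun k h1 h2 h3 => absurd ⟨h1, h2, h3⟩ hcond
  obtain ⟨k, ⟨hk1, hk2⟩, hk3⟩ := ((hall.and ((hcs κ hκ).filter_mono h𝒰)).and
    ((hc1 β hβ h0).filter_mono h𝒰)).exists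
  -- the chain in the box
  set C := c k with hC
  set C₁ := C.filter (In X) with hC₁
  have hC₁s : Sup (fun l => l.length = n + 1 ∧ Sm κ l ∧ In X l) C₁ := by
    intro l hl
    rw [hC₁, Finsupp.support_filter, Finset.mem_filter] at hl
    exact ⟨(hk2 l hl.1).1, (hk2 l hl.1).2, hl.2⟩
  have hdgC₁ : dg β C₁ x₀ = 1 := by
    rw [← hk3]
    unfold dg
    rw [hC₁, ext_filter]
    refine ext_cong' fun l _ => ?_
    by_cases h : In X l
    · rw [if_pos h]
    · rw [if_neg h, if_neg h]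
  have hsf : ∀ l : List M, Sm κ l → Sm κΦ (l.map f) ∧ Sm (δ / 4) (l.map f) := fun l hl => by
    have := hsmf l (sm_mono hκ2 hl)
    exact ⟨sm_mono (min_le_left _ _) this, sm_mono (min_le_right _ _) this⟩
  -- the homotopy
  set P : List M → Prop := fun l => Sm κ l ∧ In X l with hP
  have hPsub : ∀ l l' : List M, l'.Sublist l → P l → P l' := by
    rintro l l' h ⟨h1, h2⟩
    exact ⟨fun x hx y hy => h1 x (h.subset hx) y (h.subset hy), fun x hx => h2 x (h.subset hx)⟩
  set Φ := Tr β' Nb f q with hΦdef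
  have hchain : ∀ l, P l → bd (Φ l) = ext Φ (bdL (ZMod 2) l) := fun l hl =>
    bd_Tr hn hβ' hNb hXβ hΦ hq2 hδ l hl.2 (sm_mono hκ1 hl.1) (hsf l hl.1).1 (hsf l hl.1).2
  have hsup : ∀ l, P l → Sup (fun l' => l'.length = l.length ∧
      In {x' | ∃ y ∈ l, dist x' y < ε} l') (Φ l) := fun l hl =>
    sup_Tr hXβ hΦ hq1 hδ l hl.2 (hsf l hl.1).1 (hsf l hl.1).2
  set ξ : List M → M := fun l => l.headD x₀ with hξ
  have hH : ∀ l, P l → Sup (fun l' => l'.length = l.length + 1 ∧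
      In {x' | ∃ y ∈ l, dist x' y < ε} l') (htp ξ Φ l) := by
    refine fun l hl => sup_htp ξ Φ (fun l => {x' | ∃ y ∈ l, dist x' y < ε}) hPsub ?_ ?_ ?_ hsup l hl
    · rintro l l' h x ⟨y, hy, hxy⟩
      exact ⟨y, h.subset hy, hxy⟩
    · intro l _ x hx
      exact ⟨x, hx, by rw [dist_self]; exact hε⟩
    · intro l hne _
      cases l with
      | nil => exact absurd rfl hne
      | cons x l => exact ⟨x, List.mem_cons_self, by
          show dist x x < ε
          rw [dist_self]; exact hε⟩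
  have hid := bd_htp_ext ξ Φ hPsub rfl hchain (hC₁s.mono (fun l hl => ⟨hl.2.1, hl.2.2⟩))
  have hbdP : Sup (fun l' => P l' ∧ l'.length = n) (bd C₁) := by
    refine Sup.bd (P := fun l => l.length = n + 1 ∧ P l) ?_ (hC₁s.mono fun l hl =>
      ⟨hl.1, hl.2.1, hl.2.2⟩)
    rintro l l' hs hlen ⟨h1, h2⟩
    exact ⟨hPsub l l' hs h2, by omega⟩
  have hbdfar : Sup (fun l' => ∀ w ∈ l', rX / 2 ≤ dist w x₀) (bd C₁) := by
    intro l' hl' w hw
    by_contra hlt
    rw [not_le] at hlt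
    have h1 : l' ∈ (bd C).support := mem_bd_filter hl' hw (fun l hl hwl w' hw' => by
      have h2 := (hk2 l hl).2 w' hw' w hwl
      have h3 := dist_triangle w' w x₀
      exact hrXs (mem_ball.2 (by linarith)))
    rw [hC, hc0] at h1
    simp at h1
  -- smallness of the lists
  have hRsm : ∀ (l l' : List M) (s : ℝ), Sm κ l → 2 * ε + κ ≤ s →
      In {x' | ∃ y ∈ l, dist x' y < ε} l' → Sm s l' := by
    intro l l' s hl hs h x hx y hy
    obtain ⟨x', hx', hxx⟩ := h x hx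
    obtain ⟨y', hy', hyy⟩ := h y hy
    have h1 := dist_triangle4 x x' y' y
    have h2 := hl x' hx' y' hy'
    rw [dist_comm y' y] at h1
    linarith
  -- the three pieces have degree zero
  have e1 : dg β (bd (ext (htp ξ Φ) C₁)) x₀ = 0 := by
    refine (hbdz _ ?_ x₀ hx₀7).1
    refine Sup.ext hC₁s ?_
    rintro l ⟨-, hl2, hl3⟩
    refine Sup.mono (fun l' hl' => hRsm l l' kb hl2 (by linarith) hl'.2) (hH l ⟨hl2, hl3⟩)
  have e2 : dg β (ext (htp ξ Φ) (bd C₁)) x₀ = 0 := by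
    refine (hfar _ x₀ hx₀7 ?_).1
    intro v hv
    obtain ⟨l, hl, hvl⟩ := SupA.mem_support_ext hv
    have h1 := hbdP l hl
    have h2 := hbdfar l hl
    have h3 := hH l h1.1 v hvl
    refine ⟨hRsm l v kf h1.1.1 (by linarith) h3.2, ?_⟩
    have hne : v ≠ [] := by
      intro h
      have := h3.1
      rw [h] at this
      simp at this
    obtain ⟨w, hw⟩ := List.exists_mem_of_ne_nil v hne
    obtain ⟨y, hy, hwy⟩ := h3.2 w hw
    have h4 := h2 y hy
    have h5 := dist_triangle y w x₀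
    rw [dist_comm y w] at h5
    refine ⟨w, hw, ?_⟩
    rw [dist_comm w x₀] at h5 
    linarith
  have e3 : dg β (ext Φ C₁) x₀ = 0 := by
    refine (hfar _ x₀ hx₀7 ?_).1
    intro v hv
    obtain ⟨l, hl, hvl⟩ := SupA.mem_support_ext hv
    have hl1 := hC₁s l hl
    have h3 := hsup l ⟨hl1.2.1, hl1.2.2⟩ v hvl
    refine ⟨hRsm l v kf hl1.2.1 (by linarith) h3.2, ?_⟩
    by_contra hnear
    push Not at hnear
    have hnear' : ∀ z ∈ v, dist z x₀ < rX / 4 := fun z hz => by
      rw [dist_comm]; exact hnear z hz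
    have hvlen : v.length = n + 1 := by rw [h3.1]; exact hl1.1
    -- exchange the sums
    have hsw : ext Φ C₁ = ext (fun m => ext (fun l => Finsupp.single (m.map (q (l.headD x₀)))
        (KerC β' (l.map f) [m.headD y₀])) C₁) (muC β' Nb) := by
      rw [ext_swap (fun l m => Finsupp.single (m.map (q (l.headD x₀)))
        (KerC β' (l.map f) [m.headD y₀]))]
      refine ext_cong' fun l hl => ?_
      have hlen := (hC₁s l hl).1
      cases l with
      | nil => simp at hlen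
      | cons x a =>
        show pf (q x) (LD.Phi β' Nb ((x :: a).map f)) = _
        rw [Phi_top hNb y₀ (by rw [List.length_map]; exact hlen), SupA.map_ext]
        refine ext_cong' fun m _ => ?_
        rw [pf_single]
        rfl
    rw [hsw] at hv
    obtain ⟨m, hm, hvm⟩ := SupA.mem_support_ext hv
    -- a list which contributes
    obtain ⟨l₁, hl₁, hv₁⟩ := SupA.mem_support_ext hvm
    have hK : KerC β' (l₁.map f) [m.headD y₀] ≠ 0 := by
      intro h
      rw [h, Finsupp.single_zero] at hv₁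
      simp at hv₁
    have key : ∀ l : List M, l.length = n + 1 → Sm κ l → In X l →
        KerC β' (l.map f) [m.headD y₀] ≠ 0 →
        Sm (δ / 4) m ∧ m.headD y₀ ∈ β' '' Q n 2 ∧
          ∀ w ∈ l, dist (f w) (m.headD y₀) ≤ δ / 2 := by
      intro l hlen hls hlX hK
      have h1 := Phi_mem hNb y₀ (a := l.map f) (by rw [List.length_map]; exact hlen) hm hK
      have hIn : In (β' '' Q n 6) (l.map f) := by
        intro y hy
        obtain ⟨w, hw, rfl⟩ := List.mem_map.1 hy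
        exact hXβ w (hlX w hw)
      have h2 := hΦ' (l.map f) (hsf l hls).1 hIn
      have h4 := h2.1 _ h1
      have h5 := h2.2 (by rw [List.length_map]; exact hlen) _ h1
      have hz : m.headD y₀ ∈ m := by
        have hmlen := h4.1
        rw [List.length_map, hlen] at hmlen
        cases m with
        | nil => simp at hmlen
        | cons z m => exact List.mem_cons_self
      obtain ⟨-, y, hy, hzy⟩ := h4.2 _ hz
      obtain ⟨w₀, hw₀, rfl⟩ := List.mem_map.1 hy
      refine ⟨sm_mono (min_le_left _ _) h5, ?_, fun w hw => ?_⟩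
      · obtain ⟨u, hu, huw⟩ := hWβ w₀ (hXW (hlX w₀ hw₀))
        obtain ⟨v', hv', hvy, -⟩ := hmod u hu (m.headD y₀) (by
          rw [huw, dist_comm]; exact hzy.trans_le (min_le_right _ _))
        exact ⟨v', hv', hvy⟩
      · have d1 := (hsf l hls).2 (f w) (List.mem_map_of_mem hw) (f w₀) (List.mem_map_of_mem hw₀)
        have d2 := dist_triangle (f w) (f w₀) (m.headD y₀)
        rw [dist_comm (f w₀)] at d2
        have d3 := hzy.trans_le (min_le_left (δ / 4) δm)
        linarith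
    have hl₁' := hC₁s l₁ hl₁
    obtain ⟨k1, k2, -⟩ := key l₁ hl₁'.1 hl₁'.2.1 hl₁'.2.2 hK
    have hvS : v ∈ {v : List M | v.length = n + 1 ∧ ∀ z ∈ v, z ∈ S} := by
      refine ⟨hvlen, fun z hz => ?_⟩
      have h1 := Finsupp.support_single_subset hv₁
      rw [Finset.mem_singleton] at h1
      rw [h1] at hz
      obtain ⟨y, -, rfl⟩ := List.mem_map.1 hz
      exact hS _ _
    have hdg0 := hk1 m hm v hvS k1 k2 hnear'
    -- the coefficient is the degree of a sheet
    refine Finsupp.mem_support_iff.1 hvm ?_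
    rw [← hdg0]
    unfold dg
    rw [Chart.ext_pf, ext_filter, ext_filter]
    rw [Finsupp.linearCombination_apply, Finsupp.linearCombination_apply, Finsupp.sum,
      Finsupp.sum, Finsupp.finsetSum_apply]
    refine Finset.sum_congr rfl fun l hl => ?_
    rw [Finsupp.smul_apply]
    congr 1
    obtain ⟨hlen, hls⟩ := hk2 l hl
    by_cases hKl : KerC β' (l.map f) [m.headD y₀] = 0
    · rw [hKl, Finsupp.single_zero, ite_self, ite_self, ite_self]
      rfl
    by_cases hlX : In X l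
    · rw [if_pos hlX]
      obtain ⟨-, -, k3⟩ := key l hlen hls hlX hKl
      have hne : l ≠ [] := by
        intro h
        rw [h] at hlen
        simp at hlen
      have hhead : l.headD x₀ ∈ l := by
        cases l with
        | nil => exact absurd rfl hne
        | cons x l => exact List.mem_cons_self
      have h8 : In (β' '' Q n 8) (l.map f) := by
        intro y hy
        obtain ⟨w, hw, rfl⟩ := List.mem_map.1 hy
        exact q_mono (by norm_num) β' (hXβ w (hlX w hw))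
      by_cases hmv : m.map (q (l.headD x₀)) = v
      · have hU : In (Ush f q X δ y₀ m v) l := by
          intro w hw
          refine ⟨hlX w hw, k3 w hw, ?_⟩
          rw [map_q k1 hδ hq2 (hlX w hw) (hlX _ hhead) (k3 w hw) (k3 _ hhead)
            ((hls w hw _ hhead).trans_le hκ1)]
          exact hmv
        rw [if_pos hU, if_pos h8, hmv, Finsupp.single_eq_same]
      · have hU : ¬ In (Ush f q X δ y₀ m v) l := fun h => hmv (h _ hhead).2.2
        rw [if_neg hU, Finsupp.single_eq_of_ne (Ne.symm hmv)]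
    · have hU : ¬ In (Ush f q X δ y₀ m v) l := fun h => hlX fun w hw => (h w hw).1
      rw [if_neg hlX, if_neg hU]
      rfl
  have e4 : dg β C₁ x₀ = dg β (ext Φ C₁) x₀ +
      (dg β (bd (ext (htp ξ Φ) C₁)) x₀ + dg β (ext (htp ξ Φ) (bd C₁)) x₀) := by
    rw [← inv_dg_add, ← inv_dg_add, hid]
    congr 1
    abel
  rw [e1, e2, e3, hdgC₁] at e4
  simp at e4

end NV

end Vale.Agent.P260.H283
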