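import Vale.Agent.P260.H283.Light

/-!
# Sheets of light maps
-/

open Metric Set Topology

namespace Vale.Agent.P260.H283

theorem exists_low {α : Type*} (t : Finset α) (κ : α → ℝ) (h : ∀ i ∈ t, 0 < κ i) :
    ∃ r > 0, ∀ i ∈ t, r ≤ κ i := by
  classical
  induction t using Finset.induction_on with
  | empty => exact ⟨1, one_pos, fun i hi => by simp at hi⟩
  | insert b s _ ih =>
    obtain ⟨r, hr, h1⟩ := ih fun i hi => h i (Finset.mem_insert_of_mem hi)
    refine ⟨min r (κ b), lt_min hr (h b (Finset.mem_insert_self _ _)), fun i hi => ?_⟩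
    rcases Finset.mem_insert.1 hi with rfl | hi
    · exact min_le_right _ _
    · exact (min_le_left _ _).trans (h1 i hi)

/-- Sheet representatives near one point. -/
theorem light_tau {M N : Type*} [MetricSpace M] [Nonempty M] [MetricSpace N] {f : M → N}
    (hf : Continuous f) {X : Set M} (hX : IsCompact X) (y : N)
    (hlight : IsTotallyDisconnected (X ∩ f ⁻¹' {y})) {ε : ℝ} (hε : 0 < ε) :
    ∃ η > 0, ∃ κ > 0, ∃ τ : M → M, (range τ).Finite ∧
      (∀ x ∈ X, dist (f x) y < η → dist (τ x) x < ε) ∧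
      ∀ x ∈ X, ∀ x' ∈ X, dist (f x) y < η → dist (f x') y < η → dist x x' < κ → τ x = τ x' := by
  classical
  set F := X ∩ f ⁻¹' {y} with hF
  have hFc : IsCompact F := hX.inter_right (isClosed_singleton.preimage hf)
  have hFt : IsTotallyDisconnected F := hlight
  have h1 : ∀ x ∈ F, ∃ O O' : Set M, IsOpen O ∧ IsOpen O' ∧ Disjoint O O' ∧ F ⊆ O ∪ O' ∧
      x ∈ O ∧ O ⊆ ball x ε := by
    intro x hx
    obtain ⟨C₁, C₂, c1, c2, c12, hC, hC1, hC2⟩ := split_tot hFc hFt (isClosed_singleton (x := x))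
      (isOpen_ball (x := x) (ε := ε)).isClosed_compl (by
        rw [disjoint_singleton_left]
        exact fun h => h (mem_ball_self hε))
    obtain ⟨O₁, O₂, hO₁, hO₂, hCO₁, hCO₂, hO⟩ := SeparatedNhds.of_isCompact_isCompact c1 c2 c12
    refine ⟨O₁ ∩ ball x ε, O₂, hO₁.inter isOpen_ball, hO₂, hO.mono_left inter_subset_left, ?_,
      ⟨hCO₁ (hC1 ⟨hx, rfl⟩), mem_ball_self hε⟩, inter_subset_right⟩
    intro z hz
    have hz' := hz
    rw [← hC] at hz'
    rcases hz' with hz1 | hz2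
    · left
      refine ⟨hCO₁ hz1, ?_⟩
      by_contra hzb
      exact (disjoint_left.1 c12) hz1 (hC2 ⟨hz, hzb⟩)
    · exact Or.inr (hCO₂ hz2)
  choose! O O' hO hO' hdis hcov hxO hOb using h1
  obtain ⟨t, ht, hcovt⟩ := hFc.elim_nhds_subcover O (fun x hx => (hO x hx).mem_nhds (hxO x hx))
  set G : Set M := (⋃ x ∈ t, O x) ∩ ⋂ x ∈ t, (O x ∪ O' x) with hG
  have hGo : IsOpen G := by
    refine (isOpen_biUnion fun x hx => hO x (ht x hx)).inter ?_
    exact isOpen_biInter_finset fun x hx => (hO x (ht x hx)).union (hO' x (ht x hx))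
  have hFG : F ⊆ G := fun z hz => ⟨hcovt hz, mem_iInter₂.2 fun x hx => hcov x (ht x hx) hz⟩
  have hcl : IsClosed (f '' (X \ G)) := ((hX.diff hGo).image hf).isClosed
  have hy : y ∉ f '' (X \ G) := by
    rintro ⟨x, ⟨hx, hxG⟩, hxy⟩
    exact hxG (hFG ⟨hx, hxy⟩)
  obtain ⟨η₀, hη₀, hb⟩ := Metric.mem_nhds_iff.1 (hcl.isOpen_compl.mem_nhds hy)
  have hη : 0 < η₀ / 2 := half_pos hη₀
  set Xη : Set M := X ∩ f ⁻¹' closedBall y (η₀ / 2) with hXη
  have hXηc : IsCompact Xη := hX.inter_right (isClosed_closedBall.preimage hf)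
  have hXηG : Xη ⊆ G := by
    rintro x ⟨hx, hxy⟩
    by_contra hxG
    refine hb ?_ ⟨x, ⟨hx, hxG⟩, rfl⟩
    exact (mem_closedBall.1 hxy).trans_lt (half_lt_self hη₀)
  have h2 : ∀ i ∈ t, ∃ κ > 0, ∀ a ∈ Xη \ O' i, ∀ b ∈ Xη \ O i, κ ≤ dist a b := by
    intro i hi
    refine exists_dist_pos (hXηc.diff (hO' i (ht i hi))) (hXηc.diff (hO i (ht i hi))) ?_
    rw [disjoint_left]
    rintro z ⟨hz, hz1⟩ ⟨-, hz2⟩
    rcases mem_iInter₂.1 (hXηG hz).2 i hi with h | h
    · exact hz2 h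
    · exact hz1 h
  choose! κ hκ hsep using h2
  obtain ⟨κ₀, hκ₀, hlow⟩ := exists_low t κ hκ
  let rep : Finset M → M := fun s => if h : s.Nonempty then h.choose else Classical.arbitrary M
  have hrep : ∀ s : Finset M, s.Nonempty → rep s ∈ s := fun s hs => by
    simp only [rep, dif_pos hs]
    exact hs.choose_spec
  refine ⟨η₀ / 2, hη, κ₀, hκ₀, fun x => rep (t.filter fun i => x ∈ O i), ?_, ?_, ?_⟩
  · refine (t.powerset.finite_toSet.image rep).subset ?_
    rintro _ ⟨x, rfl⟩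
    exact ⟨_, Finset.mem_coe.2 (Finset.mem_powerset.2 (Finset.filter_subset _ _)), rfl⟩
  · intro x hx hxy
    have hxη : x ∈ Xη := ⟨hx, mem_closedBall.2 hxy.le⟩
    obtain ⟨i, hi, hxi⟩ := mem_iUnion₂.1 (hXηG hxη).1
    have hne : (t.filter fun i => x ∈ O i).Nonempty := ⟨i, Finset.mem_filter.2 ⟨hi, hxi⟩⟩
    have h3 := Finset.mem_filter.1 (hrep _ hne)
    have h4 := hOb _ (ht _ h3.1) h3.2
    rw [dist_comm]
    exact h4
  · intro x hx x' hx' hxy hxy' hd
    have hxη : x ∈ Xη := ⟨hx, mem_closedBall.2 hxy.le⟩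
    have hxη' : x' ∈ Xη := ⟨hx', mem_closedBall.2 hxy'.le⟩
    have key : ∀ i ∈ t, ∀ a ∈ Xη, ∀ b ∈ Xη, dist a b < κ₀ → a ∈ O i → b ∈ O i := by
      intro i hi a ha b hb hab hai
      by_contra hbi
      refine absurd (hab.trans_le (hlow i hi)) (not_lt.2 (hsep i hi a ⟨ha, fun h => ?_⟩ b ⟨hb, hbi⟩))
      exact (disjoint_left.1 (hdis i (ht i hi))) hai h
    show rep _ = rep _
    congr 1
    ext i
    rw [Finset.mem_filter, Finset.mem_filter]
    constructor
    · rintro ⟨hi, h⟩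
      exact ⟨hi, key i hi x hxη x' hxη' hd h⟩
    · rintro ⟨hi, h⟩
      exact ⟨hi, key i hi x' hxη' x hxη (by rw [dist_comm]; exact hd) h⟩

/-- Sheet representatives, uniformly in the target. -/
theorem light_q {M N : Type*} [MetricSpace M] [Nonempty M] [MetricSpace N] [CompactSpace N]
    {f : M → N} (hf : Continuous f) {X : Set M} (hX : IsCompact X)
    (hlight : ∀ y, IsTotallyDisconnected (X ∩ f ⁻¹' {y})) {ε : ℝ} (hε : 0 < ε) :
    ∃ δ > 0, ∃ κ > 0, ∃ q : M → N → M, (∃ S : Set M, S.Finite ∧ ∀ x y, q x y ∈ S) ∧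
      (∀ x ∈ X, ∀ y, dist (f x) y < δ → dist (q x y) x < ε) ∧
      ∀ x ∈ X, ∀ x' ∈ X, ∀ y, dist (f x) y < δ → dist (f x') y < δ → dist x x' < κ →
        q x y = q x' y := by
  classical
  choose η hη κ hκ τ hfin h1 h2 using fun y => light_tau hf hX y (hlight y) hε
  obtain ⟨t, -, hcov⟩ := isCompact_univ.elim_nhds_subcover (fun y => ball y (η y / 2))
    (fun y _ => ball_mem_nhds y (half_pos (hη y)))
  obtain ⟨δ, hδ, hδl⟩ := exists_low t (fun y => η y / 2) (fun y _ => half_pos (hη y))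
  obtain ⟨κ₀, hκ₀, hκl⟩ := exists_low t κ (fun y _ => hκ y)
  have h3 : ∀ y : N, ∃ j ∈ t, dist y j < η j / 2 := fun y => by
    obtain ⟨j, hj, hyj⟩ := mem_iUnion₂.1 (hcov (mem_univ y))
    exact ⟨j, hj, hyj⟩
  choose j hj hyj using h3
  have h4 : ∀ x y, dist (f x) y < δ → dist (f x) (j y) < η (j y) := by
    intro x y h
    have h5 := dist_triangle (f x) y (j y)
    have h6 := hδl (j y) (hj y)
    have h7 := hyj y
    linarith
  refine ⟨δ, hδ, κ₀, hκ₀, fun x y => τ (j y) x, ⟨⋃ i ∈ t, range (τ i), ?_, ?_⟩, ?_, ?_⟩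
  · exact t.finite_toSet.biUnion fun i _ => hfin i
  · intro x y
    exact mem_iUnion₂.2 ⟨j y, hj y, x, rfl⟩
  · intro x hx y hxy
    exact h1 (j y) x hx (h4 x y hxy)
  · intro x hx x' hx' y hxy hxy' hd
    exact h2 (j y) x hx x' hx' (h4 x y hxy) (h4 x' y hxy') (hd.trans_le (hκl _ (hj y)))

end Vale.Agent.P260.H283
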