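import Vale.Agent.P260.H283.NV2

/-!
# A light map with a homotopy section which is not injective has three sheets somewhere
-/

open Metric Set Topology Filter
open Vale.Agent.P239.M Vale.Agent.P239.M.Fill

namespace Vale.Agent.P260.H283

variable {n : ℕ} {M N : Type*} [MetricSpace M] [CompactSpace M]
  [ChartedSpace (EuclideanSpace ℝ (Fin n)) M] [MetricSpace N] [CompactSpace N]

open Classical in
/-- The statement with ordered sheets. -/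
theorem three_aux (hn : 0 < n) {f : M → N} (hf : Continuous f) {β' : (Fin n → ℝ) → N}
    (hβ' : IsOpenEmbedding β') {y : N} (hβ'0 : β' 0 = y) {U₁ U₂ : Set M} (hU₁ : IsCompact U₁)
    (hU₂ : IsCompact U₂) (hd : Disjoint U₁ U₂) {ρ : ℝ} (hρ : 0 < ρ)
    (hcov : ∀ z, dist (f z) y < ρ → z ∈ U₁ ∨ z ∈ U₂) (ho₁ : IsOpen (U₁ ∩ f ⁻¹' ball y ρ))
    (ho₂ : IsOpen (U₂ ∩ f ⁻¹' ball y ρ))
    (hfib : ∀ z ∈ ball y ρ, IsPreconnected (f ⁻¹' {z}) ∨ IsTotallyDisconnected (f ⁻¹' {z}))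
    {x' : M} (hx' : x' ∈ U₂) (hfx' : f x' = y)
    (c : ℕ → Ch (ZMod 2) M) (hc0 : ∀ k, bd (c k) = 0)
    (hcs : ∀ κ > 0, ∀ᶠ k in atTop, Sup (fun l => l.length = n + 1 ∧ Sm κ l) (c k))
    (hc1 : ∀ (x₀ : M) (β : (Fin n → ℝ) → M), IsOpenEmbedding β → β 0 = x₀ →
      ∀ᶠ k in atTop, dg β (c k) x₀ = 1)
    (htot : ∀ k, dg β' (pf f (c k)) y = 1)
    (𝒰 : Ultrafilter ℕ) (h𝒰 : (𝒰 : Filter ℕ) ≤ atTop)
    (hD : ∀ᶠ k in 𝒰, dg β' (pf f ((c k).filter (In U₁))) y = 1) :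
    ∃ V : Set N, IsOpen V ∧ V.Nonempty ∧ V ⊆ ball y ρ ∧ ∀ z ∈ V, ¬ IsPreconnected (f ⁻¹' {z}) ∧
      ∃ a b e : M, a ≠ b ∧ a ≠ e ∧ b ≠ e ∧ f a = z ∧ f b = z ∧ f e = z := by
  have hsU : ∀ κ > 0, ∀ᶠ k in 𝒰, Sup (fun l => l.length = n + 1 ∧ Sm κ l) (c k) :=
    fun κ hκ => (hcs κ hκ).filter_mono h𝒰
  have hy2 : y ∈ β' '' Q n 2 := ⟨0, mem_closedBall_self (by norm_num), hβ'0⟩
  obtain ⟨r₁, hr₁, κ₁, hκ₁, h1⟩ := sheet_const hn hf hU₁ hρ ho₁ hβ' hy2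
  obtain ⟨r₂, hr₂, κ₂, hκ₂, h2⟩ := sheet_const (U := univ) hn hf isCompact_univ hρ
    (isOpen_univ.inter (isOpen_ball.preimage hf)) hβ' hy2
  have huniv : ∀ d : Ch (ZMod 2) M, d.filter (In univ) = d := fun d => by
    rw [Finsupp.filter_eq_self_iff]
    intro l _ x _
    trivial
  obtain ⟨r₃, hr₃, hr₃s⟩ : ∃ r > 0, ball y r ⊆ β' '' Q n 1 := by
    have h1 : β' '' ball 0 1 ∈ 𝓝 y :=
      (hβ'.isOpenMap _ isOpen_ball).mem_nhds ⟨0, mem_ball_self (by norm_num), hβ'0⟩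
    obtain ⟨r, hr, h2⟩ := Metric.mem_nhds_iff.1 h1
    exact ⟨r, hr, h2.trans (image_mono ball_subset_closedBall)⟩
  obtain ⟨r₄, hr₄, hr₄s⟩ := sheet_onto hn hf hU₁ hρ ho₁ hβ' hy2 (by
    intro κ hκ
    obtain ⟨k, hk1, hk2⟩ := (hD.and (hsU κ hκ)).exists
    exact ⟨c k, hc0 k, hk2, hk1⟩)
  obtain ⟨r, hr, hr1, hr2, hr3, hr4, hr5⟩ : ∃ r > 0, r ≤ r₁ ∧ r ≤ r₂ ∧ r ≤ r₃ ∧ r ≤ ρ ∧ r ≤ r₄ :=
    ⟨min (min (min r₁ r₂) (min r₃ ρ)) r₄, by positivity,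
      (min_le_left _ _).trans ((min_le_left _ _).trans (min_le_left _ _)),
      (min_le_left _ _).trans ((min_le_left _ _).trans (min_le_right _ _)),
      (min_le_left _ _).trans ((min_le_right _ _).trans (min_le_left _ _)),
      (min_le_left _ _).trans ((min_le_right _ _).trans (min_le_right _ _)), min_le_right _ _⟩
  have hnp : ∀ z ∈ ball y ρ, ∀ a ∈ U₁, ∀ b ∈ U₂, f a = z → f b = z →
      ¬ IsPreconnected (f ⁻¹' {z}) := by
    intro z hz a ha b hb haz hbz hp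
    rw [isPreconnected_closed_iff] at hp
    obtain ⟨w, -, hw1, hw2⟩ := hp U₁ U₂ hU₁.isClosed hU₂.isClosed (fun x hx => by
      have hx' : f x = z := hx
      exact hcov x (by rw [hx']; exact hz)) ⟨a, haz, ha⟩ ⟨b, hbz, hb⟩
    exact (disjoint_left.1 hd) hw1 hw2
  have hlight : ∀ z, IsTotallyDisconnected ((U₂ ∩ f ⁻¹' ball y r) ∩ f ⁻¹' {z}) := by
    intro z
    by_cases hzr : z ∈ ball y r
    · have hzρ : z ∈ ball y ρ := ball_subset_ball hr4 hzr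
      rcases hfib z hzρ with h | h
      · intro t ht _ b hb
        obtain ⟨⟨hbU, -⟩, hbz⟩ := ht hb
        obtain ⟨a, ha, haz⟩ := hr₄s (ball_subset_ball hr5 hzr)
        exact absurd h (hnp z hzρ a ha b hbU haz hbz)
      · exact fun t ht => h t (ht.trans inter_subset_right)
    · intro t ht _ b hb
      obtain ⟨⟨-, hb1⟩, hbz⟩ := ht hb
      have hbz' : f b = z := hbz
      exact absurd (hbz' ▸ hb1) hzr
  have hopen : ∀ U : Set M, IsOpen (U ∩ f ⁻¹' ball y ρ) → ∀ (z : N) (s : ℝ),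
      ball z s ⊆ ball y ρ → IsOpen (U ∩ f ⁻¹' ball z s) := by
    intro U hU z s hzs
    have : U ∩ f ⁻¹' ball z s = (U ∩ f ⁻¹' ball y ρ) ∩ f ⁻¹' ball z s := by
      ext x
      constructor
      · rintro ⟨a, b⟩; exact ⟨⟨a, hzs b⟩, b⟩
      · rintro ⟨⟨a, -⟩, b⟩; exact ⟨a, b⟩
    rw [this]
    exact hU.inter (isOpen_ball.preimage hf)
  have hbr : ball y r ⊆ ball y ρ := ball_subset_ball hr4
  obtain ⟨S, y₁, ρ₁, hS, hSW, hy₁2, hρ₁, hSo, hDS⟩ := nonvanish hn hf hβ'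
    (hopen U₂ ho₂ y r hbr) hlight (x₀ := x') ⟨hx', by
      show f x' ∈ ball y r
      rw [hfx']; exact mem_ball_self hr⟩
    (fun x hx => hr₃s (ball_subset_ball hr3 hx.2)) c hc0 hcs (hc1 x') 𝒰 h𝒰
  have hSU : S ⊆ U₂ := hSW.trans inter_subset_left
  obtain ⟨rS, hrS, hSon⟩ := sheet_onto hn hf hS hρ₁ hSo hβ' hy₁2 (by
    intro κ hκ
    obtain ⟨k, hk1, hk2⟩ := (hDS.and (hsU κ hκ)).exists
    exact ⟨c k, hc0 k, hk2, hk1⟩)
  have hy₁r : y₁ ∈ ball y r := by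
    obtain ⟨x, hx, hxy⟩ := hSon (mem_ball_self hrS)
    rw [← hxy]
    exact (hSW hx).2
  -- a small ball around `y₁`
  obtain ⟨ρ₂, hρ₂, hρ₂1, hρ₂2⟩ : ∃ s > 0, closedBall y₁ s ⊆ ball y r ∧ s < ρ₁ := by
    rw [mem_ball] at hy₁r
    refine ⟨min ((r - dist y₁ y) / 2) (ρ₁ / 2), lt_min (by linarith) (by linarith), ?_, ?_⟩
    · intro z hz
      rw [mem_closedBall] at hz
      have h3 := hz.trans (min_le_left _ _)
      have h4 := dist_triangle z y₁ y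
      rw [mem_ball]
      linarith
    · exact (min_le_right _ _).trans_lt (half_lt_self hρ₁)
  have hb₂ : ball y₁ ρ₂ ⊆ ball y ρ := (ball_subset_closedBall.trans hρ₂1).trans hbr
  set R : Set M := (U₂ ∩ f ⁻¹' closedBall y₁ ρ₂) \ (S ∩ f ⁻¹' ball y₁ ρ₁) with hR
  have hRc : IsCompact R := (hU₂.inter_right (isClosed_closedBall.preimage hf)).diff hSo
  have hRU : R ⊆ U₂ := fun z hz => hz.1.1
  have hSR : Disjoint S R := by
    rw [disjoint_left]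
    rintro z hzS ⟨⟨-, hz2⟩, hz3⟩
    exact hz3 ⟨hzS, (mem_closedBall.1 hz2).trans_lt hρ₂2⟩
  have hdU : Disjoint U₁ (S ∪ R) := hd.mono_right (union_subset hSU hRU)
  have hcov' : ∀ z, dist (f z) y₁ < ρ₂ → z ∈ U₁ ∨ z ∈ S ∪ R := by
    intro z hz
    have h3 : f z ∈ ball y ρ := hb₂ (mem_ball.2 hz)
    rcases hcov z (mem_ball.1 h3) with h | h
    · exact Or.inl h
    · right
      by_cases hzS : z ∈ S ∩ f ⁻¹' ball y₁ ρ₁
      · exact Or.inl hzS.1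
      · exact Or.inr ⟨⟨h, mem_closedBall.2 hz.le⟩, hzS⟩
  obtain ⟨κ₃, hκ₃, h3⟩ := dec hf hU₁ (hS.union hRc) hdU hρ₂ hcov' hβ'
  obtain ⟨κ₄, hκ₄, h4⟩ := filter_union (n := n) hS hRc hSR
  have hRo : IsOpen (R ∩ f ⁻¹' ball y₁ ρ₂) := by
    have : R ∩ f ⁻¹' ball y₁ ρ₂ = (U₂ ∩ f ⁻¹' ball y₁ ρ₂) ∩ Sᶜ := by
      ext z
      constructor
      · rintro ⟨hz, hzb⟩
        exact ⟨⟨hRU hz, hzb⟩, fun h => (disjoint_left.1 hSR) h hz⟩
      · rintro ⟨⟨hz, hzb⟩, hzS⟩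
        exact ⟨⟨⟨hz, (mem_ball.1 hzb).le⟩, fun h => hzS h.1⟩, hzb⟩
    rw [this]
    exact (hopen U₂ ho₂ y₁ ρ₂ hb₂).inter hS.isClosed.isOpen_compl
  have hDU : ∀ᶠ k in 𝒰, dg β' (pf f ((c k).filter (In U₁))) y₁ = 1 := by
    filter_upwards [hD, hsU κ₁ hκ₁] with k hk hks
    rw [h1 (c k) (hc0 k) hks y₁ ((mem_ball.1 hy₁r).trans_le hr1), hk]
  have hDR : ∀ᶠ k in 𝒰, dg β' (pf f ((c k).filter (In R))) y₁ = 1 := by
    filter_upwards [hDU, hDS, hsU κ₂ hκ₂, hsU κ₃ hκ₃, hsU κ₄ hκ₄] with k e1 e2 s2 s3 s4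
    have e3 := (h3 (c k) (hc0 k) s3).2.2 y₁ (q_mono (by norm_num) β' hy₁2) (by
      rw [dist_self]; linarith)
    rw [h4 (c k) s4, map_add, inv_dg_add, e1, e2] at e3
    have e4 := h2 (c k) (hc0 k) s2 y₁ ((mem_ball.1 hy₁r).trans_le hr2)
    rw [huniv, htot k] at e4
    rw [e4] at e3
    have : ∀ z : ZMod 2, 1 = 1 + (1 + z) → z = 1 := by decide
    exact this _ e3
  obtain ⟨rR, hrR, hRon⟩ := sheet_onto hn hf hRc hρ₂ hRo hβ' hy₁2 (by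
    intro κ hκ
    obtain ⟨k, hk1, hk2⟩ := (hDR.and (hsU κ hκ)).exists
    exact ⟨c k, hc0 k, hk2, hk1⟩)
  obtain ⟨rU, hrU, hUon⟩ := sheet_onto hn hf hU₁ hρ₂ (hopen U₁ ho₁ y₁ ρ₂ hb₂) hβ' hy₁2 (by
    intro κ hκ
    obtain ⟨k, hk1, hk2⟩ := (hDU.and (hsU κ hκ)).exists
    exact ⟨c k, hc0 k, hk2, hk1⟩)
  have hVρ : ball y₁ (min ρ₂ (min rS (min rR rU))) ⊆ ball y ρ :=
    (ball_subset_ball (min_le_left _ _)).trans hb₂
  refine ⟨ball y₁ (min ρ₂ (min rS (min rR rU))), isOpen_ball,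
    ⟨y₁, mem_ball_self (by positivity)⟩, hVρ, ?_⟩
  intro z hz'
  have hz := ball_subset_ball (min_le_right ρ₂ _) hz'
  obtain ⟨a, ha, haz⟩ := hUon (ball_subset_ball ((min_le_right _ _).trans (min_le_right _ _)) hz)
  obtain ⟨b, hb, hbz⟩ := hSon (ball_subset_ball (min_le_left _ _) hz)
  obtain ⟨e, he, hez⟩ := hRon (ball_subset_ball ((min_le_right _ _).trans (min_le_left _ _)) hz)
  refine ⟨hnp z (hVρ hz') a ha b (hSU hb) haz hbz, a, b, e, ?_, ?_, ?_, haz, hbz, hez⟩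
  · rintro rfl
    exact (disjoint_left.1 hd) ha (hSU hb)
  · rintro rfl
    exact (disjoint_left.1 hd) ha (hRU he)
  · rintro rfl
    exact (disjoint_left.1 hSR) hb he

open Classical in
/-- **Main theorem.** Let `f` be a map with a homotopy section. If the fibres near `y` are
connected or totally disconnected and the fibre at `y` is not connected, then the fibres over some
nonempty open set near `y` are not connected and have at least three points. -/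
theorem three_local [PreconnectedSpace M] [ChartedSpace (EuclideanSpace ℝ (Fin n)) N]
    (hn : 0 < n) (f : C(M, N)) (g : C(N, M))
    (hfg : (f.comp g).Homotopic (ContinuousMap.id N)) {y : N} {W : Set N} (hW : W ∈ 𝓝 y)
    (hfib : ∀ z ∈ W, IsPreconnected (f ⁻¹' {z}) ∨ IsTotallyDisconnected (f ⁻¹' {z}))
    (hny : ¬ IsPreconnected (f ⁻¹' {y})) :
    ∃ V : Set N, IsOpen V ∧ V.Nonempty ∧ V ⊆ W ∧ ∀ z ∈ V, ¬ IsPreconnected (f ⁻¹' {z}) ∧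
      ∃ a b e : M, a ≠ b ∧ a ≠ e ∧ b ≠ e ∧ f a = z ∧ f b = z ∧ f e = z := by
  have hlight : IsTotallyDisconnected (f ⁻¹' {y}) :=
    (hfib y (mem_of_mem_nhds hW)).resolve_left hny
  have hns : ¬ (f ⁻¹' {y}).Subsingleton := fun h => hny h.isPreconnected
  rw [Set.not_subsingleton_iff] at hns
  obtain ⟨x, hx, x', hx', hne⟩ := hns
  have hxy : f x = y := hx
  have hxy' : f x' = y := hx'
  have : Nonempty M := ⟨x⟩
  obtain ⟨ρW, hρW, hbW⟩ := Metric.mem_nhds_iff.1 hW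
  have hFc : IsCompact (f ⁻¹' {y}) := (isClosed_singleton.preimage f.continuous).isCompact
  obtain ⟨C₁, C₂, h1, h2, h12, hC, hC1, hC2⟩ := split_tot hFc hlight
    (isClosed_singleton (x := x)) (isClosed_singleton (x := x')) (by
      rw [disjoint_singleton]; exact hne)
  have hxC : x ∈ C₁ := hC1 ⟨hx, rfl⟩
  have hxC' : x' ∈ C₂ := hC2 ⟨hx', rfl⟩
  obtain ⟨O₁, O₂, hO₁, hO₂, hCO₁, hCO₂, hO⟩ := SeparatedNhds.of_isCompact_isCompact h1 h2 h12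
  obtain ⟨ρ', hρ', htube'⟩ := exists_tube f.continuous (hO₁.union hO₂) (y := y) (by
    rw [← hC]
    exact union_subset_union hCO₁ hCO₂)
  obtain ⟨ρ, hρ, hρ1, hρ2'⟩ : ∃ s > 0, s ≤ ρ' ∧ s ≤ ρW :=
    ⟨min ρ' ρW, lt_min hρ' hρW, min_le_left _ _, min_le_right _ _⟩
  have htube : ∀ z, dist (f z) y < ρ → z ∈ O₁ ∪ O₂ := fun z hz => htube' z (hz.trans_le hρ1)
  have hbρ : ball y (ρ / 2) ⊆ W :=
    (ball_subset_ball ((half_le_self hρ.le).trans hρ2')).trans hbW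
  have hfib' : ∀ z ∈ ball y (ρ / 2), IsPreconnected (f ⁻¹' {z}) ∨
      IsTotallyDisconnected (f ⁻¹' {z}) := fun z hz => hfib z (hbρ hz)
  have hρ2 : 0 < ρ / 2 := half_pos hρ
  have hcb : ∀ z, z ∈ f ⁻¹' closedBall y (ρ / 2) → z ∈ O₁ ∪ O₂ := fun z hz =>
    htube z ((mem_closedBall.1 hz).trans_lt (half_lt_self hρ))
  set U₁ := f ⁻¹' closedBall y (ρ / 2) \ O₂ with hU₁
  set U₂ := f ⁻¹' closedBall y (ρ / 2) \ O₁ with hU₂
  have hpc : IsClosed (f ⁻¹' closedBall y (ρ / 2)) := isClosed_closedBall.preimage f.continuous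
  have hU₁c : IsCompact U₁ := (hpc.sdiff hO₂).isCompact
  have hU₂c : IsCompact U₂ := (hpc.sdiff hO₁).isCompact
  have hdis : Disjoint U₁ U₂ := by
    rw [disjoint_left]
    rintro z ⟨hz, hz2⟩ ⟨-, hz1⟩
    rcases hcb z hz with h | h
    · exact hz1 h
    · exact hz2 h
  have hcov : ∀ z, dist (f z) y < ρ / 2 → z ∈ U₁ ∨ z ∈ U₂ := by
    intro z hz
    have hz' : z ∈ f ⁻¹' closedBall y (ρ / 2) := mem_closedBall.2 hz.le
    rcases hcb z hz' with h | h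
    · exact Or.inl ⟨hz', fun h' => (disjoint_left.1 hO) h h'⟩
    · exact Or.inr ⟨hz', fun h' => (disjoint_left.1 hO) h' h⟩
  have hop₁ : IsOpen (U₁ ∩ f ⁻¹' ball y (ρ / 2)) := by
    have : U₁ ∩ f ⁻¹' ball y (ρ / 2) = O₁ ∩ f ⁻¹' ball y (ρ / 2) := by
      ext z
      constructor
      · rintro ⟨⟨hz1, hz2⟩, hz3⟩
        exact ⟨(hcb z hz1).resolve_right hz2, hz3⟩
      · rintro ⟨hz1, hz3⟩
        exact ⟨⟨mem_closedBall.2 (mem_ball.1 hz3).le,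
          fun h' => (disjoint_left.1 hO) hz1 h'⟩, hz3⟩
    rw [this]
    exact hO₁.inter (isOpen_ball.preimage f.continuous)
  have hop₂ : IsOpen (U₂ ∩ f ⁻¹' ball y (ρ / 2)) := by
    have : U₂ ∩ f ⁻¹' ball y (ρ / 2) = O₂ ∩ f ⁻¹' ball y (ρ / 2) := by
      ext z
      constructor
      · rintro ⟨⟨hz1, hz2⟩, hz3⟩
        exact ⟨(hcb z hz1).resolve_left hz2, hz3⟩
      · rintro ⟨hz1, hz3⟩
        exact ⟨⟨mem_closedBall.2 (mem_ball.1 hz3).le,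
          fun h' => (disjoint_left.1 hO) h' hz1⟩, hz3⟩
    rw [this]
    exact hO₂.inter (isOpen_ball.preimage f.continuous)
  have hxU : x ∈ U₁ := by
    refine ⟨?_, fun h' => (disjoint_left.1 hO) (hCO₁ hxC) h'⟩
    show f x ∈ closedBall y (ρ / 2)
    rw [hxy]
    exact mem_closedBall_self hρ2.le
  have hxU' : x' ∈ U₂ := by
    refine ⟨?_, fun h' => (disjoint_left.1 hO) h' (hCO₂ hxC')⟩
    show f x' ∈ closedBall y (ρ / 2)
    rw [hxy']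
    exact mem_closedBall_self hρ2.le
  -- the cycles
  obtain ⟨β', hβ', hβ'0, -⟩ := exists_chart (n := n) y Filter.univ_mem
  have hy2 : y ∈ β' '' Q n 2 := ⟨0, mem_closedBall_self (by norm_num), hβ'0⟩
  obtain ⟨βx, hβx, -, -⟩ := exists_chart (n := n) x Filter.univ_mem
  obtain ⟨m, b, hb, hcovM, -, -⟩ := exists_atlas hβx hβx
  have hpos : ∀ k : ℕ, (0 : ℝ) < 1 / ((k : ℝ) + 1) := fun k => by positivity
  choose c hc0 hcs hc1 htot using fun k : ℕ =>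
    good_cycle hn f g hfg hβ' hy2 hb hcovM (hpos k)
  have hcs' : ∀ κ > 0, ∀ᶠ k in atTop, Sup (fun l => l.length = n + 1 ∧ Sm κ l) (c k) := by
    intro κ hκ
    have h3 := tendsto_one_div_add_atTop_nhds_zero_nat (𝕜 := ℝ)
    filter_upwards [h3.eventually (gt_mem_nhds hκ)] with k hk
    exact Sup.mono (fun l hl => ⟨hl.1, sm_mono hk.le hl.2⟩) (hcs k)
  have hc1' : ∀ (x₀ : M) (β : (Fin n → ℝ) → M), IsOpenEmbedding β → β 0 = x₀ →
      ∀ᶠ k in atTop, dg β (c k) x₀ = 1 := by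
    intro x₀ β hβ h0
    obtain ⟨a, ha⟩ := hcovM x₀
    have ha2 : x₀ ∈ b a '' Q n 2 := q_mono (by norm_num) _ ha
    obtain ⟨κ, hκ, H⟩ := dg_inv hn hβ (hb a) (show (0 : ℝ) < 1 by norm_num)
    filter_upwards [hcs' κ hκ] with k hk
    rw [H (c k) x₀ ⟨⟨0, mem_closedBall_self (by norm_num), h0⟩, ha2⟩ hk
      (by rw [hc0 k]; exact Sup.zero)]
    exact hc1 k a x₀ ha2
  let 𝒰 : Ultrafilter ℕ := hyperfilter ℕ
  have h𝒰 : (𝒰 : Filter ℕ) ≤ atTop := by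
    rw [← Nat.cofinite_eq_atTop]
    exact hyperfilter_le_cofinite
  obtain ⟨κ₃, hκ₃, h3⟩ := dec f.continuous hU₁c hU₂c hdis hρ2 hcov hβ'
  have hsum : ∀ᶠ k in 𝒰, 1 = dg β' (pf f ((c k).filter (In U₁))) y +
      dg β' (pf f ((c k).filter (In U₂))) y := by
    filter_upwards [(hcs' κ₃ hκ₃).filter_mono h𝒰] with k hk
    have e3 := (h3 (c k) (hc0 k) hk).2.2 y (q_mono (by norm_num) β' hy2) (by
      rw [dist_self]; linarith)
    rw [htot k] at e3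
    exact e3
  by_cases hD : ∀ᶠ k in 𝒰, dg β' (pf f ((c k).filter (In U₁))) y = 1
  · obtain ⟨V, hV1, hV2, hV3, hV4⟩ := three_aux hn f.continuous hβ' hβ'0 hU₁c hU₂c hdis hρ2 hcov
      hop₁ hop₂ hfib' hxU' hxy' c hc0 hcs' hc1' htot 𝒰 h𝒰 hD
    exact ⟨V, hV1, hV2, hV3.trans hbρ, hV4⟩
  · rw [← Ultrafilter.eventually_not] at hD
    have hD2 : ∀ᶠ k in 𝒰, dg β' (pf f ((c k).filter (In U₂))) y = 1 := by
      filter_upwards [hD, hsum] with k h4 h5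
      have : ∀ z w : ZMod 2, ¬ z = 1 → 1 = z + w → w = 1 := by decide
      exact this _ _ h4 h5
    obtain ⟨V, hV1, hV2, hV3, hV4⟩ := three_aux hn f.continuous hβ' hβ'0 hU₂c hU₁c hdis.symm hρ2
      (fun z hz => (hcov z hz).symm) hop₂ hop₁ hfib' hxU hxy c hc0 hcs' hc1' htot 𝒰 h𝒰 hD2
    exact ⟨V, hV1, hV2, hV3.trans hbρ, hV4⟩

end Vale.Agent.P260.H283
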