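import Vale.Agent.P260.H283.Lip
import Vale.Agent.P260.H283.Cover2
import Mathlib.Geometry.Manifold.Metrizable
import Mathlib.Topology.Separation.Connected

/-!
# Maps with a homotopy section between closed topological manifolds
-/

open Set Topology TopologicalSpace

namespace Vale.Agent.P260.H283

section Met

variable {n : ℕ} {M N : Type*} [MetricSpace M] [CompactSpace M] [ConnectedSpace M]
  [ChartedSpace (EuclideanSpace ℝ (Fin n)) M] [MetricSpace N] [CompactSpace N]
  [ChartedSpace (EuclideanSpace ℝ (Fin n)) N]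

/-- Off a closed set over whose complement the fibres are connected or totally disconnected, and
connected or with at most two points over a dense subset. -/
theorem met_off (hn : 0 < n) (f : C(M, N)) (g : C(N, M))
    (hfg : (f.comp g).Homotopic (ContinuousMap.id N)) {S : Set N} (hS : IsClosed S)
    (hfib : ∀ y ∉ S, IsPreconnected (f ⁻¹' {y}) ∨ IsTotallyDisconnected (f ⁻¹' {y}))
    (hoff : Sᶜ ⊆ closure {y | IsPreconnected (f ⁻¹' {y}) ∨ (f ⁻¹' {y}).encard ≤ 2}) :
    ∀ y ∉ S, IsPreconnected (f ⁻¹' {y}) := by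
  intro y hy
  by_contra hny
  obtain ⟨V, hVo, ⟨z, hz⟩, hVS, hV⟩ := three_local hn f g hfg (hS.isOpen_compl.mem_nhds hy) hfib
    hny
  obtain ⟨w, hwV, hw⟩ := mem_closure_iff.1 (hoff (hVS hz)) V hVo hz
  obtain ⟨h1, a, b, e, hab, hae, hbe, ha, hb, he⟩ := hV w hwV
  rcases hw with h | h
  · exact h1 h
  · have h3 : ({a, b, e} : Set M) ⊆ f ⁻¹' {w} := by
      rintro x (rfl | rfl | rfl)
      exacts [ha, hb, he]
    have h4 := (Set.encard_le_encard h3).trans h
    rw [Set.encard_eq_three.2 ⟨a, b, e, hab, hae, hbe, rfl⟩] at h4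
    exact absurd h4 (by decide)

omit [ConnectedSpace M] [ChartedSpace (EuclideanSpace ℝ (Fin n)) M] in
/-- If the fibres over the complement of a set whose preimage has no interior are connected, then
all the fibres are connected. -/
theorem fibres_int (hn : 0 < n) (f : C(M, N)) (g : C(N, M))
    (hfg : (f.comp g).Homotopic (ContinuousMap.id N)) {S : Set N}
    (hoff : ∀ y ∉ S, IsPreconnected (f ⁻¹' {y})) (hint : interior (f ⁻¹' S) = ∅) (y : N) :
    IsPreconnected (f ⁻¹' {y}) := by
  rw [isPreconnected_closed_iff]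
  intro A B hA hB hAB hneA hneB
  by_contra hemp
  rw [Set.not_nonempty_iff_eq_empty] at hemp
  have hFc : IsClosed (f ⁻¹' {y}) := isClosed_singleton.preimage f.continuous
  have hdis : Disjoint (f ⁻¹' {y} ∩ A) (f ⁻¹' {y} ∩ B) := by
    rw [disjoint_left]
    rintro x ⟨h1, h2⟩ ⟨-, h3⟩
    have : x ∈ f ⁻¹' {y} ∩ (A ∩ B) := ⟨h1, h2, h3⟩
    rw [hemp] at this
    exact this
  obtain ⟨δ, hδ, hd⟩ := hdis.exists_cthickenings (hFc.inter hA).isCompact (hFc.inter hB)
  -- the symmetric statement
  have key : ∀ A B : Set M, f ⁻¹' {y} ⊆ A ∪ B → (f ⁻¹' {y} ∩ B).Nonempty →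
      Disjoint (Metric.cthickening δ (f ⁻¹' {y} ∩ A)) (Metric.cthickening δ (f ⁻¹' {y} ∩ B)) →
      ∀ ρ > 0, (∀ x, dist (f x) y < ρ → x ∈ Metric.cthickening δ (f ⁻¹' {y} ∩ A) ∨
        x ∈ Metric.cthickening δ (f ⁻¹' {y} ∩ B)) →
      ∀ r > 0, Metric.ball y r ⊆ f '' Metric.cthickening δ (f ⁻¹' {y} ∩ A) → False := by
    intro A B hAB hneB hd ρ hρ hcov r hr hon
    obtain ⟨x₀, hx₀, hx₀B⟩ := hneB
    have hx₀y : f x₀ = y := hx₀
    have hopen : IsOpen (Metric.thickening δ (f ⁻¹' {y} ∩ B) ∩ f ⁻¹' Metric.ball y (min ρ r)) :=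
      Metric.isOpen_thickening.inter (Metric.isOpen_ball.preimage f.continuous)
    have hmem : x₀ ∈ Metric.thickening δ (f ⁻¹' {y} ∩ B) ∩ f ⁻¹' Metric.ball y (min ρ r) := by
      refine ⟨Metric.self_subset_thickening hδ _ ⟨hx₀, hx₀B⟩, ?_⟩
      show f x₀ ∈ Metric.ball y (min ρ r)
      rw [hx₀y]
      exact Metric.mem_ball_self (lt_min hρ hr)
    have hsub : Metric.thickening δ (f ⁻¹' {y} ∩ B) ∩ f ⁻¹' Metric.ball y (min ρ r) ⊆
        f ⁻¹' S := by
      rintro x ⟨hxB, hxy⟩
      by_contra hxS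
      have hxy1 : dist (f x) y < ρ := (Metric.mem_ball.1 hxy).trans_le (min_le_left _ _)
      have hxy2 : dist (f x) y < r := (Metric.mem_ball.1 hxy).trans_le (min_le_right _ _)
      have hp := hoff (f x) hxS
      rw [isPreconnected_closed_iff] at hp
      obtain ⟨x', hx', hx'f⟩ := hon (Metric.mem_ball.2 hxy2)
      obtain ⟨w, -, hw1, hw2⟩ := hp _ _ Metric.isClosed_cthickening Metric.isClosed_cthickening (by
          intro z hz
          have hz' : f z = f x := hz
          exact hcov z (by rw [hz']; exact hxy1))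
        ⟨x', hx'f, hx'⟩ ⟨x, rfl, Metric.thickening_subset_cthickening _ _ hxB⟩
      exact (disjoint_left.1 hd) hw1 hw2
    have : x₀ ∈ interior (f ⁻¹' S) := mem_interior.2 ⟨_, hsub, hopen, hmem⟩
    rw [hint] at this
    exact this
  obtain ⟨ρ, hρ, htube⟩ := exists_tube f.continuous
    ((Metric.isOpen_thickening (δ := δ) (E := f ⁻¹' {y} ∩ A)).union
      (Metric.isOpen_thickening (δ := δ) (E := f ⁻¹' {y} ∩ B))) (y := y) (by
      intro x hx
      rcases hAB hx with h | h
      · exact Or.inl (Metric.self_subset_thickening hδ _ ⟨hx, h⟩)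
      · exact Or.inr (Metric.self_subset_thickening hδ _ ⟨hx, h⟩))
  have hcov : ∀ x, dist (f x) y < ρ → x ∈ Metric.cthickening δ (f ⁻¹' {y} ∩ A) ∨
      x ∈ Metric.cthickening δ (f ⁻¹' {y} ∩ B) := fun x hx =>
    (htube x hx).imp (fun h => Metric.thickening_subset_cthickening _ _ h)
      (fun h => Metric.thickening_subset_cthickening _ _ h)
  rcases stepA (n := n) hn f g hfg Metric.isClosed_cthickening.isCompact
    Metric.isClosed_cthickening.isCompact hd hρ hcov with ⟨r, hr, hon⟩ | ⟨r, hr, hon⟩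
  · exact key A B hAB hneB hd ρ hρ hcov r hr hon
  · exact key B A (by rw [union_comm]; exact hAB) hneA hd.symm ρ hρ
      (fun x hx => (hcov x hx).symm) r hr hon

end Met

section Top

variable {n : ℕ} {M N : Type*} [TopologicalSpace M] [T2Space M] [CompactSpace M]
  [ConnectedSpace M] [ChartedSpace (EuclideanSpace ℝ (Fin n)) M] [TopologicalSpace N] [T2Space N]
  [CompactSpace N] [ChartedSpace (EuclideanSpace ℝ (Fin n)) N]

theorem top_surj (hn : 0 < n) (f : C(M, N)) (g : C(N, M))
    (hfg : (f.comp g).Homotopic (ContinuousMap.id N)) : Function.Surjective f := by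
  have : SecondCountableTopology M :=
    ChartedSpace.secondCountable_of_sigmaCompact (EuclideanSpace ℝ (Fin n)) M
  have : SecondCountableTopology N :=
    ChartedSpace.secondCountable_of_sigmaCompact (EuclideanSpace ℝ (Fin n)) N
  have : MetrizableSpace M := metrizableSpace_of_t3_secondCountable M
  have : MetrizableSpace N := metrizableSpace_of_t3_secondCountable N
  let _ : MetricSpace M := metrizableSpaceMetric M
  let _ : MetricSpace N := metrizableSpaceMetric N
  exact surj (n := n) hn f g hfg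

theorem top_local (hn : 0 < n) (f : C(M, N)) (g : C(N, M))
    (hfg : (f.comp g).Homotopic (ContinuousMap.id N)) {y : N} {W : Set N} (hW : W ∈ 𝓝 y)
    (hfib : ∀ z ∈ W, IsPreconnected (f ⁻¹' {z}) ∨ IsTotallyDisconnected (f ⁻¹' {z}))
    (hny : ¬ IsPreconnected (f ⁻¹' {y})) :
    ∃ V : Set N, IsOpen V ∧ V.Nonempty ∧ V ⊆ W ∧ ∀ z ∈ V, ¬ IsPreconnected (f ⁻¹' {z}) ∧
      3 ≤ (f ⁻¹' {z}).encard := by
  have : SecondCountableTopology M :=
    ChartedSpace.secondCountable_of_sigmaCompact (EuclideanSpace ℝ (Fin n)) M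
  have : SecondCountableTopology N :=
    ChartedSpace.secondCountable_of_sigmaCompact (EuclideanSpace ℝ (Fin n)) N
  have : MetrizableSpace M := metrizableSpace_of_t3_secondCountable M
  have : MetrizableSpace N := metrizableSpace_of_t3_secondCountable N
  let _ : MetricSpace M := metrizableSpaceMetric M
  let _ : MetricSpace N := metrizableSpaceMetric N
  obtain ⟨V, h1, h2, h3, h4⟩ := three_local (n := n) hn f g hfg hW hfib hny
  refine ⟨V, h1, h2, h3, fun z hz => ⟨(h4 z hz).1, ?_⟩⟩
  obtain ⟨-, a, b, e, hab, hae, hbe, ha, hb, he⟩ := h4 z hz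
  have h5 : ({a, b, e} : Set M) ⊆ f ⁻¹' {z} := by
    rintro x (rfl | rfl | rfl)
    exacts [ha, hb, he]
  rw [← Set.encard_eq_three.2 ⟨a, b, e, hab, hae, hbe, rfl⟩]
  exact Set.encard_le_encard h5

theorem top_off (hn : 0 < n) (f : C(M, N)) (g : C(N, M))
    (hfg : (f.comp g).Homotopic (ContinuousMap.id N)) {S : Set N} (hS : IsClosed S)
    (hfib : ∀ y ∉ S, IsPreconnected (f ⁻¹' {y}) ∨ IsTotallyDisconnected (f ⁻¹' {y}))
    (hoff : Sᶜ ⊆ closure {y | IsPreconnected (f ⁻¹' {y}) ∨ (f ⁻¹' {y}).encard ≤ 2}) :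
    ∀ y ∉ S, IsConnected (f ⁻¹' {y}) := by
  have hs := top_surj (n := n) hn f g hfg
  have : SecondCountableTopology M :=
    ChartedSpace.secondCountable_of_sigmaCompact (EuclideanSpace ℝ (Fin n)) M
  have : SecondCountableTopology N :=
    ChartedSpace.secondCountable_of_sigmaCompact (EuclideanSpace ℝ (Fin n)) N
  have : MetrizableSpace M := metrizableSpace_of_t3_secondCountable M
  have : MetrizableSpace N := metrizableSpace_of_t3_secondCountable N
  let _ : MetricSpace M := metrizableSpaceMetric M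
  let _ : MetricSpace N := metrizableSpaceMetric N
  refine fun y hy => ⟨?_, met_off (n := n) hn f g hfg hS hfib hoff y hy⟩
  obtain ⟨x, hx⟩ := hs y
  exact ⟨x, hx⟩

theorem top_all (hn : 0 < n) (f : C(M, N)) (g : C(N, M))
    (hfg : (f.comp g).Homotopic (ContinuousMap.id N)) {S : Set N} (hS : IsClosed S)
    (hfib : ∀ y ∉ S, IsPreconnected (f ⁻¹' {y}) ∨ IsTotallyDisconnected (f ⁻¹' {y}))
    (hoff : Sᶜ ⊆ closure {y | IsPreconnected (f ⁻¹' {y}) ∨ (f ⁻¹' {y}).encard ≤ 2})
    (hS2 : (2 ≤ n ∧ S.Countable) ∨ interior (f ⁻¹' S) = ∅) (y : N) :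
    IsConnected (f ⁻¹' {y}) := by
  have hs := top_surj (n := n) hn f g hfg
  have hc := top_off (n := n) hn f g hfg hS hfib hoff
  have : SecondCountableTopology M :=
    ChartedSpace.secondCountable_of_sigmaCompact (EuclideanSpace ℝ (Fin n)) M
  have : SecondCountableTopology N :=
    ChartedSpace.secondCountable_of_sigmaCompact (EuclideanSpace ℝ (Fin n)) N
  have : MetrizableSpace M := metrizableSpace_of_t3_secondCountable M
  have : MetrizableSpace N := metrizableSpace_of_t3_secondCountable N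
  let _ : MetricSpace M := metrizableSpaceMetric M
  let _ : MetricSpace N := metrizableSpaceMetric N
  refine ⟨?_, ?_⟩
  · obtain ⟨x, hx⟩ := hs y
    exact ⟨x, hx⟩
  rcases hS2 with ⟨h2, hcount⟩ | hint
  · exact fibres_connected n f hs hS (fun z hz => (hc z hz).isPreconnected)
      (fun z _ W hW => nonsep_countable h2 hcount z hW) (Or.inl hcount) y
  · exact fibres_int (n := n) hn f g hfg (fun z hz => (hc z hz).isPreconnected) hint y

theorem top_cover (hn : 0 < n) (f : C(M, N)) (g : C(N, M))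
    (hfg : (f.comp g).Homotopic (ContinuousMap.id N)) {y : N} {W : Set N} (hW : W ∈ 𝓝 y)
    (hfib : ∀ z ∈ W, (f ⁻¹' {z}).Finite) (hny : ¬ (f ⁻¹' {y}).Subsingleton) :
    ∃ V : Set N, IsOpen V ∧ V.Nonempty ∧ V ⊆ W ∧ ∃ m : ℕ, Odd m ∧ 3 ≤ m ∧
      ∃ U : Fin m → Set M, (∀ i, IsOpen (U i)) ∧ (∀ i j, i ≠ j → Disjoint (U i) (U j)) ∧
        f ⁻¹' V = ⋃ i, U i ∧ ∀ i, IsOpenEmbedding (fun x : U i => f x) ∧ f '' U i = V := by
  have : SecondCountableTopology M :=
    ChartedSpace.secondCountable_of_sigmaCompact (EuclideanSpace ℝ (Fin n)) M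
  have : SecondCountableTopology N :=
    ChartedSpace.secondCountable_of_sigmaCompact (EuclideanSpace ℝ (Fin n)) N
  have : MetrizableSpace M := metrizableSpace_of_t3_secondCountable M
  have : MetrizableSpace N := metrizableSpace_of_t3_secondCountable N
  let _ : MetricSpace M := metrizableSpaceMetric M
  let _ : MetricSpace N := metrizableSpaceMetric N
  exact cover_local (n := n) hn f g hfg hW hfib hny

omit [T2Space M] [CompactSpace M] [ConnectedSpace M]
  [ChartedSpace (EuclideanSpace ℝ (Fin n)) M] [T2Space N] [CompactSpace N]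
  [ChartedSpace (EuclideanSpace ℝ (Fin n)) N] in
/-- The number of points of a fibre over an evenly covered set. -/
theorem card_fibre {f : M → N} {V : Set N} {m : ℕ} {U : Fin m → Set M}
    (hd : ∀ i j, i ≠ j → Disjoint (U i) (U j)) (hV : f ⁻¹' V = ⋃ i, U i)
    (hU : ∀ i, IsOpenEmbedding (fun x : U i => f x) ∧ f '' U i = V) {z : N} (hz : z ∈ V) :
    (f ⁻¹' {z}).ncard = m := by
  have h1 : ∀ i, ∃ x, x ∈ U i ∧ f x = z := by
    intro i
    have : z ∈ f '' U i := by rw [(hU i).2]; exact hz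
    exact this
  choose p hp hpz using h1
  have hinj : Function.Injective p := by
    intro i j hij
    by_contra hne
    exact (disjoint_left.1 (hd i j hne)) (hp i) (hij ▸ hp j)
  have hr : f ⁻¹' {z} = range p := by
    ext x
    constructor
    · intro hx
      have hx' : f x = z := hx
      have hxV : x ∈ f ⁻¹' V := by
        show f x ∈ V
        rw [hx']; exact hz
      rw [hV] at hxV
      obtain ⟨i, hi⟩ := mem_iUnion.1 hxV
      have h2 := (hU i).1.injective (a₁ := ⟨x, hi⟩) (a₂ := ⟨p i, hp i⟩)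
        (show f x = f (p i) by rw [hx', hpz i])
      exact ⟨i, (congrArg Subtype.val h2).symm⟩
    · rintro ⟨i, rfl⟩
      exact hpz i
  rw [hr, ← image_univ, ncard_image_of_injective _ hinj, ncard_univ, Nat.card_fin]

/-- A map with finite fibres and a homotopy section, such that the points whose fibre does not
have an odd number, at least three, of points are dense, is a homeomorphism. -/
theorem top_fin (hn : 0 < n) (f : C(M, N)) (g : C(N, M))
    (hfg : (f.comp g).Homotopic (ContinuousMap.id N))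
    (hfin : ∀ y, (f ⁻¹' {y}).Finite)
    (h2 : Dense {y | ¬ (Odd (f ⁻¹' {y}).ncard ∧ 3 ≤ (f ⁻¹' {y}).ncard)}) : IsHomeomorph f := by
  have hs := top_surj (n := n) hn f g hfg
  have hsub : ∀ y, (f ⁻¹' {y}).Subsingleton := by
    intro y
    by_contra hny
    obtain ⟨V, hVo, hVne, -, m, hm, hm3, U, -, hd, hV, hU⟩ := top_cover (n := n) hn f g hfg
      (Filter.univ_mem (f := 𝓝 y)) (fun z _ => hfin z) hny
    obtain ⟨z, hzV, hz⟩ := h2.inter_open_nonempty V hVo hVne
    refine hz ?_
    rw [card_fibre hd hV hU hzV]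
    exact ⟨hm, hm3⟩
  rw [isHomeomorph_iff_continuous_bijective]
  exact ⟨f.continuous, fun x x' h => hsub (f x) rfl h.symm, hs⟩

/-- A light map with a homotopy section and small fibres over a dense set is a homeomorphism. -/
theorem top_two (hn : 0 < n) (f : C(M, N)) (g : C(N, M))
    (hfg : (f.comp g).Homotopic (ContinuousMap.id N))
    (hlight : ∀ y, IsTotallyDisconnected (f ⁻¹' {y}))
    (h2 : Dense {y | (f ⁻¹' {y}).encard ≤ 2}) : IsHomeomorph f := by
  have hs := top_surj (n := n) hn f g hfg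
  have hc := top_off (n := n) hn f g hfg isClosed_empty (fun y _ => Or.inr (hlight y)) (by
    intro y _
    exact closure_mono (fun z hz => Or.inr hz) (h2 y))
  exact homeo_of_fibres f hs (fun y => (hc y (notMem_empty _)).isPreconnected) hlight

theorem top_rec (hn : 0 < n) (f : C(M, N)) (g : C(N, M))
    (hfg : (f.comp g).Homotopic (ContinuousMap.id N))
    (hgf : (g.comp f).Homotopic (ContinuousMap.id M))
    (hrec : ∀ U : Set (M × M), IsOpen U → diagonal M ⊆ U →
      ∃ k l : ℕ, k < l ∧ ∀ x, ((g ∘ f)^[k] x, (g ∘ f)^[l] x) ∈ U) : IsHomeomorph f := by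
  have hs := top_surj (n := n) hn f g hfg
  have : SecondCountableTopology M :=
    ChartedSpace.secondCountable_of_sigmaCompact (EuclideanSpace ℝ (Fin n)) M
  have : MetrizableSpace M := metrizableSpace_of_t3_secondCountable M
  let _ : MetricSpace M := metrizableSpaceMetric M
  rw [isHomeomorph_iff_continuous_bijective]
  refine ⟨f.continuous, fun x x' h => ?_, hs⟩
  refine inj_of_rec (n := n) hn (g.comp f) hgf hrec ?_
  show g (f x) = g (f x')
  rw [h]

end Top

section Lip

theorem lip_homothety {n : ℕ} (hn : 0 < n) {M N : Type*} [MetricSpace M] [CompactSpace M]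
    [ConnectedSpace M] [ChartedSpace (EuclideanSpace ℝ (Fin n)) M] [MetricSpace N]
    [CompactSpace N] [ChartedSpace (EuclideanSpace ℝ (Fin n)) N]
    (H : ∀ ε : ℝ, 0 < ε → ∃ (f : C(M, N)) (g : C(N, M)) (K L : NNReal),
      (f.comp g).Homotopic (ContinuousMap.id N) ∧ (g.comp f).Homotopic (ContinuousMap.id M) ∧
      LipschitzWith K f ∧ LipschitzWith L g ∧ (K : ℝ) * L ≤ 1 + ε) :
    ∃ (R : ℝ) (e : M ≃ₜ N), 0 < R ∧ ∀ x x', dist (e x) (e x') = R * dist x x' := by
  have hpos : ∀ i : ℕ, (0 : ℝ) < 1 / ((i : ℝ) + 1) := fun i => by positivity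
  choose f g K L hfg hgf hK hL hKL using fun i : ℕ => H (1 / ((i : ℝ) + 1)) (hpos i)
  have hfs : ∀ i, Function.Surjective (f i) := fun i => surj (n := n) hn (f i) (g i) (hfg i)
  have hgs : ∀ i, Function.Surjective (g i) := fun i => surj (n := n) hn (g i) (f i) (hgf i)
  have hcomp : ∀ i, Function.Surjective (g i ∘ f i) := fun i => (hgs i).comp (hfs i)
  -- the diameters
  obtain ⟨x₀⟩ : Nonempty M := inferInstance
  have hcM : IsCompact (univ : Set M) := isCompact_univ
  have hcN : IsCompact (univ : Set N) := isCompact_univ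
  have bM : Bornology.IsBounded (univ : Set M) := hcM.isBounded
  have bN : Bornology.IsBounded (univ : Set N) := hcN.isBounded
  set D := Metric.diam (univ : Set M) with hD
  set E := Metric.diam (univ : Set N) with hE
  have dM : ∀ x x' : M, dist x x' ≤ D := fun x x' =>
    Metric.dist_le_diam_of_mem bM (mem_univ _) (mem_univ _)
  have dN : ∀ x x' : N, dist x x' ≤ E := fun x x' =>
    Metric.dist_le_diam_of_mem bN (mem_univ _) (mem_univ _)
  have hEK : ∀ i, E ≤ K i * D := by
    intro i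
    refine Metric.diam_le_of_forall_dist_le (by positivity) ?_
    intro y _ y' _
    obtain ⟨x, rfl⟩ := hfs i y
    obtain ⟨x', rfl⟩ := hfs i y'
    exact ((hK i).dist_le_mul x x').trans (mul_le_mul_of_nonneg_left (dM x x') (K i).2)
  have hDL : ∀ i, D ≤ L i * E := by
    intro i
    refine Metric.diam_le_of_forall_dist_le (by positivity) ?_
    intro y _ y' _
    obtain ⟨x, rfl⟩ := hgs i y
    obtain ⟨x', rfl⟩ := hgs i y'
    exact ((hL i).dist_le_mul x x').trans (mul_le_mul_of_nonneg_left (dN x x') (L i).2)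
  have hDpos : 0 < D := by
    obtain ⟨β, hβ, h0, -⟩ := exists_chart (n := n) x₀ Filter.univ_mem
    have hne : β 0 ≠ β 1 := by
      intro h
      have h1 := hβ.injective h
      have h2 := congrFun h1 ⟨0, hn⟩
      simp at h2
    exact (dist_pos.2 hne).trans_le (dM _ _)
  have hEpos : 0 < E := by
    have h1 := hDL 0
    by_contra hneg
    have h2 : E = 0 := le_antisymm (not_lt.1 hneg) Metric.diam_nonneg
    rw [h2, mul_zero] at h1
    exact absurd hDpos (not_lt.2 h1)
  have hR : 0 < E / D := div_pos hEpos hDpos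
  have hLlow : ∀ i, D / E ≤ L i := fun i => by
    rw [div_le_iff₀ hEpos]; exact hDL i
  have hKlow : ∀ i, E / D ≤ K i := fun i => by
    rw [div_le_iff₀ hDpos]; exact hEK i
  have hKup : ∀ i : ℕ, (K i : ℝ) ≤ (1 + 1 / ((i : ℝ) + 1)) * (E / D) := by
    intro i
    have h1 : (K i : ℝ) * (D / E) ≤ 1 + 1 / ((i : ℝ) + 1) :=
      (mul_le_mul_of_nonneg_left (hLlow i) (K i).2).trans (hKL i)
    have h2 := mul_le_mul_of_nonneg_right h1 hR.le
    have h3 : (K i : ℝ) * (D / E) * (E / D) = K i := by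
      field_simp
    rwa [h3] at h2
  have hLup : ∀ i : ℕ, (L i : ℝ) ≤ (1 + 1 / ((i : ℝ) + 1)) * (E / D)⁻¹ := by
    intro i
    have h1 : (E / D) * (L i : ℝ) ≤ 1 + 1 / ((i : ℝ) + 1) :=
      (mul_le_mul_of_nonneg_right (hKlow i) (L i).2).trans (hKL i)
    have h2 := mul_le_mul_of_nonneg_right h1 (inv_pos.2 hR).le
    have h3 : (E / D) * (L i : ℝ) * (E / D)⁻¹ = L i := by
      field_simp
    rwa [h3] at h2
  obtain ⟨e, he⟩ := lim_homothety hR (fun i => f i) (fun i => g i)
    (fun i => 1 / ((i : ℝ) + 1)) tendsto_one_div_add_atTop_nhds_zero_nat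
    (fun i => by
      rw [div_le_one (by positivity)]
      have : (0 : ℝ) ≤ i := Nat.cast_nonneg i
      linarith)
    (fun i x x' => ((hK i).dist_le_mul x x').trans
      (mul_le_mul_of_nonneg_right (hKup i) dist_nonneg))
    (fun i x x' => ((hL i).dist_le_mul x x').trans
      (mul_le_mul_of_nonneg_right (hLup i) dist_nonneg)) hfs hcomp
  exact ⟨E / D, e, hR, he⟩

end Lip

end Vale.Agent.P260.H283
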